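import Vale.Agent.P067.Full.Defs

/-!
# P067 full answer: chains mod 2, cones, simplicial maps, inductive extensions
-/

open Finset

noncomputable section

namespace Vale.Agent.P067.Full

variable {α β γ : Type}

theorem ch_add_self (z : Ch α) : z + z = 0 := by
  ext s; simpa using CharTwo.add_self_eq_zero (z s)

theorem ch_eq_of_add_eq_zero {x y : Ch α} (h : x + y = 0) : x = y := by
  calc x = x + (y + y) := by rw [ch_add_self, add_zero]
    _ = (x + y) + y := by rw [add_assoc]
    _ = y := by rw [h, zero_add]

theorem ch_add_eq_iff {x y z : Ch α} : x + y = z ↔ x = z + y := by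
  constructor <;> rintro rfl <;> rw [add_assoc, ch_add_self, add_zero]

section Bd

variable [DecidableEq α]

theorem bd_single (s : Finset α) (a : ZMod 2) :
    bd (Finsupp.single s a) = ∑ x ∈ s, Finsupp.single (s.erase x) a := by
  simp [bd, Finset.smul_sum]

theorem sum_pairs_cancel {M : Type} [AddCommMonoid M] (h2 : ∀ m : M, m + m = 0) (G : α → α → M)
    (hG : ∀ x y, G x y = G y x) (s : Finset α) :
    ∑ x ∈ s, ∑ y ∈ s.erase x, G x y = 0 := by
  induction s using Finset.induction_on with
  | empty => simp
  | @insert a s ha ih =>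
    have h : ∀ x ∈ s, ∑ y ∈ (insert a s).erase x, G x y = G a x + ∑ y ∈ s.erase x, G x y := by
      intro x hx
      have hax : a ≠ x := fun h => ha (h ▸ hx)
      rw [erase_insert_of_ne hax, sum_insert (fun h => ha (mem_of_mem_erase h)), hG x a]
    rw [sum_insert ha, erase_insert ha, sum_congr rfl h, sum_add_distrib, ih, add_zero, h2]

theorem bd_bd (z : Ch α) : bd (bd z) = 0 := by
  induction z using Finsupp.induction_linear with
  | zero => simp
  | add f g hf hg => simp [hf, hg]
  | single s a =>
    rw [bd_single, map_sum]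
    simp only [bd_single]
    exact sum_pairs_cancel ch_add_self _ (fun x y => by rw [erase_right_comm]) s

theorem cone_single (x : α) (s : Finset α) (a : ZMod 2) :
    cone x (Finsupp.single s a) = if x ∈ s then 0 else Finsupp.single (insert x s) a := by
  simp only [cone, Finsupp.linearCombination_single]
  split_ifs <;> simp

theorem bd_cone (x : α) (z : Ch α) : bd (cone x z) = z + cone x (bd z) := by
  induction z using Finsupp.induction_linear with
  | zero => simp
  | add f g hf hg => simp only [map_add, hf, hg]; abel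
  | single s a =>
    rw [cone_single, bd_single, map_sum]
    simp only [cone_single]
    by_cases hx : x ∈ s
    · rw [if_pos hx, map_zero, ← Finset.insert_erase hx, sum_insert (notMem_erase x s)]
      rw [erase_insert (notMem_erase x s), if_neg (notMem_erase x s), sum_eq_zero]
      · rw [add_zero, ch_add_self]
      · intro y hy
        rw [if_pos]
        exact mem_erase.2 ⟨(ne_of_mem_erase hy).symm, mem_insert_self x _⟩
    · rw [if_neg hx, bd_single, sum_insert hx, erase_insert hx]
      refine congrArg (Finsupp.single s a + ·) (sum_congr rfl fun y hy => ?_)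
      have hxy : x ≠ y := fun h => hx (h ▸ hy)
      rw [erase_insert_of_ne hxy, if_neg fun h => hx (mem_of_mem_erase h)]

theorem bd_cone_of_bd_eq_zero (x : α) {z : Ch α} (h : bd z = 0) : bd (cone x z) = z := by
  rw [bd_cone, h, map_zero, add_zero]

end Bd

section Map

theorem chMap_single [DecidableEq β] (f : α → β) (s : Finset α) (a : ZMod 2) :
    chMap f (Finsupp.single s a) =
      if (s.image f).card = s.card then Finsupp.single (s.image f) a else 0 := by
  simp only [chMap, Finsupp.linearCombination_single]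
  split_ifs <;> simp

theorem chMap_bd [DecidableEq α] [DecidableEq β] (f : α → β) (z : Ch α) :
    bd (chMap f z) = chMap f (bd z) := by
  induction z using Finsupp.induction_linear with
  | zero => simp
  | add u v hu hv => simp only [map_add, hu, hv]
  | single s a =>
    rw [chMap_single, bd_single, map_sum]
    simp only [chMap_single]
    by_cases hinj : (s.image f).card = s.card
    · have hi : Set.InjOn f s := card_image_iff.1 hinj
      rw [if_pos hinj, bd_single, sum_image hi]
      refine sum_congr rfl fun x hx => ?_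
      have h2 : ((s.erase x).image f).card = (s.erase x).card :=
        card_image_of_injOn (hi.mono (by simp))
      have h3 : (s.erase x).image f = (s.image f).erase (f x) := by
        ext b
        simp only [mem_image, mem_erase]
        constructor
        · rintro ⟨y, ⟨hy, hys⟩, rfl⟩
          exact ⟨fun h => hy (hi hys hx h), y, hys, rfl⟩
        · rintro ⟨hb, y, hys, rfl⟩
          exact ⟨y, ⟨fun h => hb (by rw [h]), hys⟩, rfl⟩
      rw [if_pos h2, h3]
    · rw [if_neg hinj, map_zero]
      have hni : ¬ Set.InjOn f s := fun h => hinj (card_image_iff.2 h)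
      simp only [Set.InjOn, mem_coe, not_forall] at hni
      obtain ⟨p, hp, q, hq, hpq, hne⟩ := hni
      symm
      -- erasing `p` or `q` gives the same image; erasing anything else keeps the collision
      rw [← add_sum_erase s _ hp, ← add_sum_erase (s.erase p) _ (mem_erase.2 ⟨Ne.symm hne, hq⟩)]
      have hrest : ∀ x ∈ (s.erase p).erase q,
          (if ((s.erase x).image f).card = (s.erase x).card then
            Finsupp.single ((s.erase x).image f) a else 0) = 0 := by
        intro x hx
        obtain ⟨hxq, hx⟩ := mem_erase.1 hx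
        have hxp := ne_of_mem_erase hx
        rw [if_neg]
        intro h
        exact hne (card_image_iff.1 h (mem_erase.2 ⟨Ne.symm hxp, hp⟩)
          (mem_erase.2 ⟨Ne.symm hxq, hq⟩) hpq)
      rw [sum_eq_zero hrest, add_zero]
      have heq : (s.erase p).image f = (s.erase q).image f := by
        ext b
        simp only [mem_image, mem_erase]
        constructor
        · rintro ⟨y, ⟨hy, hys⟩, rfl⟩
          by_cases hyq : y = q
          · exact ⟨p, ⟨hne, hp⟩, hyq ▸ hpq⟩
          · exact ⟨y, ⟨hyq, hys⟩, rfl⟩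
        · rintro ⟨y, ⟨hy, hys⟩, rfl⟩
          by_cases hyp : y = p
          · exact ⟨q, ⟨Ne.symm hne, hq⟩, hyp ▸ hpq.symm⟩
          · exact ⟨y, ⟨hyp, hys⟩, rfl⟩
      have hc : (s.erase p).card = (s.erase q).card := by
        rw [card_erase_of_mem hp, card_erase_of_mem hq]
      rw [heq, hc]
      exact ch_add_self _

theorem chMap_chMap [DecidableEq β] [DecidableEq γ] (g : β → γ) (f : α → β) (z : Ch α) :
    chMap g (chMap f z) = chMap (g ∘ f) z := by
  induction z using Finsupp.induction_linear with
  | zero => simp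
  | add u v hu hv => simp only [map_add, hu, hv]
  | single s a =>
    by_cases h : (s.image f).card = s.card
    · rw [chMap_single, if_pos h, chMap_single, chMap_single, image_image, h]
    · rw [chMap_single, if_neg h, map_zero, chMap_single, if_neg]
      intro h'
      rw [← image_image] at h'
      exact h (le_antisymm card_image_le (h' ▸ card_image_le))

theorem chMap_congr [DecidableEq β] {f g : α → β} {z : Ch α}
    (h : ∀ s ∈ z.support, ∀ x ∈ s, f x = g x) : chMap f z = chMap g z := by
  rw [← Finsupp.sum_single z, Finsupp.sum, map_sum, map_sum]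
  refine sum_congr rfl fun s hs => ?_
  rw [chMap_single, chMap_single, image_congr (h s hs)]

theorem chMap_id [DecidableEq α] (z : Ch α) : chMap id z = z := by
  induction z using Finsupp.induction_linear with
  | zero => simp
  | add u v hu hv => simp only [map_add, hu, hv]
  | single s a => simp [chMap_single]

end Map

section Sup

variable {K K' : Set (Finset α)} {c : ℕ}

theorem Sup.zero : Sup K c (0 : Ch α) := by simp [Sup]

theorem Sup.add {x y : Ch α} (hx : Sup K c x) (hy : Sup K c y) : Sup K c (x + y) := by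
  classical
  intro s hs
  rcases mem_union.1 (Finsupp.support_add hs) with h | h
  · exact hx s h
  · exact hy s h

theorem Sup.sum {ι : Type} (t : Finset ι) (f : ι → Ch α) (h : ∀ i ∈ t, Sup K c (f i)) :
    Sup K c (∑ i ∈ t, f i) := by
  classical
  induction t using Finset.induction_on with
  | empty => simpa using Sup.zero
  | @insert a t ha ih =>
    rw [sum_insert ha]
    exact (h a (mem_insert_self a t)).add (ih fun i hi => h i (mem_insert_of_mem hi))

theorem Sup.single {s : Finset α} (a : ZMod 2) (hs : s ∈ K) (hc : s.card = c) :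
    Sup K c (Finsupp.single s a) := by
  intro t ht
  rw [mem_singleton.1 (Finsupp.support_single_subset ht)]
  exact ⟨hs, hc⟩

theorem Sup.smul (a : ZMod 2) {x : Ch α} (hx : Sup K c x) : Sup K c (a • x) :=
  fun s hs => hx s (Finsupp.support_smul hs)

theorem Sup.mono (h : ∀ s ∈ K, s.card = c → s ∈ K') {x : Ch α} (hx : Sup K c x) : Sup K' c x :=
  fun s hs => ⟨h s (hx s hs).1 (hx s hs).2, (hx s hs).2⟩

/-- A linear map sends a chain into `K'` as soon as it sends its simplices there. -/
theorem Sup.map {K' : Set (Finset β)} {c' : ℕ} (F : Ch α →ₗ[ZMod 2] Ch β) {x : Ch α}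
    (hx : Sup K c x) (h : ∀ s ∈ K, s.card = c → Sup K' c' (F (Finsupp.single s 1))) :
    Sup K' c' (F x) := by
  rw [← Finsupp.sum_single x, Finsupp.sum, map_sum]
  refine Sup.sum _ _ fun s hs => ?_
  rw [← Finsupp.smul_single_one s (x s), map_smul]
  exact (h s (hx s hs).1 (hx s hs).2).smul _

theorem Sup.chMap [DecidableEq β] (f : α → β) {K' : Set (Finset β)} {x : Ch α} (hx : Sup K c x)
    (h : ∀ s ∈ K, s.card = c → (s.image f).card = c → s.image f ∈ K') :
    Sup K' c (chMap f x) := by
  refine hx.map (Full.chMap f) fun s hs hc => ?_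
  rw [chMap_single]
  split_ifs with hi
  · exact Sup.single 1 (h s hs hc (hi.trans hc)) (hi.trans hc)
  · exact Sup.zero

theorem Sup.bd [DecidableEq α] (hdown : ∀ s ∈ K, ∀ t ⊆ s, t ∈ K) {x : Ch α}
    (hx : Sup K c x) : Sup K (c - 1) (bd x) := by
  refine hx.map Full.bd fun s hs hc => ?_
  rw [bd_single]
  refine Sup.sum _ _ fun a ha => Sup.single 1 (hdown s hs _ (erase_subset a s)) ?_
  rw [card_erase_of_mem ha, hc]

theorem Sup.cone [DecidableEq α] (v : α) {x : Ch α} (hx : Sup K c x)
    (h : ∀ s ∈ K, s.card = c → v ∉ s → insert v s ∈ K') : Sup K' (c + 1) (cone v x) := by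
  refine hx.map (Full.cone v) fun s hs hc => ?_
  rw [cone_single]
  split_ifs with hv
  · exact Sup.zero
  · exact Sup.single 1 (h s hs hc hv) (by rw [card_insert_of_notMem hv, hc])

theorem Bnd.zero [DecidableEq α] : Bnd K c (0 : Ch α) := ⟨0, Sup.zero, map_zero _⟩

theorem Bnd.add [DecidableEq α] {x y : Ch α} (hx : Bnd K c x) (hy : Bnd K c y) :
    Bnd K c (x + y) := by
  obtain ⟨u, hu, rfl⟩ := hx
  obtain ⟨v, hv, rfl⟩ := hy
  exact ⟨u + v, hu.add hv, map_add _ _ _⟩

theorem Bnd.mono [DecidableEq α] (h : ∀ s ∈ K, s.card = c + 1 → s ∈ K') {x : Ch α}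
    (hx : Bnd K c x) : Bnd K' c x := by
  obtain ⟨u, hu, rfl⟩ := hx
  exact ⟨u, hu.mono h, rfl⟩

theorem Bnd.sum [DecidableEq α] {ι : Type} (t : Finset ι) (f : ι → Ch α)
    (h : ∀ i ∈ t, Bnd K c (f i)) : Bnd K c (∑ i ∈ t, f i) := by
  classical
  induction t using Finset.induction_on with
  | empty => simpa using Bnd.zero
  | @insert a t ha ih =>
    rw [sum_insert ha]
    exact (h a (mem_insert_self a t)).add (ih fun i hi => h i (mem_insert_of_mem hi))

theorem Bnd.bd_eq_zero [DecidableEq α] {x : Ch α} (hx : Bnd K c x) : Full.bd x = 0 := by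
  obtain ⟨w, -, rfl⟩ := hx
  exact bd_bd w

end Sup

/-- Inductive construction of a linear map `F` with `bd (F s) = E s + F (bd s)`: chain maps
(`E = 0`) and homotopies (`E = A + B`). The admissibility `P j s` controls the image of a simplex
`s` of size `j`. -/
theorem exists_extension [DecidableEq α] [DecidableEq β] (K : Set (Finset α))
    (hdown : ∀ s ∈ K, ∀ t ⊆ s, t ∈ K) (c : ℕ) (E : Ch α →ₗ[ZMod 2] Ch β)
    (hE : ∀ s ∈ K, s.card ≤ c → bd (E (Finsupp.single s 1)) = E (bd (Finsupp.single s 1)))
    (P : ℕ → Finset α → Ch β → Prop)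
    (hfill : ∀ s ∈ K, s.card ≤ c → ∀ d : α → Ch β, (∀ x ∈ s, P (s.card - 1) (s.erase x) (d x)) →
      bd (E (Finsupp.single s 1) + ∑ x ∈ s, d x) = 0 →
      ∃ w, P s.card s w ∧ bd w = E (Finsupp.single s 1) + ∑ x ∈ s, d x) :
    ∃ F : Ch α →ₗ[ZMod 2] Ch β, ∀ s ∈ K, s.card ≤ c →
      P s.card s (F (Finsupp.single s 1)) ∧
        bd (F (Finsupp.single s 1)) = E (Finsupp.single s 1) + F (bd (Finsupp.single s 1)) := by
  classical
  suffices h : ∀ j, j ≤ c + 1 → ∃ f : Finset α → Ch β, ∀ s ∈ K, s.card < j →
      P s.card s (f s) ∧ bd (f s) = E (Finsupp.single s 1) + ∑ x ∈ s, f (s.erase x) by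
    obtain ⟨f, hf⟩ := h (c + 1) le_rfl
    refine ⟨Finsupp.linearCombination (ZMod 2) f, fun s hs hc => ?_⟩
    have h1 : ∀ t : Finset α,
        Finsupp.linearCombination (ZMod 2) f (Finsupp.single t 1) = f t := by simp
    rw [bd_single, map_sum]
    simp only [h1]
    exact hf s hs (by omega)
  intro j
  induction j with
  | zero => exact fun _ => ⟨0, fun s _ h => absurd h (Nat.not_lt_zero _)⟩
  | succ j ih =>
    intro hj
    obtain ⟨f, hf⟩ := ih (by omega)
    have hcyc : ∀ s ∈ K, s.card = j →
        bd (E (Finsupp.single s 1) + ∑ x ∈ s, f (s.erase x)) = 0 := by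
      intro s hs hcard
      rw [map_add, hE s hs (by omega), bd_single, map_sum, map_sum, ← sum_add_distrib]
      have h1 : ∀ x ∈ s, E (Finsupp.single (s.erase x) 1) + bd (f (s.erase x)) =
          ∑ y ∈ s.erase x, f ((s.erase x).erase y) := by
        intro x hx
        rw [(hf _ (hdown s hs _ (erase_subset x s))
          (by rw [card_erase_of_mem hx]; have := card_pos.2 ⟨x, hx⟩; omega)).2, ← add_assoc,
          ch_add_self, zero_add]
      rw [sum_congr rfl h1]
      exact sum_pairs_cancel ch_add_self _ (fun x y => by rw [erase_right_comm]) s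
    refine ⟨fun s => if h : s ∈ K ∧ s.card = j ∧ ∃ w, P s.card s w ∧
        bd w = E (Finsupp.single s 1) + ∑ x ∈ s, f (s.erase x) then h.2.2.choose else f s,
      fun s hs hcard => ?_⟩
    have hold : ∀ t : Finset α, t.card ≠ j → (if h : t ∈ K ∧ t.card = j ∧ ∃ w, P t.card t w ∧
        bd w = E (Finsupp.single t 1) + ∑ x ∈ t, f (t.erase x) then h.2.2.choose else f t) = f t :=
      fun t ht => dif_neg fun h => ht h.2.1
    have hsum : ∑ x ∈ s, (if h : s.erase x ∈ K ∧ (s.erase x).card = j ∧ ∃ w,
        P (s.erase x).card (s.erase x) w ∧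
          bd w = E (Finsupp.single (s.erase x) 1) + ∑ y ∈ s.erase x, f ((s.erase x).erase y)
        then h.2.2.choose else f (s.erase x)) = ∑ x ∈ s, f (s.erase x) :=
      sum_congr rfl fun x hx => hold _
        (by rw [card_erase_of_mem hx]; have := card_pos.2 ⟨x, hx⟩; omega)
    beta_reduce
    rw [hsum]
    by_cases hcj : s.card = j
    · have hw : ∃ w, P s.card s w ∧
          bd w = E (Finsupp.single s 1) + ∑ x ∈ s, f (s.erase x) := by
        refine hfill s hs (by omega) (fun x => f (s.erase x)) (fun x hx => ?_) (hcyc s hs hcj)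
        have h1 := (hf (s.erase x) (hdown s hs _ (erase_subset x s))
          (by rw [card_erase_of_mem hx]; have := card_pos.2 ⟨x, hx⟩; omega)).1
        rwa [card_erase_of_mem hx] at h1
      rw [dif_pos ⟨hs, hcj, hw⟩]
      exact (⟨hs, hcj, hw⟩ : s ∈ K ∧ s.card = j ∧ ∃ w, _).2.2.choose_spec
    · rw [hold s hcj]
      exact hf s hs (by omega)

/-- The defining identity of `exists_extension` on chains. -/
theorem extension_apply [DecidableEq α] [DecidableEq β] {K : Set (Finset α)} {c : ℕ}
    {E F : Ch α →ₗ[ZMod 2] Ch β}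
    (hF : ∀ s ∈ K, s.card ≤ c →
      bd (F (Finsupp.single s 1)) = E (Finsupp.single s 1) + F (bd (Finsupp.single s 1)))
    {j : ℕ} (hj : j ≤ c) {z : Ch α} (hz : Sup K j z) : bd (F z) = E z + F (bd z) := by
  rw [← Finsupp.sum_single z, Finsupp.sum]
  simp only [map_sum, ← sum_add_distrib]
  refine sum_congr rfl fun s hs => ?_
  rw [← Finsupp.smul_single_one s (z s)]
  simp only [map_smul, hF s (hz s hs).1 ((hz s hs).2 ▸ hj), smul_add]

/-- Cycles of a complex bound if bounded cycles bound boundedly. -/
theorem fills_of_bounded [DecidableEq α] (K : ℕ → Set (Finset α)) (c : ℕ)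
    (hdown : ∀ s ∈ K 0, ∀ t ⊆ s, t ∈ K 0) (hmono : ∀ i j, i ≤ j → K i ⊆ K j) (N M : ℕ → ℕ)
    (hNM : ∀ j ≤ c, j + j * M (j - 1) ≤ N j)
    (hfill : ∀ j ≤ c, ∀ z, Sup (K j) j z → bd z = 0 → (z.support.biUnion id).card ≤ N j →
      ∃ w, Sup (K (j + 1)) (j + 1) w ∧ bd w = z ∧ (w.support.biUnion id).card ≤ M j) :
    Fills (K 0) (K (c + 1)) c := by
  intro z hz hcyc
  refine (exists_extension (K 0) hdown c LinearMap.id (fun s _ _ => rfl)
    (fun j _ w => Sup (K (j + 1)) (j + 1) w ∧ (w.support.biUnion id).card ≤ M j) ?hf).elim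
    fun F hF => ?main
  case main =>
    refine ⟨F z, hz.map F fun s hs hc => hc ▸ (hF s hs hc.le).1.1, ?_⟩
    rw [extension_apply (fun s hs hc => (hF s hs hc).2) le_rfl hz, hcyc, map_zero, add_zero,
      LinearMap.id_apply]
  case hf =>
    intro s hs hsc d hd hb
    refine (hfill s.card hsc _ ((Sup.single 1 (hmono 0 _ (Nat.zero_le _) hs) rfl).add
      (Sup.sum _ _ fun x hx => by
        have h1 : s.card - 1 + 1 = s.card := by have := card_pos.2 ⟨x, hx⟩; omega
        simpa [h1] using (hd x hx).1)) hb ?_).elim fun w hw => ⟨w, ⟨hw.1, hw.2.2⟩, hw.2.1⟩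
    · refine le_trans (card_le_card (t := s ∪ s.biUnion fun x => (d x).support.biUnion id) ?_) ?_
      · intro a ha
        obtain ⟨u, hu, hau⟩ := mem_biUnion.1 ha
        rcases mem_union.1 (Finsupp.support_add hu) with h | h
        · exact mem_union_left _ (mem_singleton.1 (Finsupp.support_single_subset h) ▸ hau)
        · obtain ⟨x, hx, hux⟩ := mem_biUnion.1 (Finsupp.support_finsetSum h)
          exact mem_union_right _ (mem_biUnion.2 ⟨x, hx, mem_biUnion.2 ⟨u, hux, hau⟩⟩)
      · refine le_trans (card_union_le _ _) (le_trans ?_ (hNM s.card hsc))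
        exact Nat.add_le_add_left (card_biUnion_le_card_mul _ _ _ fun x hx => (hd x hx).2) _

/-- Contiguous maps agree on homology. -/
theorem contiguous [DecidableEq α] [DecidableEq β] {K : Set (Finset α)}
    (hdown : ∀ s ∈ K, ∀ t ⊆ s, t ∈ K) {K' : Set (Finset β)} (f g : α → β)
    (h : ∀ s ∈ K, ∀ t ⊆ s.image f ∪ s.image g, t ∈ K') {c : ℕ} {z : Ch α} (hz : Sup K c z)
    (hcyc : bd z = 0) : Bnd K' c (chMap f z + chMap g z) := by
  refine (exists_extension K hdown c (chMap f + chMap g)
    (fun s _ _ => by simp only [LinearMap.add_apply, map_add, chMap_bd])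
    (fun j s w => Sup {t | t ⊆ s.image f ∪ s.image g} (j + 1) w) ?hf).elim fun F hF => ?main
  case hf =>
    intro s hs hsc d hd hb
    rcases s.eq_empty_or_nonempty with rfl | ⟨a, ha⟩
    · refine ⟨0, Sup.zero, ?_⟩
      simp [chMap_single, ch_add_self]
    · have hU : Sup {t | t ⊆ s.image f ∪ s.image g} s.card
          ((chMap f + chMap g) (Finsupp.single s 1) + ∑ x ∈ s, d x) := by
        refine Sup.add ?_ (Sup.sum _ _ fun x hx => ?_)
        · have hs' : Sup ({s} : Set (Finset α)) s.card (Finsupp.single s 1) :=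
            Sup.single 1 rfl rfl
          rw [LinearMap.add_apply]
          exact (hs'.chMap f fun t ht _ _ => by subst ht; exact subset_union_left).add
            (hs'.chMap g fun t ht _ _ => by subst ht; exact subset_union_right)
        · have h1 := (hd x hx).mono (K' := {t | t ⊆ s.image f ∪ s.image g}) fun t ht _ =>
            ht.trans (union_subset_union (image_subset_image (erase_subset x s))
              (image_subset_image (erase_subset x s)))
          have hpos := card_pos.2 ⟨x, hx⟩
          rwa [show s.card - 1 + 1 = s.card by omega] at h1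
      exact ⟨cone (f a) _, hU.cone (f a) fun t ht _ _ => insert_subset
        (mem_union_left _ (mem_image_of_mem f ha)) ht, bd_cone_of_bd_eq_zero _ hb⟩
  case main =>
    refine ⟨F z, hz.map F fun s hs hc => ?_, ?_⟩
    · exact (hc ▸ (hF s hs hc.le).1).mono fun t ht _ => h s hs t ht
    · rw [extension_apply (fun s hs hc => (hF s hs hc).2) le_rfl hz, hcyc, map_zero, add_zero,
        LinearMap.add_apply]

end Vale.Agent.P067.Full
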