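import Vale.Agent.P067.Full.Spec
import Vale.Agent.P067.Full.Chains

/-!
# P067 full answer: coboundary expansion from the local facts and acyclicity (PLAN section 1)
-/

open Finset

noncomputable section

namespace Vale.Agent.P067.Full

section General

variable {V P : Type} [DecidableEq V] [Fintype P] {n : ℕ} (X : Cham V P n)

theorem mem_faces {c : ℕ} {s : Finset V} :
    s ∈ X.faces c ↔ s.card = c ∧ ∃ q, s ⊆ X.ch q := by
  simp only [Cham.faces, mem_biUnion, mem_univ, true_and, mem_powersetCard]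
  exact ⟨fun ⟨q, h, hc⟩ => ⟨hc, q, h⟩, fun ⟨hc, q, h⟩ => ⟨q, h, hc⟩⟩

theorem cobd_add (f g : Finset V → ZMod 2) :
    Cham.cobd (f + g) = Cham.cobd f + Cham.cobd g := by
  funext t
  simp [Cham.cobd, sum_add_distrib]

theorem cobd_zero : Cham.cobd (0 : Finset V → ZMod 2) = 0 := by
  funext t
  simp [Cham.cobd]

theorem cobd_cobd (f : Finset V → ZMod 2) : Cham.cobd (Cham.cobd f) = 0 := by
  funext t
  exact sum_pairs_cancel CharTwo.add_self_eq_zero (fun x y => f ((t.erase x).erase y))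
    (fun x y => by rw [erase_right_comm]) t

theorem mass_add_le (c : ℕ) (f g : Finset V → ZMod 2) :
    X.mass c (f + g) ≤ X.mass c f + X.mass c g := by
  rw [Cham.mass, Cham.mass, Cham.mass, ← sum_add_distrib]
  refine sum_le_sum fun s _ => ?_
  by_cases hf : f s = 0 <;> by_cases hg : g s = 0 <;> simp [hf, hg]
  split_ifs <;> omega

theorem mass_congr {c : ℕ} {f g : Finset V → ZMod 2} (h : ∀ s ∈ X.faces c, f s = g s) :
    X.mass c f = X.mass c g :=
  sum_congr rfl fun s hs => by rw [h s hs]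

theorem mass_zero (c : ℕ) : X.mass c 0 = 0 := by simp [Cham.mass]

theorem sum_w_faces (c : ℕ) (η : Finset V) :
    ∑ s ∈ (X.faces c).filter (η ⊆ ·), X.w s ≤ n.choose c * X.w η := by
  have h1 : ∀ s, X.w s = ∑ q, if s ⊆ X.ch q then 1 else 0 := fun s => by
    rw [Cham.w, card_filter]
  simp only [h1, mul_sum]
  rw [sum_comm]
  refine sum_le_sum fun q _ => ?_
  split_ifs with hq
  · rw [mul_one, ← card_filter]
    refine le_trans (card_le_card (t := (X.ch q).powersetCard c) fun s hs => ?_) ?_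
    · rw [mem_filter, mem_filter] at hs
      exact mem_powersetCard.2 ⟨hs.2, ((mem_faces X).1 hs.1.1).1⟩
    · rw [card_powersetCard, X.card_ch]
  · rw [mul_zero, Nat.le_zero, sum_eq_zero]
    intro s hs
    rw [if_neg fun h => hq ((mem_filter.1 hs).2.trans h)]

theorem mass_le_total (c : ℕ) (f : Finset V → ZMod 2) :
    X.mass c f ≤ n.choose c * Fintype.card P := by
  have h : X.w ∅ = Fintype.card P := by simp [Cham.w]
  refine le_trans ?_ ((sum_w_faces X c ∅).trans_eq (by rw [h]))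
  rw [filter_true_of_mem fun s _ => empty_subset s]
  exact sum_le_sum fun s _ => by split_ifs <;> omega

theorem w_le {D₀ : ℕ} (hdeg : ∀ x, (univ.filter fun q => x ∈ X.ch q).card ≤ D₀) {η : Finset V}
    (hη : 1 ≤ η.card) : X.w η ≤ D₀ := by
  obtain ⟨x, hx⟩ := card_pos.1 (show 0 < η.card by omega)
  exact le_trans (card_le_card fun q hq => mem_filter.2 ⟨mem_univ q, (mem_filter.1 hq).2 hx⟩)
    (hdeg x)

/-- The mass splits into the part away from a set and the mass in its link. -/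
theorem mass_split {c : ℕ} {η : Finset V} (hη : η.card ≤ c) (F : Finset V → ZMod 2) :
    X.mass c F = (∑ s ∈ (X.faces c).filter (¬ η ⊆ ·), if F s = 0 then 0 else X.w s) +
      (X.link η).mass (c - η.card) (fun s => F (η ∪ s)) := by
  rw [Cham.mass, ← sum_filter_add_sum_filter_not (X.faces c) (η ⊆ ·), add_comm]
  congr 1
  refine sum_nbij' (· \ η) (η ∪ ·) ?_ ?_ ?_ ?_ ?_
  · intro s hs
    rw [mem_filter, mem_faces] at hs
    obtain ⟨⟨hc, q, hq⟩, hηs⟩ := hs
    rw [mem_faces]
    exact ⟨by rw [card_sdiff_of_subset hηs, hc], ⟨q, hηs.trans hq⟩, sdiff_subset_sdiff hq subset_rfl⟩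
  · intro s hs
    rw [mem_faces] at hs
    obtain ⟨hc, q, hq⟩ := hs
    rw [mem_filter, mem_faces]
    refine ⟨⟨?_, q.1, union_subset q.2 (hq.trans sdiff_subset)⟩, subset_union_left⟩
    rw [card_union_of_disjoint (disjoint_left.2 fun a ha has => (mem_sdiff.1 (hq has)).2 ha), hc]
    omega
  · intro s hs
    exact union_sdiff_of_subset (mem_filter.1 hs).2
  · intro s hs
    obtain ⟨-, q, hq⟩ := (mem_faces _).1 hs
    exact union_sdiff_cancel_left (disjoint_left.2 fun a ha has => (mem_sdiff.1 (hq has)).2 ha)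
  · intro s hs
    have hηs := (mem_filter.1 hs).2
    simp only [union_sdiff_of_subset hηs]
    congr 1
    refine card_bij (fun q hq => ⟨q, hηs.trans (mem_filter.1 hq).2⟩) ?_ ?_ ?_
    · exact fun q hq => mem_filter.2 ⟨mem_univ _, sdiff_subset_sdiff (mem_filter.1 hq).2 subset_rfl⟩
    · exact fun a _ b _ h => congrArg Subtype.val h
    · intro q hq
      have hsub := (mem_filter.1 hq).2
      refine ⟨q.1, mem_filter.2 ⟨mem_univ _, fun a ha => ?_⟩, rfl⟩
      by_cases h : a ∈ η
      · exact q.2 h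
      · exact (mem_sdiff.1 (hsub (mem_sdiff.2 ⟨ha, h⟩))).1

/-- Repeated local improvements end in a locally minimal cochain. -/
theorem exists_locMin {D₀ : ℕ} (hdeg : ∀ x, (univ.filter fun q => x ∈ X.ch q).card ≤ D₀) (c : ℕ) :
    ∀ k, ∀ Φ : Finset V → ZMod 2, X.mass (c + 1) Φ = k → ∃ h : Finset V → ZMod 2,
      X.LocMin (c + 1) (Φ + Cham.cobd h) ∧ X.mass (c + 1) (Φ + Cham.cobd h) ≤ k ∧
        X.mass c h ≤ n.choose c * D₀ * k := by
  intro k
  induction k using Nat.strong_induction_on with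
  | _ k ih =>
    intro Φ hΦ
    by_cases hL : X.LocMin (c + 1) Φ
    · exact ⟨0, by rwa [cobd_zero, add_zero], by rw [cobd_zero, add_zero, hΦ],
        by rw [mass_zero]; exact Nat.zero_le _⟩
    · simp only [Cham.LocMin, not_forall, not_le] at hL
      obtain ⟨η, hη1, hη2, g, hg⟩ := hL
      let h₁ : Finset V → ZMod 2 := fun s => if η ⊆ s then g (s \ η) else 0
      have hout : ∀ t, ¬ η ⊆ t → Cham.cobd h₁ t = 0 := fun t ht => by
        refine sum_eq_zero fun x _ => if_neg fun h => ht (h.trans (erase_subset x t))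
      have hin : ∀ s, Disjoint η s → Cham.cobd h₁ (η ∪ s) = Cham.cobd g s := by
        intro s hd
        rw [Cham.cobd, Cham.cobd, sum_union hd, sum_eq_zero (s := η), zero_add]
        · refine sum_congr rfl fun x hx => ?_
          have hxη : x ∉ η := disjoint_right.1 hd hx
          rw [erase_union_distrib, erase_eq_of_notMem hxη]
          show (if η ⊆ η ∪ s.erase x then g ((η ∪ s.erase x) \ η) else 0) = _
          rw [if_pos subset_union_left, union_sdiff_cancel_left (hd.mono_right (erase_subset x s))]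
        · exact fun x hx => if_neg fun h => notMem_erase x _ (h hx)
      have hlt : X.mass (c + 1) (Φ + Cham.cobd h₁) < k := by
        rw [← hΦ, mass_split X (show η.card ≤ c + 1 by omega),
          mass_split X (show η.card ≤ c + 1 by omega)]
        refine add_lt_add_of_le_of_lt (le_of_eq (sum_congr rfl fun s hs => ?_)) ?_
        · rw [Pi.add_apply, hout s (mem_filter.1 hs).2, add_zero]
        · refine lt_of_eq_of_lt (mass_congr (X.link η) fun s hs => ?_) hg
          obtain ⟨-, q, hq⟩ := (mem_faces _).1 hs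
          simp only [Pi.add_apply,
            hin s (disjoint_left.2 fun a ha has => (mem_sdiff.1 (hq has)).2 ha)]
      have hm : X.mass c h₁ ≤ n.choose c * D₀ := by
        refine le_trans ?_ ((sum_w_faces X c η).trans (Nat.mul_le_mul_left _ (w_le X hdeg hη1)))
        rw [Cham.mass, sum_filter]
        refine sum_le_sum fun s _ => ?_
        by_cases hs : η ⊆ s
        · rw [if_pos hs]; split_ifs <;> omega
        · simp [h₁, hs]
      obtain ⟨h₂, hL₂, hm₂, hh₂⟩ := ih _ hlt _ rfl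
      refine ⟨h₁ + h₂, ?_, ?_, ?_⟩
      · rwa [cobd_add, ← add_assoc]
      · rw [cobd_add, ← add_assoc]; omega
      · calc X.mass c (h₁ + h₂) ≤ X.mass c h₁ + X.mass c h₂ := mass_add_le X c _ _
          _ ≤ n.choose c * D₀ + n.choose c * D₀ * X.mass (c + 1) (Φ + Cham.cobd h₁) :=
            Nat.add_le_add hm hh₂
          _ = n.choose c * D₀ * (X.mass (c + 1) (Φ + Cham.cobd h₁) + 1) := by ring
          _ ≤ n.choose c * D₀ * k := Nat.mul_le_mul_left _ hlt

/-- A cocycle is a coboundary when all cycles bound. -/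
theorem exists_primitive {c : ℕ} (hfill : Fills X.complex X.complex c) {f : Finset V → ZMod 2}
    (hf : ∀ t ∈ X.faces (c + 1), Cham.cobd f t = 0) :
    ∃ g : Finset V → ZMod 2, ∀ s ∈ X.faces c, f s = Cham.cobd g s := by
  let C : Submodule (ZMod 2) (Ch V) := Finsupp.supported (ZMod 2) (ZMod 2) ↑(X.faces c)
  let B : C →ₗ[ZMod 2] Ch V := bd.domRestrict C
  let F : C →ₗ[ZMod 2] ZMod 2 := (Finsupp.linearCombination (ZMod 2) f).domRestrict C
  have hker : F ∈ (LinearMap.ker B).dualAnnihilator := by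
    rw [Submodule.mem_dualAnnihilator]
    intro z hz
    have hsup : Sup X.complex c z.1 := fun s hs =>
      ⟨((mem_faces X).1 (z.2 hs)).2, ((mem_faces X).1 (z.2 hs)).1⟩
    obtain ⟨w, hw, hwz⟩ := hfill z.1 hsup hz
    show Finsupp.linearCombination (ZMod 2) f z.1 = 0
    rw [← hwz, ← Finsupp.sum_single w, Finsupp.sum, map_sum, map_sum]
    refine sum_eq_zero fun t ht => ?_
    rw [bd_single, map_sum]
    simp only [Finsupp.linearCombination_single, ← smul_sum]
    rw [show ∑ x ∈ t, f (t.erase x) = Cham.cobd f t from rfl,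
      hf t ((mem_faces X).2 ⟨(hw t ht).2, (hw t ht).1⟩), smul_zero]
  rw [← LinearMap.range_dualMap_eq_dualAnnihilator_ker B] at hker
  obtain ⟨φ, hφ⟩ := hker
  refine ⟨fun s => φ (Finsupp.single s 1), fun s hs => ?_⟩
  have hmem : Finsupp.single s (1 : ZMod 2) ∈ C := Finsupp.single_mem_supported _ _ hs
  have := LinearMap.congr_fun hφ ⟨_, hmem⟩
  simp only [F, B, LinearMap.dualMap_apply, LinearMap.domRestrict_apply, bd_single, map_sum,
    Finsupp.linearCombination_single, one_smul] at this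
  exact this.symm

theorem mix_mono {X : Cham V P n} {l l' : ℝ} (h : X.Mix l) (hl : l ≤ l') : X.Mix l' := fun S =>
  (h S).trans (add_le_add le_rfl (mul_le_mul_of_nonneg_right hl (div_nonneg
    (sum_nonneg fun _ _ => Nat.cast_nonneg _) (mul_nonneg (Nat.cast_nonneg _) (Nat.cast_nonneg _)))))

/-- Expansion at one card from the vanishing of small locally minimal cocycles and acyclicity. -/
theorem expand_at {D₀ : ℕ} (hdeg : ∀ x, (univ.filter fun q => x ∈ X.ch q).card ≤ D₀) {c : ℕ}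
    (hcn : c + 1 ≤ n) {μ B : ℝ} (hμ : 0 < μ) (hμ1 : μ ≤ 1) (hB2 : (2 : ℝ) ^ n ≤ B)
    (hB3 : (2 : ℝ) ^ n * D₀ ≤ B)
    (hmin : ∀ Φ : Finset V → ZMod 2, (∀ t ∈ X.faces (c + 1 + 1), Cham.cobd Φ t = 0) →
      X.LocMin (c + 1) Φ → (X.mass (c + 1) Φ : ℝ) ≤ μ * X.total (c + 1) →
        ∀ s ∈ X.faces (c + 1), Φ s = 0)
    (hfill : Fills X.complex X.complex c) (f : Finset V → ZMod 2) :
    ∃ g : Finset V → ZMod 2,
      μ / B * X.mass c (f + Cham.cobd g) ≤ X.mass (c + 1) (Cham.cobd f) := by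
  have hch : (n.choose c : ℝ) ≤ 2 ^ n := by exact_mod_cast Nat.choose_le_two_pow _ _
  have hBpos : 0 < B := lt_of_lt_of_le (by positivity) hB2
  by_cases hbig : μ * X.total (c + 1) ≤ (X.mass (c + 1) (Cham.cobd f) : ℝ)
  · refine ⟨0, le_trans ?_ hbig⟩
    rw [cobd_zero, add_zero, div_mul_eq_mul_div, div_le_iff₀ hBpos, mul_assoc]
    refine mul_le_mul_of_nonneg_left ?_ hμ.le
    have h4 : (X.mass c f : ℝ) ≤ (n.choose c : ℝ) * Fintype.card P := by
      exact_mod_cast mass_le_total X c f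
    have h3 : (1 : ℝ) ≤ n.choose (c + 1) := by exact_mod_cast Nat.choose_pos hcn
    rw [Cham.total, Nat.cast_mul]
    calc (X.mass c f : ℝ) ≤ (n.choose c : ℝ) * Fintype.card P := h4
      _ ≤ B * ((n.choose (c + 1) : ℝ) * Fintype.card P) :=
          mul_le_mul (hch.trans hB2) (le_mul_of_one_le_left (Nat.cast_nonneg _) h3)
            (Nat.cast_nonneg _) hBpos.le
      _ = (n.choose (c + 1) : ℝ) * Fintype.card P * B := mul_comm _ _
  · obtain ⟨h, hh₁, hle, hh⟩ := exists_locMin X hdeg c _ (Cham.cobd f) rfl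
    rw [not_le] at hbig
    have hzero := hmin _ (fun t _ => by
      rw [cobd_add, cobd_cobd, cobd_cobd, add_zero, Pi.zero_apply]) hh₁
      ((Nat.cast_le.2 hle).trans hbig.le)
    rw [← cobd_add] at hzero
    obtain ⟨g, hg⟩ := exists_primitive X hfill hzero
    refine ⟨g, ?_⟩
    have h5 : X.mass c (f + Cham.cobd g) = X.mass c h := mass_congr X fun s hs => by
      rw [Pi.add_apply, ← hg s hs, Pi.add_apply, ← add_assoc, CharTwo.add_self_eq_zero, zero_add]
    rw [h5, div_mul_eq_mul_div, div_le_iff₀ hBpos]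
    have h6 : (X.mass c h : ℝ) ≤ (n.choose c : ℝ) * D₀ * X.mass (c + 1) (Cham.cobd f) := by
      exact_mod_cast hh
    calc μ * (X.mass c h : ℝ) ≤ 1 * X.mass c h :=
          mul_le_mul_of_nonneg_right hμ1 (Nat.cast_nonneg _)
      _ ≤ B * X.mass (c + 1) (Cham.cobd f) := by
          rw [one_mul]
          exact h6.trans (mul_le_mul_of_nonneg_right
            ((mul_le_mul_of_nonneg_right hch (Nat.cast_nonneg _)).trans hB3) (Nat.cast_nonneg _))
      _ = X.mass (c + 1) (Cham.cobd f) * B := mul_comm _ _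

end General

/-- A vertex lies in at most as many chambers as its vertex subgroup has elements. -/
theorem degree_le {n M p m : ℕ} [Finite (Ga n M p m)] [Fintype (GS n M p m univ)]
    (x : Vx n M p m) :
    (univ.filter fun q => x ∈ (cx n M p m).ch q).card ≤ Nat.card (Kv n M p m x.1) := by
  classical
  have : Fintype (Kv n M p m x.1) := Fintype.ofFinite _
  rw [Nat.card_eq_fintype_card]
  rcases (univ.filter fun q => x ∈ (cx n M p m).ch q).eq_empty_or_nonempty with h | ⟨q₀, hq₀⟩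
  · rw [h, card_empty]; exact Nat.zero_le _
  have key : ∀ q ∈ univ.filter (fun q => x ∈ (cx n M p m).ch q), vert q.1 x.1 = x := by
    intro q hq
    obtain ⟨v, -, hv⟩ := mem_map.1 (mem_filter.1 hq).2
    have hv' : vert q.1 v = x := hv
    subst hv'
    rfl
  have hmem : ∀ q ∈ univ.filter (fun q => x ∈ (cx n M p m).ch q),
      q₀.1⁻¹ * q.1 ∈ Kv n M p m x.1 := by
    intro q hq
    have h := (key q₀ hq₀).trans (key q hq).symm
    exact QuotientGroup.eq.1 (eq_of_heq (Sigma.mk.inj_iff.1 h).2)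
  refine card_le_card_of_injOn (t := univ)
    (fun q => if h : q₀.1⁻¹ * q.1 ∈ Kv n M p m x.1 then ⟨_, h⟩ else 1)
    (fun q _ => mem_coe.2 (mem_univ _)) ?_
  intro a ha b hb hab
  have hab' : (⟨_, hmem a ha⟩ : Kv n M p m x.1) = ⟨_, hmem b hb⟩ := by
    simpa only [dif_pos (hmem a ha), dif_pos (hmem b hb)] using hab
  exact Subtype.ext (mul_left_cancel (congrArg Subtype.val hab'))

/-- Coboundary expansion of the chamber complexes below the top dimensions. -/
theorem chamExpand (hEK : EKSpec) (hMix : MixSpec) (hExp : ExpandSpec) (hG : GroupSpec)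
    (hS : SizeSpec) (hV : VanishSpec) (d : ℕ) :
    ∃ (n D₀ : ℕ) (β : ℝ), d + 1 ≤ n ∧ 0 < β ∧ ∀ N : ℕ,
      ∃ (V P : Type) (_ : DecidableEq V) (_ : Fintype P) (X : Cham V P n),
        N ≤ Fintype.card P ∧ (∀ x, (univ.filter fun q => x ∈ X.ch q).card ≤ D₀) ∧
        ∀ c, 1 ≤ c → c ≤ d → ∀ f : Finset V → ZMod 2, ∃ g : Finset V → ZMod 2,
          β * X.mass c (f + Cham.cobd g) ≤ X.mass (c + 1) (Cham.cobd f) := by
  classical
  have hn : 3 ≤ d + 3 := by omega
  choose NV hNV using fun c : Fin (d + 1) => hV (d + 3) c.1 hn (by omega)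
  let M := univ.sup NV + 1
  have hM : 1 ≤ M := by omega
  choose pV hpV using fun c : Fin (d + 1) => hNV c M
  obtain ⟨βE, hβE, pE, hpE⟩ := hExp (d + 3) M hn hM
  choose lE μE hlE hμE hEKc using fun c : Fin (d + 1) => hEK (c.1 + 1) (by omega) βE hβE
  have hne : (univ : Finset (Fin (d + 1))).Nonempty := univ_nonempty
  let l := univ.inf' hne lE
  have hl : 0 < l := (lt_inf'_iff hne).2 fun c _ => hlE c
  obtain ⟨pM, hpM⟩ := hMix (d + 3) M hn hM l hl
  obtain ⟨p, hp, hprime⟩ := Nat.exists_infinite_primes (max (max pM pE) (univ.sup pV))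
  obtain ⟨⟨D₀, hD₀⟩, hgrow⟩ := hS (d + 3) M p hn hM hprime
  let B : ℝ := ((2 : ℝ) ^ (d + 3)) * (D₀ + 1)
  have hB : (1 : ℝ) ≤ B := one_le_mul_of_one_le_of_one_le (one_le_pow₀ one_le_two)
    (le_add_of_nonneg_left (Nat.cast_nonneg _))
  have hB2 : (2 : ℝ) ^ (d + 3) ≤ B :=
    le_mul_of_one_le_right (by positivity) (le_add_of_nonneg_left (Nat.cast_nonneg _))
  have hB3 : (2 : ℝ) ^ (d + 3) * D₀ ≤ B :=
    mul_le_mul_of_nonneg_left (le_add_of_nonneg_right zero_le_one) (by positivity)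
  let μ := min 1 (univ.inf' hne μE)
  have hμ : 0 < μ := lt_min one_pos ((lt_inf'_iff hne).2 fun c _ => hμE c)
  refine ⟨d + 3, D₀, μ / B, by omega, div_pos hμ (by linarith), fun N => ?_⟩
  obtain ⟨m, hm, hNm⟩ := hgrow N
  obtain ⟨hfin, -, -, hKle, -, -⟩ := hG (d + 3) M p m hn hprime hm
  have := hfin
  have : Fintype (GS (d + 3) M p m univ) := Fintype.ofFinite _
  set X := cx (d + 3) M p m with hX
  have hdeg : ∀ x, (univ.filter fun q => x ∈ X.ch q).card ≤ D₀ := fun x =>
    (degree_le x).trans (hD₀ m x.1 hm)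
  refine ⟨_, _, inferInstance, inferInstance, X, by rwa [Nat.card_eq_fintype_card] at hNm,
    hdeg, ?_⟩
  intro c hc1 hcd f
  let c' : Fin (d + 1) := ⟨c, by omega⟩
  refine expand_at X hdeg (by omega) hμ (min_le_left _ _) hB2 hB3 ?_ ?_ f
  · intro Φ hΦ hmin hmass
    refine hEKc c' _ _ (d + 3) X (show c + 1 < d + 3 by omega) ?_ ?_ Φ hΦ hmin
      (hmass.trans (mul_le_mul_of_nonneg_right ((min_le_right _ _).trans
        (inf'_le _ (mem_univ c'))) (Nat.cast_nonneg _)))
    · intro η hη h1 h2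
      exact hpE p (by omega) hprime m hm η hη h1 _
        (show η.card + (c + 1 - η.card) < d + 3 by omega)
    · intro η hη h1
      exact mix_mono (hpM p (by omega) hprime m hm η hη (show η.card + 2 ≤ d + 3 by omega))
        (inf'_le _ (mem_univ c'))
  · have he : X.complex = XS (d + 3) M p m univ := Set.ext fun s =>
      ⟨fun ⟨q, hq⟩ => ⟨q.1, q.2, hq⟩, fun ⟨g, hg, hs⟩ => ⟨⟨g, hg⟩, hs⟩⟩
    rw [he]
    exact hpV c' p ((le_sup (mem_univ c')).trans (le_trans (le_max_right _ _) hp)) hprime m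
      hm univ (by rw [card_univ, Fintype.card_fin]; exact Nat.le_succ_of_le (le_sup (mem_univ c')))

/-- The full answer from the chamber complexes and the passage to the skeleton. -/
theorem fullSpec_of (hEK : EKSpec) (hMix : MixSpec) (hExp : ExpandSpec) (hG : GroupSpec)
    (hS : SizeSpec) (hV : VanishSpec)
    (hSk : ∀ (n d D₀ : ℕ) (β : ℝ), 1 ≤ d → d + 1 ≤ n → 0 < β →
      ∃ (D : ℕ) (ε : ℝ), 0 < ε ∧ ∀ (V P : Type) [DecidableEq V] [Fintype P] (X : Cham V P n),
        0 < Fintype.card P → (∀ x, (univ.filter fun q => x ∈ X.ch q).card ≤ D₀) →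
        (∀ c, 1 ≤ c → c ≤ d → ∀ f : Finset V → ZMod 2, ∃ g : Finset V → ZMod 2,
          β * X.mass c (f + Cham.cobd g) ≤ X.mass (c + 1) (Cham.cobd f)) →
        ∃ (U : Type) (_ : Fintype U) (_ : DecidableEq U) (Y : PureComplex U d),
          Fintype.card P ≤ D₀ * Fintype.card U ∧ Y.DegreeLE D ∧ Y.IsCoboundaryExpander ε ∧
            ∀ f : Y.Cochain 0, Y.delta 0 f = 0 → Y.IsBoundary 0 f) :
    FullSpec := by
  intro d hd
  obtain ⟨n, D₀, β, hdn, hβ, hX⟩ := chamExpand hEK hMix hExp hG hS hV d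
  obtain ⟨D, ε, hε, hY⟩ := hSk n d D₀ β hd hdn hβ
  refine ⟨D, ε, hε, fun N => ?_⟩
  obtain ⟨V, P, _, _, X, hN, hdeg, hexp⟩ := hX (D₀ * N + 1)
  obtain ⟨U, iU, dU, Y, hPU, hD, hE, h0⟩ := hY V P X (by omega) hdeg hexp
  refine ⟨U, iU, dU, Y, ?_, hD, hE, h0⟩
  exact Nat.le_of_mul_le_mul_left (show D₀ * N ≤ D₀ * Fintype.card U by omega)
    (Nat.pos_of_ne_zero fun h => by rw [h, zero_mul] at hPU; omega)

end Vale.Agent.P067.Full
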