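import Vale.Agent.P067.Full.Chains

/-!
# P067 full answer: double chains (frames, points)

A double chain is a chain of pairs of finite sets; `row` and `col` are its slices.
-/

open Finset

noncomputable section

namespace Vale.Agent.P067.Full.Cech

variable {F G : Type} [DecidableEq F] [DecidableEq G]

/-- Double chains. -/
abbrev Bi (F G : Type) := (Finset F × Finset G) →₀ ZMod 2

/-- Chains supported in a predicate. -/
def Mem {α : Type} (A : α → Prop) (z : α →₀ ZMod 2) : Prop := ∀ a ∈ z.support, A a

theorem mem_zero {α : Type} (A : α → Prop) : Mem A (0 : α →₀ ZMod 2) := fun a h => by simp at h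

theorem Mem.add {α : Type} {A : α → Prop} {x y : α →₀ ZMod 2} (hx : Mem A x) (hy : Mem A y) :
    Mem A (x + y) := by
  classical
  intro a ha
  rcases Finset.mem_union.1 (Finsupp.support_add ha) with h | h
  · exact hx a h
  · exact hy a h

theorem mem_sum {α ι : Type} {A : α → Prop} (s : Finset ι) (f : ι → α →₀ ZMod 2)
    (h : ∀ i ∈ s, Mem A (f i)) : Mem A (∑ i ∈ s, f i) := by
  classical
  induction s using Finset.induction_on with
  | empty => simpa using mem_zero A
  | insert i s hi ih =>
    rw [Finset.sum_insert hi]
    exact (h i (mem_insert_self _ _)).add (ih fun j hj => h j (mem_insert_of_mem hj))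

theorem mem_smul {α : Type} {A : α → Prop} (c : ZMod 2) {x : α →₀ ZMod 2} (hx : Mem A x) :
    Mem A (c • x) := fun a ha => hx a (Finsupp.support_smul ha)

theorem mem_single {α : Type} {A : α → Prop} {a : α} (c : ZMod 2) (h : A a) :
    Mem A (Finsupp.single a c) := fun b hb => by
  rw [Finset.mem_singleton.1 (Finsupp.support_single_subset hb)]; exact h

theorem mem_lc {α β : Type} {A : β → Prop} (f : α → β →₀ ZMod 2) (z : α →₀ ZMod 2)
    (h : ∀ a ∈ z.support, Mem A (f a)) : Mem A (Finsupp.linearCombination (ZMod 2) f z) := by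
  rw [Finsupp.linearCombination_apply]
  exact mem_sum _ _ fun a ha => mem_smul _ (h a ha)

theorem Mem.mono {α : Type} {A B : α → Prop} {z : α →₀ ZMod 2} (hz : Mem A z)
    (h : ∀ a, A a → B a) : Mem B z := fun a ha => h a (hz a ha)

/-- The row of a set of frames. -/
def row (U : Finset F) : Bi F G →ₗ[ZMod 2] Ch G :=
  Finsupp.linearCombination (ZMod 2) fun p => if p.1 = U then Finsupp.single p.2 1 else 0

/-- The column of a set of points. -/
def col (r : Finset G) : Bi F G →ₗ[ZMod 2] Ch F :=
  Finsupp.linearCombination (ZMod 2) fun p => if p.2 = r then Finsupp.single p.1 1 else 0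

/-- A chain of points, put in a row. -/
def tU (U : Finset F) : Ch G →ₗ[ZMod 2] Bi F G :=
  Finsupp.linearCombination (ZMod 2) fun s => Finsupp.single (U, s) 1

/-- A chain of frames, put in a column. -/
def tS (r : Finset G) : Ch F →ₗ[ZMod 2] Bi F G :=
  Finsupp.linearCombination (ZMod 2) fun U => Finsupp.single (U, r) 1

/-- The boundary in the frames. -/
def bdU : Bi F G →ₗ[ZMod 2] Bi F G :=
  Finsupp.linearCombination (ZMod 2) fun p => ∑ x ∈ p.1, Finsupp.single (p.1.erase x, p.2) 1

/-- The boundary in the points. -/
def bdS : Bi F G →ₗ[ZMod 2] Bi F G :=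
  Finsupp.linearCombination (ZMod 2) fun p => ∑ x ∈ p.2, Finsupp.single (p.1, p.2.erase x) 1

theorem row_apply (U : Finset F) (s : Finset G) (b : Bi F G) : row U b s = b (U, s) := by
  induction b using Finsupp.induction_linear with
  | zero => simp
  | add a b ha hb => simp [ha, hb]
  | single p v =>
    obtain ⟨U', s'⟩ := p
    by_cases hU : U' = U <;> by_cases hs : s' = s <;>
      simp [row, Finsupp.linearCombination_single, hU, hs]

theorem col_apply (U : Finset F) (r : Finset G) (b : Bi F G) : col r b U = b (U, r) := by
  induction b using Finsupp.induction_linear with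
  | zero => simp
  | add a b ha hb => simp [ha, hb]
  | single p v =>
    obtain ⟨U', s'⟩ := p
    by_cases hU : U' = U <;> by_cases hs : s' = r <;>
      simp [col, Finsupp.linearCombination_single, hU, hs]

theorem bdS_tU (U : Finset F) (z : Ch G) : bdS (tU U z) = tU U (bd z) := by
  induction z using Finsupp.induction_linear with
  | zero => simp
  | add a b ha hb => simp [ha, hb]
  | single s v => simp [bdS, tU, bd, Finsupp.linearCombination_single, map_sum, Finset.smul_sum]

theorem bdU_tS (r : Finset G) (z : Ch F) : bdU (tS r z) = tS r (bd z) := by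
  induction z using Finsupp.induction_linear with
  | zero => simp
  | add a b ha hb => simp [ha, hb]
  | single s v => simp [bdU, tS, bd, Finsupp.linearCombination_single, map_sum, Finset.smul_sum]

theorem row_bdS (U : Finset F) (b : Bi F G) : row U (bdS b) = bd (row U b) := by
  induction b using Finsupp.induction_linear with
  | zero => simp
  | add a b ha hb => simp [ha, hb]
  | single p v =>
    obtain ⟨U', s⟩ := p
    by_cases hU : U' = U <;>
      simp [bdS, row, bd, Finsupp.linearCombination_single, map_sum, Finset.smul_sum, hU]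

theorem col_bdU (r : Finset G) (b : Bi F G) : col r (bdU b) = bd (col r b) := by
  induction b using Finsupp.induction_linear with
  | zero => simp
  | add a b ha hb => simp [ha, hb]
  | single p v =>
    obtain ⟨U, s⟩ := p
    by_cases hs : s = r <;>
      simp [bdU, col, bd, Finsupp.linearCombination_single, map_sum, Finset.smul_sum, hs]

theorem bdU_bdS (b : Bi F G) : bdU (bdS b) = bdS (bdU b) := by
  induction b using Finsupp.induction_linear with
  | zero => simp
  | add a b ha hb => simp [ha, hb]
  | single p v =>
    simp only [bdU, bdS, Finsupp.linearCombination_single, map_smul, map_sum, one_smul]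
    rw [Finset.sum_comm]

/-- The rows of a double chain. -/
def rows (b : Bi F G) : Finset (Finset F) := b.support.image Prod.fst

/-- The columns of a double chain. -/
def cols (b : Bi F G) : Finset (Finset G) := b.support.image Prod.snd

theorem tU_apply (U U' : Finset F) (z : Ch G) (s : Finset G) :
    tU U z (U', s) = if U = U' then z s else 0 := by
  induction z using Finsupp.induction_linear with
  | zero => simp
  | add a b ha hb => simp [ha, hb]; split_ifs <;> simp
  | single s' v =>
    by_cases h : U = U' <;> by_cases hs : s' = s <;>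
      simp [tU, Finsupp.linearCombination_single, h, hs]

theorem tS_apply (r r' : Finset G) (z : Ch F) (U : Finset F) :
    tS r z (U, r') = if r = r' then z U else 0 := by
  induction z using Finsupp.induction_linear with
  | zero => simp
  | add a b ha hb => simp [ha, hb]; split_ifs <;> simp
  | single U' v =>
    by_cases h : r = r' <;> by_cases hs : U' = U <;>
      simp [tS, Finsupp.linearCombination_single, h, hs]

theorem sum_rows (b : Bi F G) (T : Finset (Finset F)) (hT : rows b ⊆ T) :
    ∑ U ∈ T, tU U (row U b) = b := by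
  ext ⟨U, s⟩
  rw [Finsupp.finset_sum_apply]
  simp only [tU_apply, row_apply, Finset.sum_ite_eq']
  split_ifs with h
  · rfl
  · exact (Finsupp.notMem_support_iff.1 fun hp => h (hT (mem_image_of_mem Prod.fst hp))).symm

theorem sum_cols (b : Bi F G) (T : Finset (Finset G)) (hT : cols b ⊆ T) :
    ∑ r ∈ T, tS r (col r b) = b := by
  ext ⟨U, s⟩
  rw [Finsupp.finset_sum_apply]
  simp only [tS_apply, col_apply, Finset.sum_ite_eq']
  split_ifs with h
  · rfl
  · exact (Finsupp.notMem_support_iff.1 fun hp => h (hT (mem_image_of_mem Prod.snd hp))).symm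

theorem mem_row {A : Finset F × Finset G → Prop} {b : Bi F G} (hb : Mem A b) (U : Finset F) :
    Mem (fun s => A (U, s)) (row U b) := fun s hs => by
  rw [Finsupp.mem_support_iff, row_apply] at hs
  exact hb _ (Finsupp.mem_support_iff.2 hs)

theorem mem_col {A : Finset F × Finset G → Prop} {b : Bi F G} (hb : Mem A b) (r : Finset G) :
    Mem (fun U => A (U, r)) (col r b) := fun U hs => by
  rw [Finsupp.mem_support_iff, col_apply] at hs
  exact hb _ (Finsupp.mem_support_iff.2 hs)

theorem mem_tU {A : Finset F × Finset G → Prop} {U : Finset F} {z : Ch G}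
    (hz : Mem (fun s => A (U, s)) z) : Mem A (tU U z) :=
  mem_lc _ _ fun s hs => mem_single _ (hz s hs)

theorem mem_tS {A : Finset F × Finset G → Prop} {r : Finset G} {z : Ch F}
    (hz : Mem (fun U => A (U, r)) z) : Mem A (tS r z) :=
  mem_lc _ _ fun U hs => mem_single _ (hz U hs)

theorem mem_bdU {A B : Finset F × Finset G → Prop} {b : Bi F G} (hb : Mem A b)
    (h : ∀ U s, A (U, s) → ∀ x ∈ U, B (U.erase x, s)) : Mem B (bdU b) :=
  mem_lc _ _ fun p hp => mem_sum _ _ fun x hx => mem_single _ (h p.1 p.2 (hb p hp) x hx)

theorem mem_bdS {A B : Finset F × Finset G → Prop} {b : Bi F G} (hb : Mem A b)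
    (h : ∀ U s, A (U, s) → ∀ x ∈ s, B (U, s.erase x)) : Mem B (bdS b) :=
  mem_lc _ _ fun p hp => mem_sum _ _ fun x hx => mem_single _ (h p.1 p.2 (hb p hp) x hx)

theorem row_bdU_tU (U : Finset F) (hU : U.card = 1) (z : Ch G) : row ∅ (bdU (tU U z)) = z := by
  obtain ⟨a, rfl⟩ := Finset.card_eq_one.1 hU
  induction z using Finsupp.induction_linear with
  | zero => simp
  | add x y hx hy => simp [hx, hy]
  | single s v => simp [tU, bdU, row, Finsupp.linearCombination_single, Finset.erase_singleton]

/-- The augmentation adds up the rows. -/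
theorem row_bdU (b : Bi F G) (hb : Mem (fun p => p.1.card = 1) b) :
    row ∅ (bdU b) = ∑ U ∈ rows b, row U b := by
  conv_lhs => rw [← sum_rows b _ subset_rfl]
  simp only [map_sum]
  refine Finset.sum_congr rfl fun U hU => ?_
  obtain ⟨⟨U', s⟩, hp, rfl⟩ := Finset.mem_image.1 hU
  exact row_bdU_tU _ (hb _ hp) _

theorem bi_add_self (b : Bi F G) : b + b = 0 := by
  ext t
  simpa using CharTwo.add_self_eq_zero (b t)

theorem bdS_bdS (b : Bi F G) : bdS (bdS b) = 0 := by
  ext ⟨U, s⟩
  rw [← row_apply, row_bdS, row_bdS, bd_bd]
  simp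

theorem bdU_bdU (b : Bi F G) : bdU (bdU b) = 0 := by
  ext ⟨U, s⟩
  rw [← col_apply, col_bdU, col_bdU, bd_bd]
  simp

end Vale.Agent.P067.Full.Cech

end
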