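import Vale.Agent.P067.Full.Staircase
import Vale.Agent.P067.Full.Cover.Act
import Vale.Agent.P067.Full.Cover.Complete

/-!
# P067 full answer: `CoverSpec`

A face is seen by an orthogonal family when the family, moved back by a representative of the
face, is congruent to the standard one modulo the ring of the face.
-/

open Finset

noncomputable section

namespace Vale.Agent.P067.Full.Cover

open Nilframe

variable {n M p m : ℕ}

/-- Families of frames with colours in `R`, vanishing outside `S`. -/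
abbrev Fam (n M p m : ℕ) (J : Finset (Fin n)) (S R : Finset (Fin M)) :
    Set (Finset (Fr (Fin M) (Mn n p m))) :=
  FrC (aJ n p m J) R (univ \ S)

/-- The face `s` of `XS S` is seen by the family `U`. -/
def Rel (S R : Finset (Fin M)) (U : Finset (Fr (Fin M) (Mn n p m)))
    (s : Finset (Vx n M p m)) : Prop :=
  ∃ g ∈ GS n M p m S, s ⊆ chamber g ∧ U.image (tr g⁻¹) ∈ Fam n M p m (types s) S R

theorem nilp_aJ (J : Finset (Fin n)) : Nilp (aJ n p m J) (n * m) :=
  fun l hl hlen => nf_prod_eq_zero l (fun x hx => (hl x hx).1) hlen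

theorem image_tr_tr (g h : Ga n M p m) (U : Finset (Fr (Fin M) (Mn n p m))) :
    (U.image (tr h)).image (tr g) = U.image (tr (g * h)) := by
  rw [Finset.image_image]
  exact image_congr fun a _ => tr_tr g h a

theorem image_tr_one (U : Finset (Fr (Fin M) (Mn n p m))) :
    U.image (tr (1 : Ga n M p m)) = U := by
  conv_rhs => rw [← image_id (s := U)]
  exact image_congr fun a _ => tr_one a

variable [NeZero p] {S R : Finset (Fin M)} {U : Finset (Fr (Fin M) (Mn n p m))}
  {s : Finset (Vx n M p m)}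

/-- The definition does not depend on the representative. -/
theorem rel_iff {g : Ga n M p m} (hg : g ∈ GS n M p m S) (hs : s ⊆ chamber g) :
    Rel S R U s ↔ U.image (tr g⁻¹) ∈ Fam n M p m (types s) S R := by
  refine ⟨?_, fun h => ⟨g, hg, hs, h⟩⟩
  rintro ⟨g', hg', hs', h⟩
  have h1 : g⁻¹ * g' ∈ GS n M p m S := mul_mem (inv_mem hg) hg'
  have h2 : (g⁻¹ * g')⁻¹ ∈ GS n M p m S := inv_mem h1
  have h3 := frC_tr (g := g⁻¹ * g') (fun i j => entries_of_reps hg hg' hs hs' i j)
    (fun i j => by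
      rw [show (g⁻¹ * g')⁻¹ = g'⁻¹ * g by group]
      exact entries_of_reps hg' hg hs' hs i j)
    (fun i hi j => row_eq_one h1 (mem_sdiff.1 hi).2 j)
    (fun j hj i => col_eq_one h2 (mem_sdiff.1 hj).2 i) h
  rwa [image_tr_tr, mul_inv_cancel_right] at h3

theorem rel_downU {U' : Finset (Fr (Fin M) (Mn n p m))} (h : Rel S R U s) (hU : U' ⊆ U) :
    Rel S R U' s :=
  let ⟨g, hg, hs, h'⟩ := h
  ⟨g, hg, hs, frC_down _ h' _ (image_subset_image hU)⟩

theorem rel_downS {s' : Finset (Vx n M p m)} (h : Rel S R U s) (hs : s' ⊆ s) : Rel S R U s' :=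
  let ⟨g, hg, hgs, h'⟩ := h
  ⟨g, hg, hs.trans hgs, frC_ring (fun _ hx => aJ_anti (image_subset_image hs) hx) h'⟩

theorem rel_empty_iff : Rel S R ∅ s ↔ s ∈ XS n M p m S :=
  ⟨fun ⟨g, hg, hs, _⟩ => ⟨g, hg, hs⟩, fun ⟨g, hg, hs⟩ =>
    ⟨g, hg, hs, by simp [Fam, FrC]⟩⟩

theorem mem_XS_of_rel (h : Rel S R U s) : s ∈ XS n M p m S :=
  let ⟨g, hg, hs, _⟩ := h
  ⟨g, hg, hs⟩

/-- A family seeing some face is a family of the whole group. -/
theorem fam_of_rel (h : Rel S R U s) : U ∈ Fam n M p m ∅ S R := by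
  have h0 := rel_downS h (empty_subset s)
  have := (rel_iff (one_mem _) (empty_subset _)).1 h0
  rwa [inv_one, image_tr_one, show types (∅ : Finset (Vx n M p m)) = ∅ from image_empty _] at this

theorem colours_subset (hU : U ∈ Fam n M p m ∅ S R) : U.image Fr.j ⊆ S ∩ R := by
  intro j hj
  obtain ⟨a, ha, rfl⟩ := mem_image.1 hj
  exact mem_inter.2 ⟨by simpa using (hU.1 a ha).1.notMem, (hU.1 a ha).2⟩

/-- Completions in the group, when a colour is spare. -/
theorem exists_complete (hn : 0 < n) (hRS : R ⊆ S) (hU : U ∈ Fam n M p m ∅ S R)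
    (hR : U.card < R.card) : ∃ h ∈ GS n M p m S, ∀ a ∈ U, tr h (stdFr a.j) = a := by
  obtain ⟨k, hk, hkZ, hkU⟩ := exists_completion (nilp_aJ _) hU
  obtain ⟨i₀, hi₀, hi₀'⟩ := exists_mem_notMem_of_card_lt_card
    (lt_of_le_of_lt (card_image_le (f := Fr.j)) hR)
  obtain ⟨h, hh, hcol, hrow⟩ := exists_det_fix (T := U.image Fr.j) hn (hRS hi₀) hi₀'
    (fun i j => (hk i j).1) fun i j hij => hkZ i j (hij.imp (fun h => mem_sdiff.2 ⟨mem_univ i, h⟩)
      fun h => mem_sdiff.2 ⟨mem_univ j, h⟩)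
  refine ⟨h, hh, fun a ha => ?_⟩
  refine Eq.trans ?_ (hkU a ha)
  have hj := mem_image_of_mem Fr.j ha
  simp only [tr, stdFr, Matrix.mulVec_single_one, Matrix.single_one_vecMul, Fr.mk.injEq, true_and]
  exact ⟨funext fun i => hcol a.j hj i, funext fun i => hrow a.j hj i⟩

theorem tr_stdFr_eq {T : Finset (Fin M)} {g : Ga n M p m} (hg : g ∈ GS n M p m T) {j : Fin M}
    (hj : j ∉ T) : tr g (stdFr j) = stdFr j := by
  simp only [tr, stdFr, Matrix.mulVec_single_one, Matrix.single_one_vecMul, Fr.mk.injEq, true_and]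
  constructor
  · funext i
    show (g : BM n M p m) i j = _
    rw [col_eq_one hg hj i, Matrix.one_apply, Pi.single_apply]
  · funext i
    show ((g⁻¹ : Ga n M p m) : BM n M p m) j i = _
    rw [row_eq_one (inv_mem hg) hj i, Matrix.one_apply, Pi.single_apply]
    by_cases h : j = i <;> simp [h, eq_comm]

/-- Faces in the coset of a completion are seen. -/
theorem rel_of_coset (hU : U ∈ Fam n M p m ∅ S R) {h g : Ga n M p m} (hh : h ∈ GS n M p m S)
    (hhU : ∀ a ∈ U, tr h (stdFr a.j) = a) (hg : g ∈ GS n M p m (S \ U.image Fr.j))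
    (hs : s ⊆ chamber (h * g)) : Rel S R U s := by
  refine ⟨h * g, mul_mem hh (GS_mono sdiff_subset hg), hs, ?_⟩
  have e : ∀ a ∈ U, tr (h * g)⁻¹ a = stdFr a.j := fun a ha => by
    conv_lhs => rw [← hhU a ha]
    rw [tr_tr, show (h * g)⁻¹ * h = g⁻¹ by group,
      tr_stdFr_eq (inv_mem hg) fun hj => (mem_sdiff.1 hj).2 (mem_image_of_mem Fr.j ha)]
  refine ⟨fun b hb => ?_, fun b hb b' hb' hne => ?_⟩
  · obtain ⟨a, ha, rfl⟩ := mem_image.1 hb
    rw [e a ha]
    exact ⟨isFr_stdFr (hU.1 a ha).1.notMem, (hU.1 a ha).2⟩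
  · obtain ⟨a, ha, rfl⟩ := mem_image.1 hb
    obtain ⟨a', ha', rfl⟩ := mem_image.1 hb'
    rw [e a ha, e a' ha'] at hne ⊢
    have hj : a.j ≠ a'.j := fun h => hne (by rw [h])
    refine ⟨hj, ?_, ?_⟩ <;> simp [stdFr, dot_single_left, hj, Ne.symm hj]

/-- Faces seen by a family lie in the coset of its completion. -/
theorem coset_of_rel (hUs : Rel S R U s) {h : Ga n M p m} (hh : h ∈ GS n M p m S)
    (hhU : ∀ a ∈ U, tr h (stdFr a.j) = a) :
    ∃ g ∈ GS n M p m (S \ U.image Fr.j), s ⊆ chamber (h * g) := by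
  rcases s.eq_empty_or_nonempty with rfl | hne
  · exact ⟨1, one_mem _, empty_subset _⟩
  obtain ⟨g, hg, hs, hW⟩ := hUs
  obtain ⟨k, hk, hkZ, hkU⟩ := exists_completion (nilp_aJ _) hW
  have hkS : k ∈ GS n M p m S := mem_GS_of_aJ (hne.image Sigma.fst) hk fun i j hij =>
    hkZ i j (hij.imp (fun h => mem_sdiff.2 ⟨mem_univ i, h⟩) fun h => mem_sdiff.2 ⟨mem_univ j, h⟩)
  refine ⟨h⁻¹ * (g * k), ?_, by rw [mul_inv_cancel_left]; exact subset_chamber_mul hs hk⟩
  set x := h⁻¹ * (g * k) with hx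
  have hfix : ∀ a ∈ U, tr x (stdFr a.j) = stdFr a.j := fun a ha => by
    have h1 : tr k (stdFr a.j) = tr g⁻¹ a := hkU _ (mem_image_of_mem _ ha)
    rw [hx, ← tr_tr, ← tr_tr, h1, tr_tr g, mul_inv_cancel, tr_one]
    conv_lhs => rw [← hhU a ha]
    rw [tr_tr, inv_mul_cancel, tr_one]
  refine mem_GS_sdiff (mul_mem (inv_mem hh) (mul_mem hg hkS)) (fun j hj i => ?_) fun j hj i => ?_
  · obtain ⟨a, ha, rfl⟩ := mem_image.1 hj
    have := congrFun (congrArg Fr.v (hfix a ha)) i
    simpa [tr, stdFr, Matrix.mulVec_single_one, Matrix.one_apply, Pi.single_apply] using this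
  · obtain ⟨a, ha, rfl⟩ := mem_image.1 hj
    have h1 := congrArg (fun f => Matrix.vecMul f (x : BM n M p m)) (congrArg Fr.f (hfix a ha))
    simp only [tr, stdFr, Matrix.vecMul_vecMul, ← Units.val_mul, inv_mul_cancel, Units.val_one,
      Matrix.vecMul_one] at h1
    have := congrFun h1.symm i
    simpa [Matrix.single_one_vecMul, Matrix.one_apply, Pi.single_apply, eq_comm] using this

/-- A chain in the coset of a completion moved to the standard position. -/
theorem sup_inv {c : ℕ} {z : Ch (Vx n M p m)} (hz : Sup {s | Rel S R U s} c z) {h : Ga n M p m}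
    (hh : h ∈ GS n M p m S) (hhU : ∀ a ∈ U, tr h (stdFr a.j) = a) :
    Sup (XS n M p m (S \ U.image Fr.j)) c (xmul h⁻¹ z) := by
  refine hz.chMap _ fun s hs _ _ => ?_
  obtain ⟨g, hg, hgs⟩ := coset_of_rel hs hh hhU
  exact ⟨g, hg, by simpa using image_vmul_subset (g := h⁻¹) hgs⟩

/-- Cycles are sums of translates of cycles avoiding one colour. -/
theorem cover : CoverSpec := by
  classical
  intro n c hn hc _
  refine ⟨(Finset.range (c + 1)).sup colBound + c + 2, fun M p m hp _ S R hRS hR hfill z hz hcyc => ?_⟩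
  haveI : NeZero p := ⟨hp.ne_zero⟩
  have hdisj : Disjoint R (univ \ S) := disjoint_sdiff.mono_left hRS
  refine (Cech.staircase (Rel := Rel (n := n) (p := p) (m := m) S R)
    (fun U s h U' hU => rel_downU h hU) (fun U s h s' hs => rel_downS h hs) c (by omega)
    ?hcol ?hpt ?hrow z (hz.mono fun s hs _ => rel_empty_iff.2 hs) hcyc).elim fun T hTy => ?main
  case hcol =>
    intro s i hs his y hy hbd
    obtain ⟨g, hg, hgs, -⟩ := hs
    have hbound : colBound i ≤ R.card := le_trans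
      (Finset.le_sup (f := colBound) (mem_range.2 (by omega : i < c + 1))) (by omega)
    obtain ⟨w, hw, hwy⟩ := fills_frC (aJ n p m (types s)) (nilp_aJ _) i _ R hdisj hbound
      (chMap (tr g⁻¹) y) (hy.chMap _ fun U hU _ _ => (rel_iff hg hgs).1 hU)
      (by rw [chMap_bd, hbd, map_zero])
    refine ⟨chMap (tr g) w, hw.chMap _ fun U hU _ _ => ?_, ?_⟩
    · show Rel S R _ s
      rw [rel_iff hg hgs, image_tr_tr, inv_mul_cancel, image_tr_one]
      exact hU
    · rw [chMap_bd, hwy, chMap_chMap]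
      refine (chMap_congr (g := id) fun U _ a _ => ?_).trans (chMap_id y)
      show tr g (tr g⁻¹ a) = a
      rw [tr_tr, mul_inv_cancel, tr_one]
  case hpt =>
    intro U hU hrel
    have hU0 := fam_of_rel hrel
    obtain ⟨h, hh, hhU⟩ := exists_complete (by omega) hRS hU0 (by omega)
    exact ⟨vert h ⟨0, by omega⟩, rel_of_coset hU0 hh hhU (one_mem _) (by
      rw [mul_one, singleton_subset_iff, mem_chamber]; rfl)⟩
  case hrow =>
    intro U hU hUc y hy hbd
    by_cases hy0 : y = 0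
    · exact hy0 ▸ Bnd.zero
    obtain ⟨s₀, hs₀⟩ := Finsupp.support_nonempty_iff.2 hy0
    have hU0 := fam_of_rel (hy s₀ hs₀).1
    obtain ⟨h, hh, hhU⟩ := exists_complete (by omega) hRS hU0 (by omega)
    have hcard : (U.image Fr.j).card = U.card := card_image_of_injOn (injOn_colour hU0)
    have hsub := (colours_subset hU0).trans inter_subset_left
    obtain ⟨w, hw, hwy⟩ := hfill (c + 1 - U.card) (by omega) (S \ U.image Fr.j) sdiff_subset
      (by have := card_sdiff_add_card_eq_card hsub; omega) _ (sup_inv hy hh hhU)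
      (by rw [xmul, chMap_bd, hbd, map_zero])
    refine ⟨xmul h w, hw.chMap _ fun s hs _ _ => ?_, ?_⟩
    · obtain ⟨g, hg, hgs⟩ := hs
      exact rel_of_coset hU0 hh hhU hg (image_vmul_subset hgs)
    · rw [xmul, chMap_bd, hwy, ← xmul, xmul_xmul, mul_inv_cancel, xmul_one]
  obtain ⟨y, hT, hsum⟩ := hTy
  rw [← hsum]
  refine Submodule.sum_mem _ fun U hU => ?_
  obtain ⟨hU1, hy, hbd⟩ := hT U hU
  by_cases hy0 : y U = 0
  · rw [hy0]; exact Submodule.zero_mem _
  obtain ⟨s₀, hs₀⟩ := Finsupp.support_nonempty_iff.2 hy0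
  have hU0 := fam_of_rel (hy s₀ hs₀).1
  obtain ⟨h, hh, hhU⟩ := exists_complete (by omega) hRS hU0 (by omega)
  obtain ⟨a, rfl⟩ := card_eq_one.1 hU1
  refine Submodule.subset_span ⟨h, hh, a.j, (hU0.1 a (mem_singleton_self a)).2,
    xmul h⁻¹ (y {a}), ?_, by rw [xmul, chMap_bd, hbd, map_zero], ?_⟩
  · have := sup_inv hy hh hhU
    rwa [image_singleton, sdiff_singleton_eq_erase] at this
  · rw [xmul_xmul, mul_inv_cancel, xmul_one]

end Vale.Agent.P067.Full.Cover

end
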