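import Mathlib
import Vale.Agent.P067.Complex

/-!
# P067 full answer: definitions

Chains are finitely supported sums of finite sets, graded by cardinality, with the empty set
included (so all statements are about reduced homology).
-/

open Finset

noncomputable section

namespace Vale.Agent.P067.Full

/-! ## Chains -/

section Chains

variable {α β : Type}

/-- Chains with coefficients in `ZMod 2`. -/
abbrev Ch (α : Type) := Finset α →₀ ZMod 2

/-- The boundary. -/
noncomputable def bd [DecidableEq α] : Ch α →ₗ[ZMod 2] Ch α :=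
  Finsupp.linearCombination (ZMod 2) fun s => ∑ x ∈ s, Finsupp.single (s.erase x) 1

/-- The chain map of a map of vertices; degenerate images are dropped. -/
noncomputable def chMap [DecidableEq β] (f : α → β) : Ch α →ₗ[ZMod 2] Ch β :=
  Finsupp.linearCombination (ZMod 2) fun s =>
    if (s.image f).card = s.card then Finsupp.single (s.image f) 1 else 0

/-- The cone with apex `x`. -/
noncomputable def cone [DecidableEq α] (x : α) : Ch α →ₗ[ZMod 2] Ch α :=
  Finsupp.linearCombination (ZMod 2) fun s =>
    if x ∈ s then 0 else Finsupp.single (insert x s) 1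

/-- A chain of sets of size `c` lying in `K`. -/
def Sup (K : Set (Finset α)) (c : ℕ) (z : Ch α) : Prop :=
  ∀ s ∈ z.support, s ∈ K ∧ s.card = c

/-- `z` is the boundary of a chain in `K`. -/
def Bnd [DecidableEq α] (K : Set (Finset α)) (c : ℕ) (z : Ch α) : Prop :=
  ∃ w, Sup K (c + 1) w ∧ bd w = z

/-- All cycles of sets of size `c` in `K` are boundaries in `K'`. -/
def Fills [DecidableEq α] (K K' : Set (Finset α)) (c : ℕ) : Prop :=
  ∀ z, Sup K c z → bd z = 0 → Bnd K' c z

end Chains

/-! ## Families of top faces -/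

/-- A finite family of top faces of size `n` indexed by `P`; faces are their subsets. -/
structure Cham (V P : Type) (n : ℕ) [Fintype P] where
  ch : P → Finset V
  card_ch : ∀ q, (ch q).card = n

namespace Cham

variable {V P : Type} [DecidableEq V] [Fintype P] {n : ℕ} (X : Cham V P n)

/-- The weight of a set: the number of top faces containing it. -/
def w (s : Finset V) : ℕ := (univ.filter fun q => s ⊆ X.ch q).card

/-- The faces of a given size. -/
def faces (c : ℕ) : Finset (Finset V) := univ.biUnion fun q => (X.ch q).powersetCard c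

/-- The complex. -/
def complex : Set (Finset V) := {s | ∃ q, s ⊆ X.ch q}

/-- The coboundary of a cochain. -/
def cobd (f : Finset V → ZMod 2) (t : Finset V) : ZMod 2 := ∑ x ∈ t, f (t.erase x)

/-- The weight of the support of a cochain among the faces of size `c`. -/
def mass (c : ℕ) (f : Finset V → ZMod 2) : ℕ :=
  ∑ s ∈ X.faces c, if f s = 0 then 0 else X.w s

/-- The total weight of the faces of size `c`. -/
def total (_X : Cham V P n) (c : ℕ) : ℕ := n.choose c * Fintype.card P

/-- The link of a set. -/
def link (η : Finset V) : Cham V {q : P // η ⊆ X.ch q} (n - η.card) where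
  ch q := X.ch q.1 \ η
  card_ch q := by rw [Finset.card_sdiff_of_subset q.2, X.card_ch]

/-- `β`-expansion of cochains on sets of size `e`. -/
def ExpandAt (β : ℝ) (e : ℕ) : Prop :=
  ∀ f : Finset V → ZMod 2, ∃ g : Finset V → ZMod 2,
    β * X.mass e (f + cobd g) * X.total (e + 1) ≤ X.mass (e + 1) (cobd f) * (X.total e : ℝ)

/-- One-sided mixing of the graph of the family: a random ordered pair of distinct vertices of a
random top face lies in `S` with probability at most `a² + l a`, `a` the density of `S`. -/
def Mix (l : ℝ) : Prop :=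
  ∀ S : Finset V,
    let a : ℝ := (∑ q, ((X.ch q ∩ S).card : ℝ)) / (n * Fintype.card P)
    (∑ q, ((X.ch q ∩ S).card : ℝ) * ((X.ch q ∩ S).card - 1)) /
      (n * (n - 1) * Fintype.card P) ≤ a ^ 2 + l * a

/-- Local minimality of a cochain on sets of size `c`. -/
def LocMin (c : ℕ) (f : Finset V → ZMod 2) : Prop :=
  ∀ η, 1 ≤ η.card → η.card < c → ∀ g : Finset V → ZMod 2,
    (X.link η).mass (c - η.card) (fun s => f (η ∪ s)) ≤
      (X.link η).mass (c - η.card) ((fun s => f (η ∪ s)) + cobd g)

end Cham

/-! ## The groups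

Matrices of size `M` over colours, with entries matrices of size `n` over types. -/

/-- The ring `F_p[t]/(t^m)`. -/
abbrev Rm (p m : ℕ) : Type :=
  Polynomial (ZMod p) ⧸ Ideal.span {(Polynomial.X : Polynomial (ZMod p)) ^ m}

/-- The image of `t`. -/
noncomputable def tt (p m : ℕ) : Rm p m := Ideal.Quotient.mk _ Polynomial.X

/-- The image of a scalar. -/
noncomputable def sc (p m : ℕ) (c : ZMod p) : Rm p m := Ideal.Quotient.mk _ (Polynomial.C c)

/-- The coefficient of `t ^ k`, zero for `m ≤ k`. -/
noncomputable def cf (p m k : ℕ) (r : Rm p m) : ZMod p :=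
  if k < m then (Function.surjInv Ideal.Quotient.mk_surjective r).coeff k else 0

/-- Matrices of size `n` over the ring. -/
abbrev Mn (n p m : ℕ) : Type := Matrix (Fin n) (Fin n) (Rm p m)

/-- Matrices over colours with entries in `Mn`. -/
abbrev BM (n M p m : ℕ) : Type := Matrix (Fin M) (Fin M) (Mn n p m)

/-- The ambient group. -/
abbrev Ga (n M p m : ℕ) : Type := (BM n M p m)ˣ

instance instDecidableEqGa (n M p m : ℕ) : DecidableEq (Ga n M p m) := Classical.decEq _

/-- The cyclic interval from `a` to `b` contains the type `v`. -/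
def crosses {n : ℕ} (v a b : Fin n) : Prop :=
  (a.1 ≤ v.1 ∧ v.1 < b.1) ∨ (b.1 < a.1 ∧ (a.1 ≤ v.1 ∨ v.1 < b.1))

/-- The successor of an index, cyclically. -/
def nxt {n : ℕ} (j : Fin n) : Fin n := ⟨(j.1 + 1) % n, Nat.mod_lt _ j.pos⟩

/-- The forced power of `t` in position `(a, b)`. -/
noncomputable def te {n : ℕ} (p m : ℕ) (a b : Fin n) : Rm p m := if b < a then tt p m else 1

/-- Matrices which are strictly upper triangular modulo `t`. -/
def nf (n p m : ℕ) : Set (Mn n p m) := {x | ∀ a b, b ≤ a → x a b ∈ Ideal.span {tt p m}}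

/-- The part of `nf` whose intervals avoid all types of `J` (for nonempty `J`). -/
def nfJ (n p m : ℕ) (J : Finset (Fin n)) : Set (Mn n p m) :=
  {x | ∃ c : Fin n → Fin n → ZMod p, (∀ v ∈ J, ∀ a b, crosses v a b → c a b = 0) ∧
    ∀ a b, x a b = if a = b then 0 else sc p m (c a b) * te p m a b}

/-- Elements congruent to one modulo `nf`, supported on the colours of `S`, of determinant one. -/
def GSet (n M p m : ℕ) (S : Finset (Fin M)) : Set (Ga n M p m) :=
  {g | (∀ i j, ((g : BM n M p m) - 1) i j ∈ nf n p m) ∧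
    (∀ i j, (i ∉ S ∨ j ∉ S) → ((g : BM n M p m) - 1) i j = 0) ∧
    (Matrix.comp (Fin M) (Fin M) (Fin n) (Fin n) (Rm p m) (g : BM n M p m)).det = 1}

/-- The group of the colours of `S`. -/
def GS (n M p m : ℕ) (S : Finset (Fin M)) : Subgroup (Ga n M p m) :=
  Subgroup.closure (GSet n M p m S)

/-- Elements congruent to one modulo `nfJ J`. -/
def KSet (n M p m : ℕ) (J : Finset (Fin n)) : Set (Ga n M p m) :=
  {g | ∀ i j, ((g : BM n M p m) - 1) i j ∈ nfJ n p m J}

/-- The vertex subgroup of type `v`. -/
def Kv (n M p m : ℕ) (v : Fin n) : Subgroup (Ga n M p m) :=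
  Subgroup.closure (KSet n M p m {v})

/-- Simple root elements with colours in `S`. -/
def roots (n M p m : ℕ) (S : Finset (Fin M)) : Set (Ga n M p m) :=
  {g | g ∈ GSet n M p m S ∧ ∃ a c, ∃ i ∈ S, ∃ j ∈ S, (g : BM n M p m) =
    1 + Matrix.single i j (Matrix.single a (nxt a) (sc p m c * te p m a (nxt a)))}

/-- The elements of weight at least `x`, the entry `t ^ k` in position `(a, b)` having weight
`k n + b - a`. -/
def Gx (n M p m x : ℕ) : Set (Ga n M p m) :=
  {g | g ∈ GSet n M p m univ ∧ ∀ i j, ∀ a b : Fin n, ∀ k : ℕ, k * n + b.1 < x + a.1 →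
    ((g : BM n M p m) - 1) i j a b ∈ Ideal.span {tt p m ^ (k + 1)}}

/-- The entries of weight exactly `x`. -/
noncomputable def lam (n M p m x : ℕ) (g : Ga n M p m) : Fin n → Fin M → Fin M → ZMod p :=
  fun a i j =>
    cf p m ((a.1 + x) / n)
      (((g : BM n M p m) - 1) i j a ⟨(a.1 + x) % n, Nat.mod_lt _ a.pos⟩)

/-- Constant changes of the colours of `S`, one in each type. -/
def ThetaSet (n M p m : ℕ) (S : Finset (Fin M)) : Set (Ga n M p m) :=
  {θ | ∃ T : Fin n → Matrix (Fin M) (Fin M) (ZMod p),
    (∀ a i j, (i ∉ S ∨ j ∉ S) → T a i j = (1 : Matrix (Fin M) (Fin M) (ZMod p)) i j) ∧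
    ∀ i j, (θ : BM n M p m) i j = Matrix.diagonal fun a => sc p m (T a i j)}

/-! ## The complex -/

/-- Vertices: cosets of the vertex subgroups. -/
abbrev Vx (n M p m : ℕ) : Type := Σ v : Fin n, Ga n M p m ⧸ Kv n M p m v

instance instDecidableEqVx (n M p m : ℕ) : DecidableEq (Vx n M p m) := Classical.decEq _

/-- The vertex of type `v` of the top face of a group element. -/
noncomputable def vert {n M p m : ℕ} (g : Ga n M p m) (v : Fin n) : Vx n M p m :=
  ⟨v, (g : Ga n M p m ⧸ Kv n M p m v)⟩

/-- The top face of a group element. -/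
noncomputable def chamber {n M p m : ℕ} (g : Ga n M p m) : Finset (Vx n M p m) :=
  univ.map ⟨vert g, fun _ _ h => congrArg Sigma.fst h⟩

theorem card_chamber {n M p m : ℕ} (g : Ga n M p m) : (chamber g).card = n := by
  simp [chamber]

/-- The complex as a family of top faces. -/
noncomputable def cx (n M p m : ℕ) [Fintype (GS n M p m univ)] :
    Cham (Vx n M p m) (GS n M p m univ) n where
  ch q := chamber q.1
  card_ch q := card_chamber q.1

/-- The faces of the subcomplex of the colours of `S`. -/
def XS (n M p m : ℕ) (S : Finset (Fin M)) : Set (Finset (Vx n M p m)) :=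
  {s | ∃ g ∈ GS n M p m S, s ⊆ chamber g}

/-- The link of a vertex in the subcomplex of `S`. -/
def LinkS (n M p m : ℕ) (S : Finset (Fin M)) (x : Vx n M p m) :
    Set (Finset (Vx n M p m)) :=
  {s | x ∉ s ∧ insert x s ∈ XS n M p m S}

/-- Translation of vertices. -/
noncomputable def vmul {n M p m : ℕ} (g : Ga n M p m) (x : Vx n M p m) : Vx n M p m :=
  ⟨x.1, g • x.2⟩

/-- Translation of chains of the complex. -/
noncomputable def xmul {n M p m : ℕ} (g : Ga n M p m) :
    Ch (Vx n M p m) →ₗ[ZMod 2] Ch (Vx n M p m) :=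
  chMap (vmul g)

end Vale.Agent.P067.Full

end
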