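import Vale.Agent.P067.Full.Spec

/-!
# P067 full answer: small locally minimal cocycles vanish (`EKSpec`)

Levels: `lvl 0` is the support of `f` and `lvl (k + 1)` the sets of size `c - (k + 1)` whose random
coface lies in `lvl k` with probability at least `ε ^ (2 ^ k)`. A set of size `c + 1` is bad at
level `k` if it contains two members of `lvl k` whose intersection has size `c - (k + 1)` and is
not in `lvl (k + 1)`. Mixing makes bad sets rare; expansion of the links of the minimal members of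
the levels, applied to the faces of the support which descend to them, makes them frequent unless
`f = 0`.
-/

open Finset

noncomputable section

namespace Vale.Agent.P067.Full

namespace EK

/-! ## Descents -/

section Descent

variable {V : Type} [DecidableEq V]

/-- A descent from `A` to `η` through sets satisfying `G`. -/
inductive Lad (G : Finset V → Prop) (η : Finset V) : Finset V → Prop
  | base : G η → Lad G η η
  | step {A : Finset V} {x : V} : G A → x ∈ A → Lad G η (A.erase x) → Lad G η A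

theorem Lad.subset {G : Finset V → Prop} {η A : Finset V} (h : Lad G η A) : η ⊆ A := by
  induction h with
  | base _ => exact Finset.Subset.refl _
  | step _ _ _ ih => exact ih.trans (Finset.erase_subset _ _)

theorem Lad.good {G : Finset V → Prop} {η A : Finset V} (h : Lad G η A) : G A := by
  cases h with
  | base hg => exact hg
  | step hg _ _ => exact hg

theorem exists_lad (G : Finset V → Prop) (A : Finset V) (hA : G A) :
    ∃ η, G η ∧ (∀ x ∈ η, ¬ G (η.erase x)) ∧ Lad G η A := by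
  induction A using Finset.strongInduction with
  | _ A ih =>
    by_cases h : ∃ x ∈ A, G (A.erase x)
    · obtain ⟨x, hx, hG⟩ := h
      obtain ⟨η, h1, h2, h3⟩ := ih _ (Finset.erase_ssubset hx) hG
      exact ⟨η, h1, h2, Lad.step hA hx h3⟩
    · push Not at h
      exact ⟨A, hA, h, Lad.base hA⟩

/-- In a set closed under intersections of good pairs, two neighbouring good sets descend
together. -/
theorem lad_swap (G : Finset V → Prop) (η ρ : Finset V) (hterm : ∀ x ∈ η, ¬ G (η.erase x))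
    (hclosed : ∀ ξ x y, ξ ⊆ ρ → x ∈ ρ → y ∈ ρ → x ∉ ξ → y ∉ ξ → x ≠ y →
      G (insert x ξ) → G (insert y ξ) → G ξ)
    {A : Finset V} (hA : Lad G η A) :
    ∀ B : Finset V, A ⊆ ρ → B ⊆ ρ → G B → ∀ x ∈ A, ∀ y ∈ B, A.erase x = B.erase y → x ≠ y →
      Lad G η B := by
  induction hA with
  | base hg =>
    intro B hAr hBr hB x hx y hy he hne
    refine absurd ?_ (hterm x hx)
    refine hclosed _ x y ((Finset.erase_subset _ _).trans hAr) (hAr hx) (hBr hy)
      (by simp) ?_ hne ?_ ?_
    · rw [he]; simp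
    · rwa [Finset.insert_erase hx]
    · rwa [he, Finset.insert_erase hy]
  | @step A x0 hg hx0 hlad ih =>
    intro B hAr hBr hB x hx y hy he hne
    have hξr : A.erase x ⊆ ρ := (Finset.erase_subset _ _).trans hAr
    have hξ : G (A.erase x) := by
      refine hclosed _ x y hξr (hAr hx) (hBr hy) (by simp) ?_ hne ?_ ?_
      · rw [he]; simp
      · rwa [Finset.insert_erase hx]
      · rwa [he, Finset.insert_erase hy]
    refine Lad.step hB hy ?_
    rw [← he]
    by_cases hxx : x = x0
    · subst hxx; exact hlad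
    · exact ih _ ((Finset.erase_subset _ _).trans hAr) hξr hξ x
        (Finset.mem_erase.2 ⟨hxx, hx⟩) x0 (Finset.mem_erase.2 ⟨Ne.symm hxx, hx0⟩)
        Finset.erase_right_comm hxx

end Descent

/-! ## Counting in a family of top faces -/

open scoped Classical

variable {V P : Type} [DecidableEq V] [Fintype P] {n : ℕ} (X : Cham V P n)

theorem mem_faces {j : ℕ} {s : Finset V} :
    s ∈ X.faces j ↔ ∃ q, s ⊆ X.ch q ∧ s.card = j := by
  simp [Cham.faces]

theorem w_pos {j : ℕ} {s : Finset V} (h : s ∈ X.faces j) : 0 < X.w s := by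
  obtain ⟨q, hq, -⟩ := (mem_faces X).1 h
  exact Finset.card_pos.2 ⟨q, by simp [hq]⟩

theorem sum_faces (j : ℕ) (F : Finset V → P → ℕ) :
    ∑ η ∈ X.faces j, ∑ q ∈ univ.filter (fun q => η ⊆ X.ch q), F η q
      = ∑ q, ∑ η ∈ (X.ch q).powersetCard j, F η q := by
  refine Finset.sum_comm' fun η q => ?_
  simp only [mem_faces, Finset.mem_filter, Finset.mem_univ, true_and, and_true,
    Finset.mem_powersetCard]
  constructor
  · rintro ⟨⟨_, _, h2⟩, h3⟩; exact ⟨h3, h2⟩
  · rintro ⟨h3, h2⟩; exact ⟨⟨q, h3, h2⟩, h3⟩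

/-- The vertices of `q` completing `ξ` to a member of `T`. -/
def rc (ξ : Finset V) (T : Finset (Finset V)) (q : P) : Finset V :=
  (X.ch q \ ξ).filter fun x => insert x ξ ∈ T

/-- The weighted number of cofaces of `ξ` in `T`. -/
def cnt (ξ : Finset V) (T : Finset (Finset V)) : ℕ :=
  ∑ q ∈ univ.filter (fun q => ξ ⊆ X.ch q), (rc X ξ T q).card

/-- The total weight of a set of faces. -/
def wsum (T : Finset (Finset V)) : ℕ := ∑ s ∈ T, X.w s

theorem wsum_eq {j : ℕ} {T : Finset (Finset V)} (hT : T ⊆ X.faces j) :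
    wsum X T = ∑ q, (((X.ch q).powersetCard j).filter (· ∈ T)).card := by
  have h := sum_faces X j fun s _ => if s ∈ T then 1 else 0
  have hl : wsum X T
      = ∑ η ∈ X.faces j, ∑ _q ∈ univ.filter (fun q => η ⊆ X.ch q), if η ∈ T then 1 else 0 := by
    unfold wsum Cham.w
    rw [← Finset.sum_subset hT (fun s _ hs => by simp [hs])]
    exact Finset.sum_congr rfl fun s hs => by simp [hs]
  rw [hl, h]
  exact Finset.sum_congr rfl fun q _ => (Finset.card_filter _ _).symm

theorem sum_biUnion_le' {ι α : Type} [DecidableEq α] (I : Finset ι) (t : ι → Finset α)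
    (F : α → ℕ) : ∑ x ∈ I.biUnion t, F x ≤ ∑ i ∈ I, ∑ x ∈ t i, F x := by
  induction I using Finset.induction with
  | empty => simp
  | @insert i I hi ih =>
    rw [Finset.biUnion_insert, Finset.sum_insert hi]
    have := Finset.sum_union_inter (s₁ := t i) (s₂ := I.biUnion t) (f := F)
    omega

theorem mass_eq (c : ℕ) (f : Finset V → ZMod 2) :
    X.mass c f = wsum X ((X.faces c).filter fun s => f s ≠ 0) := by
  simp only [Cham.mass, wsum, Finset.sum_filter, ite_not]

theorem card_cofaces (A : Finset V) (j : ℕ) (T : Finset (Finset V)) :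
    ∑ η ∈ A.powersetCard j, ((A \ η).filter fun x => insert x η ∈ T).card
      = (j + 1) * ((A.powersetCard (j + 1)).filter (· ∈ T)).card := by
  have hr : (j + 1) * ((A.powersetCard (j + 1)).filter (· ∈ T)).card
      = (((A.powersetCard (j + 1)).filter (· ∈ T)).sigma fun s => s).card := by
    rw [Finset.card_sigma, Finset.sum_const_nat (m := j + 1), mul_comm]
    intro s hs
    exact (Finset.mem_powersetCard.1 (Finset.mem_filter.1 hs).1).2
  rw [hr, ← Finset.card_sigma]
  refine Finset.card_nbij' (fun z => ⟨insert z.2 z.1, z.2⟩) (fun z => ⟨z.1.erase z.2, z.2⟩)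
    ?_ ?_ ?_ ?_
  · rintro ⟨η, x⟩ hz
    simp only [Finset.mem_coe, Finset.mem_sigma, Finset.mem_powersetCard, Finset.mem_filter,
      Finset.mem_sdiff] at hz ⊢
    obtain ⟨⟨hη, hc⟩, ⟨hxA, hxη⟩, hT⟩ := hz
    refine ⟨⟨⟨Finset.insert_subset hxA hη, ?_⟩, hT⟩, Finset.mem_insert_self _ _⟩
    rw [Finset.card_insert_of_notMem hxη, hc]
  · rintro ⟨s, x⟩ hz
    simp only [Finset.mem_coe, Finset.mem_sigma, Finset.mem_powersetCard, Finset.mem_filter,
      Finset.mem_sdiff] at hz ⊢
    obtain ⟨⟨⟨hs, hc⟩, hT⟩, hx⟩ := hz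
    refine ⟨⟨(Finset.erase_subset _ _).trans hs, ?_⟩, ⟨hs hx, by simp⟩, ?_⟩
    · rw [Finset.card_erase_of_mem hx, hc]; rfl
    · rwa [Finset.insert_erase hx]
  · rintro ⟨η, x⟩ hz
    simp only [Finset.mem_coe, Finset.mem_sigma, Finset.mem_filter, Finset.mem_sdiff] at hz
    simp [Finset.erase_insert hz.2.1.2]
  · rintro ⟨s, x⟩ hz
    simp only [Finset.mem_coe, Finset.mem_sigma] at hz
    simp [Finset.insert_erase hz.2]

theorem sum_cnt {j : ℕ} {T : Finset (Finset V)} (hT : T ⊆ X.faces (j + 1)) :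
    ∑ η ∈ X.faces j, cnt X η T = (j + 1) * wsum X T := by
  unfold cnt
  rw [sum_faces X j fun η q => (rc X η T q).card, wsum_eq X hT, Finset.mul_sum]
  exact Finset.sum_congr rfl fun q _ => card_cofaces _ _ _

theorem card_supersets (A U : Finset V) (m : ℕ) (hU : U ⊆ A) :
    ((A.powersetCard m).filter (U ⊆ ·)).card ≤ (A.card - U.card).choose (m - U.card) := by
  rw [← Finset.card_sdiff_of_subset hU, ← Finset.card_powersetCard]
  refine Finset.card_le_card_of_injOn (fun s => s \ U) ?_ ?_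
  · intro s hs
    simp only [Finset.mem_coe, Finset.mem_filter, Finset.mem_powersetCard] at hs ⊢
    exact ⟨Finset.sdiff_subset_sdiff hs.1.1 subset_rfl,
      by rw [Finset.card_sdiff_of_subset hs.2, hs.1.2]⟩
  · intro s hs t ht he
    simp only [Finset.mem_coe, Finset.mem_filter] at hs ht
    simp only at he
    rw [← Finset.sdiff_union_of_subset hs.2, ← Finset.sdiff_union_of_subset ht.2, he]

/-! ## Levels and bad sets -/

/-- The levels below the support of `f`. -/
def lvl (c : ℕ) (th : ℕ → ℝ) (f : Finset V → ZMod 2) : ℕ → Finset (Finset V)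
  | 0 => (X.faces c).filter fun s => f s ≠ 0
  | k + 1 => (X.faces (c - (k + 1))).filter fun η =>
      th k * ((n - η.card : ℕ) : ℝ) * (X.w η : ℝ) ≤ (cnt X η (lvl c th f k) : ℝ)

theorem lvl_subset (c : ℕ) (th : ℕ → ℝ) (f : Finset V → ZMod 2) (k : ℕ) :
    lvl X c th f k ⊆ X.faces (c - k) := by
  cases k <;> exact Finset.filter_subset _ _

theorem card_lvl {c k : ℕ} {th : ℕ → ℝ} {f : Finset V → ZMod 2} {s : Finset V}
    (h : s ∈ lvl X c th f k) : s.card = c - k := by
  obtain ⟨q, -, hc⟩ := (mem_faces X).1 (lvl_subset X c th f k h)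
  exact hc

/-- Membership in the level of one's size. -/
def Good (c : ℕ) (th : ℕ → ℝ) (f : Finset V → ZMod 2) (A : Finset V) : Prop :=
  A.card ≤ c ∧ A ∈ lvl X c th f (c - A.card)

/-- Bad at level `k`. -/
def Bad (c : ℕ) (th : ℕ → ℝ) (f : Finset V → ZMod 2) (k : ℕ) (ρ : Finset V) : Prop :=
  ∃ ξ, ξ ⊆ ρ ∧ ξ.card + 1 + k = c ∧ ξ ∉ lvl X c th f (k + 1) ∧
    ∃ x ∈ ρ \ ξ, ∃ y ∈ ρ \ ξ, x ≠ y ∧
      insert x ξ ∈ lvl X c th f k ∧ insert y ξ ∈ lvl X c th f k

theorem closed_of_not_bad {c : ℕ} {th : ℕ → ℝ} {f : Finset V → ZMod 2} {ρ : Finset V}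
    (hρ : ∀ k < c, ¬ Bad X c th f k ρ) (ξ : Finset V) (x y : V) (hξρ : ξ ⊆ ρ) (hx : x ∈ ρ)
    (hy : y ∈ ρ) (hxξ : x ∉ ξ) (hyξ : y ∉ ξ) (hne : x ≠ y)
    (h1 : Good X c th f (insert x ξ)) (h2 : Good X c th f (insert y ξ)) :
    Good X c th f ξ := by
  simp only [Good, Finset.card_insert_of_notMem hxξ, Finset.card_insert_of_notMem hyξ] at h1 h2
  refine ⟨by omega, ?_⟩
  by_contra hn
  refine hρ (c - (ξ.card + 1)) (by omega) ⟨ξ, hξρ, by omega, ?_, x,
    Finset.mem_sdiff.2 ⟨hx, hxξ⟩, y, Finset.mem_sdiff.2 ⟨hy, hyξ⟩, hne, h1.2, h2.2⟩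
  rw [show c - (ξ.card + 1) + 1 = c - ξ.card by omega]
  exact hn

theorem mix_pairs {l t : ℝ} {η : Finset V} {T : Finset (Finset V)}
    (hmix : (X.link η).Mix l) (hη : η.card + 2 ≤ n) (hw : 0 < X.w η)
    (hlt : (cnt X η T : ℝ) < t * ((n - η.card : ℕ) : ℝ) * (X.w η : ℝ)) :
    ((∑ q ∈ univ.filter (fun q => η ⊆ X.ch q), (rc X η T q).offDiag.card : ℕ) : ℝ)
      ≤ (t + l) * (((n - η.card : ℕ) : ℝ) - 1) * (cnt X η T : ℝ) := by
  let S : Finset V := (univ.biUnion X.ch).filter fun x => insert x η ∈ T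
  have hS : ∀ q : {q : P // η ⊆ X.ch q}, (X.link η).ch q ∩ S = rc X η T q.1 := by
    intro q
    ext x
    simp only [Cham.link, rc, S, Finset.mem_inter, Finset.mem_filter, Finset.mem_biUnion,
      Finset.mem_univ, true_and, Finset.mem_sdiff]
    exact ⟨fun h => ⟨h.1, h.2.2⟩, fun h => ⟨h.1, ⟨q.1, h.1.1⟩, h.2⟩⟩
  have hcard : Fintype.card {q : P // η ⊆ X.ch q} = X.w η := Fintype.card_subtype _
  have h := hmix S
  simp only [hS, hcard] at h
  have hK : (∑ q : {q : P // η ⊆ X.ch q}, ((rc X η T q.1).card : ℝ)) = (cnt X η T : ℝ) := by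
    unfold cnt
    push_cast
    exact (Finset.sum_subtype _ (by simp) (fun q => ((rc X η T q).card : ℝ))).symm
  have hL : (∑ q : {q : P // η ⊆ X.ch q},
        ((rc X η T q.1).card : ℝ) * (((rc X η T q.1).card : ℝ) - 1))
      = ((∑ q ∈ univ.filter (fun q => η ⊆ X.ch q), (rc X η T q).offDiag.card : ℕ) : ℝ) := by
    push_cast
    rw [Finset.sum_subtype (p := fun q => η ⊆ X.ch q) (univ.filter fun q => η ⊆ X.ch q) (by simp)
      (fun q => ((rc X η T q).offDiag.card : ℝ))]
    refine Finset.sum_congr rfl fun q _ => ?_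
    rw [Finset.offDiag_card, Nat.cast_sub (Nat.le_mul_self _)]
    push_cast
    ring
  rw [hK, hL] at h
  set K : ℝ := (cnt X η T : ℝ) with hKdef
  set L : ℝ := ((∑ q ∈ univ.filter (fun q => η ⊆ X.ch q), (rc X η T q).offDiag.card : ℕ) : ℝ)
  set N : ℝ := ((n - η.card : ℕ) : ℝ) with hN
  set W : ℝ := (X.w η : ℝ) with hW
  have hN2 : 2 ≤ N := by rw [hN]; exact_mod_cast (by omega : 2 ≤ n - η.card)
  have hW0 : 0 < W := by rw [hW]; exact_mod_cast hw
  have hK0 : 0 ≤ K := by rw [hKdef]; positivity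
  have hNW : 0 < N * W := by positivity
  have ha : K / (N * W) ≤ t := by
    rw [div_le_iff₀ hNW]; linarith [hlt, mul_assoc t N W]
  have ha0 : 0 ≤ K / (N * W) := by positivity
  have h2 : L / (N * (N - 1) * W) ≤ (t + l) * (K / (N * W)) := by
    refine le_trans h ?_
    nlinarith
  have hpos : 0 < N * (N - 1) * W := mul_pos (mul_pos (by linarith) (by linarith)) hW0
  rw [div_le_iff₀ hpos] at h2
  calc L ≤ (t + l) * (K / (N * W)) * (N * (N - 1) * W) := h2
    _ = (t + l) * (N - 1) * K := by field_simp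

theorem bad_mass {c k : ℕ} {th : ℕ → ℝ} {f : Finset V → ZMod 2} {l : ℝ} (hk : k < c)
    (hcn : c < n) (hl : 0 ≤ l) (hth : 0 ≤ th k)
    (hmix : ∀ η ∈ X.complex, η.card < c → (X.link η).Mix l) :
    ((wsum X ((X.faces (c + 1)).filter (Bad X c th f k)) : ℕ) : ℝ)
      ≤ ((n - (c - k) - 1).choose k : ℝ) * ((th k + l) * ((n : ℝ) - ((c - k : ℕ) : ℝ))
          * ((c - k : ℕ) : ℝ) * (wsum X (lvl X c th f k) : ℝ)) := by
  obtain ⟨j, hj⟩ : ∃ j, c - k = j + 1 := ⟨c - k - 1, by omega⟩
  set T := lvl X c th f k with hTdef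
  have hT : T ⊆ X.faces (j + 1) := by rw [← hj]; exact lvl_subset X c th f k
  set E := (X.faces j).filter (fun η => η ∉ lvl X c th f (k + 1)) with hE
  let pairs : Finset V → P → ℕ := fun η q => (rc X η T q).offDiag.card
  have h1 : wsum X ((X.faces (c + 1)).filter (Bad X c th f k))
      ≤ (n - (c - k) - 1).choose k *
          ∑ η ∈ E, ∑ q ∈ univ.filter (fun q => η ⊆ X.ch q), pairs η q := by
    have hsum : ∑ η ∈ E, ∑ q ∈ univ.filter (fun q => η ⊆ X.ch q), pairs η q
        = ∑ q, ∑ η ∈ ((X.ch q).powersetCard j).filter (fun η => η ∉ lvl X c th f (k + 1)),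
            pairs η q := by
      simp only [hE, Finset.sum_filter (s := X.faces j), Finset.sum_filter (s := powersetCard _ _)]
      rw [← sum_faces X j fun η q => if η ∉ lvl X c th f (k + 1) then pairs η q else 0]
      refine Finset.sum_congr rfl fun η _ => ?_
      by_cases hη : η ∈ lvl X c th f (k + 1) <;> simp [hη]
    rw [hsum, wsum_eq X (Finset.filter_subset _ _), Finset.mul_sum]
    refine Finset.sum_le_sum fun q _ => ?_
    calc _ ≤ ((((X.ch q).powersetCard j).filter (fun η => η ∉ lvl X c th f (k + 1))).biUnion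
            fun η => (rc X η T q).offDiag.biUnion fun z =>
              ((X.ch q).powersetCard (c + 1)).filter
                (insert z.1 (insert z.2 η) ⊆ ·)).card := by
          refine Finset.card_le_card fun ρ hρ => ?_
          simp only [Finset.mem_filter, Finset.mem_powersetCard] at hρ
          obtain ⟨⟨hρq, hρc⟩, -, ξ, hξρ, hξc, hξn, x, hx, y, hy, hxy, hxT, hyT⟩ := hρ
          simp only [Finset.mem_biUnion, Finset.mem_filter, Finset.mem_powersetCard,
            Finset.mem_offDiag, rc, Finset.mem_sdiff]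
          rw [Finset.mem_sdiff] at hx hy
          exact ⟨ξ, ⟨⟨hξρ.trans hρq, by omega⟩, hξn⟩, (x, y),
            ⟨⟨⟨hρq hx.1, hx.2⟩, hxT⟩, ⟨⟨hρq hy.1, hy.2⟩, hyT⟩, hxy⟩, ⟨hρq, hρc⟩,
            Finset.insert_subset hx.1 (Finset.insert_subset hy.1 hξρ)⟩
      _ ≤ _ := by
          refine Finset.card_biUnion_le.trans ?_
          rw [Finset.mul_sum]
          refine Finset.sum_le_sum fun η hη => ?_
          refine Finset.card_biUnion_le.trans ?_
          rw [mul_comm]
          refine (Finset.sum_le_card_nsmul _ _ _ fun z hz => ?_).trans (le_of_eq (smul_eq_mul _ _))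
          simp only [Finset.mem_offDiag, rc, Finset.mem_filter, Finset.mem_sdiff] at hz
          simp only [Finset.mem_filter, Finset.mem_powersetCard] at hη
          obtain ⟨⟨⟨hz1, hz1'⟩, -⟩, ⟨⟨hz2, hz2'⟩, -⟩, hne⟩ := hz
          have hc2 : (insert z.1 (insert z.2 η)).card = j + 2 := by
            rw [Finset.card_insert_of_notMem (by simp [hne, hz1']),
              Finset.card_insert_of_notMem hz2', hη.1.2]
          refine (card_supersets _ _ _
            (Finset.insert_subset hz1 (Finset.insert_subset hz2 hη.1.1))).trans (le_of_eq ?_)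
          rw [hc2, X.card_ch, hj]
          congr 1
          omega
  have hjn : (j : ℝ) + 1 = ((c - k : ℕ) : ℝ) := by rw [hj]; push_cast; ring
  have h2 : ∀ η ∈ E, ((∑ q ∈ univ.filter (fun q => η ⊆ X.ch q), pairs η q : ℕ) : ℝ)
      ≤ (th k + l) * ((n : ℝ) - ((c - k : ℕ) : ℝ)) * (cnt X η T : ℝ) := by
    intro η hη
    obtain ⟨hηf, hηn⟩ := Finset.mem_filter.1 hη
    obtain ⟨q, hq, hηc⟩ := (mem_faces X).1 hηf
    have hlt : (cnt X η T : ℝ) < th k * ((n - η.card : ℕ) : ℝ) * (X.w η : ℝ) := by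
      by_contra hcon
      push Not at hcon
      refine hηn (Finset.mem_filter.2 ⟨?_, hcon⟩)
      rwa [show c - (k + 1) = j by omega]
    have := mix_pairs X (hmix η ⟨q, hq⟩ (by omega)) (by omega) (w_pos X hηf) hlt
    rw [Nat.cast_sub (by omega), hηc, sub_sub, hjn] at this
    exact this
  have hnn : (0 : ℝ) ≤ (th k + l) * ((n : ℝ) - ((c - k : ℕ) : ℝ)) := by
    refine mul_nonneg (by linarith) (sub_nonneg.2 ?_)
    exact_mod_cast (by omega : c - k ≤ n)
  calc ((wsum X ((X.faces (c + 1)).filter (Bad X c th f k)) : ℕ) : ℝ)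
      ≤ (((n - (c - k) - 1).choose k *
          ∑ η ∈ E, ∑ q ∈ univ.filter (fun q => η ⊆ X.ch q), pairs η q : ℕ) : ℝ) := by
        exact_mod_cast h1
    _ ≤ ((n - (c - k) - 1).choose k : ℝ) * ((th k + l) * ((n : ℝ) - ((c - k : ℕ) : ℝ))
          * ((∑ η ∈ X.faces j, cnt X η T : ℕ) : ℝ)) := by
        push_cast at h2 ⊢
        refine mul_le_mul_of_nonneg_left ?_ (by positivity)
        rw [Finset.mul_sum]
        exact (Finset.sum_le_sum h2).trans (Finset.sum_le_sum_of_subset_of_nonneg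
          (Finset.filter_subset _ _) fun η _ _ => mul_nonneg hnn (by positivity))
    _ = _ := by
        rw [sum_cnt X hT, hj]
        push_cast
        ring

/-! ## Thresholds -/

/-- The threshold of level `k`. -/
def thr (ε : ℝ) (k : ℕ) : ℝ := ε ^ 2 ^ k

/-- The product of the first `k` thresholds. -/
def dd (ε : ℝ) (k : ℕ) : ℝ := ε ^ (2 ^ k - 1)

theorem dd_succ (ε : ℝ) (k : ℕ) : dd ε (k + 1) = dd ε k * thr ε k := by
  unfold dd thr
  rw [← pow_add]
  congr 1
  have := Nat.one_le_two_pow (n := k)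
  rw [pow_succ]
  omega

theorem thr_eq (ε : ℝ) (k : ℕ) : thr ε k = ε * dd ε k := by
  unfold dd thr
  rw [← pow_succ']
  congr 1
  have := Nat.one_le_two_pow (n := k)
  omega

theorem lvl_mass {c : ℕ} {ε : ℝ} {f : Finset V → ZMod 2} (hε : 0 < ε) (hcn : c < n)
    (k : ℕ) (hk : k ≤ c) :
    dd ε k * (wsum X (lvl X c (thr ε) f k) : ℝ) * (n.choose c : ℝ)
      ≤ (wsum X (lvl X c (thr ε) f 0) : ℝ) * (n.choose (c - k) : ℝ) := by
  induction k with
  | zero => simp [dd]
  | succ k ih =>
    have ih := ih (by omega)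
    obtain ⟨j, hj⟩ : ∃ j, c - k = j + 1 := ⟨c - k - 1, by omega⟩
    have hj' : c - (k + 1) = j := by omega
    set T := lvl X c (thr ε) f k with hTdef
    have hT : T ⊆ X.faces (j + 1) := by rw [← hj]; exact lvl_subset X c (thr ε) f k
    have hnj : (0 : ℝ) < ((n - j : ℕ) : ℝ) := by exact_mod_cast (by omega : 0 < n - j)
    have h1 : thr ε k * ((n - j : ℕ) : ℝ) * (wsum X (lvl X c (thr ε) f (k + 1)) : ℝ)
        ≤ ((j : ℝ) + 1) * (wsum X T : ℝ) := by
      calc _ = ∑ η ∈ lvl X c (thr ε) f (k + 1),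
            thr ε k * ((n - η.card : ℕ) : ℝ) * (X.w η : ℝ) := by
            unfold wsum
            push_cast
            rw [Finset.mul_sum]
            refine Finset.sum_congr rfl fun η hη => ?_
            rw [card_lvl X hη, hj']
        _ ≤ ∑ η ∈ lvl X c (thr ε) f (k + 1), (cnt X η T : ℝ) :=
            Finset.sum_le_sum fun η hη => (Finset.mem_filter.1 hη).2
        _ ≤ ∑ η ∈ X.faces j, (cnt X η T : ℝ) :=
            Finset.sum_le_sum_of_subset_of_nonneg
              (by rw [← hj']; exact lvl_subset X c (thr ε) f (k + 1))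
              fun η _ _ => by positivity
        _ = _ := by
            rw [← Nat.cast_sum, sum_cnt X hT]
            push_cast
            ring
    have hch : (n.choose (j + 1) : ℝ) * ((j : ℝ) + 1)
        = (n.choose j : ℝ) * ((n - j : ℕ) : ℝ) := by
      exact_mod_cast Nat.choose_succ_right_eq n j
    rw [hj] at ih
    rw [hj', dd_succ]
    have hd : 0 ≤ dd ε k * (n.choose c : ℝ) :=
      mul_nonneg (pow_nonneg hε.le _) (by positivity)
    refine le_of_mul_le_mul_right ?_ hnj
    calc dd ε k * thr ε k * (wsum X (lvl X c (thr ε) f (k + 1)) : ℝ) * (n.choose c : ℝ)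
          * ((n - j : ℕ) : ℝ)
        = dd ε k * (n.choose c : ℝ) *
          (thr ε k * ((n - j : ℕ) : ℝ) * (wsum X (lvl X c (thr ε) f (k + 1)) : ℝ)) := by ring
      _ ≤ dd ε k * (n.choose c : ℝ) * (((j : ℝ) + 1) * (wsum X T : ℝ)) :=
          mul_le_mul_of_nonneg_left h1 hd
      _ = ((j : ℝ) + 1) * (dd ε k * (wsum X T : ℝ) * (n.choose c : ℝ)) := by ring
      _ ≤ ((j : ℝ) + 1) *
            ((wsum X (lvl X c (thr ε) f 0) : ℝ) * (n.choose (j + 1) : ℝ)) :=
          mul_le_mul_of_nonneg_left ih (by positivity)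
      _ = (wsum X (lvl X c (thr ε) f 0) : ℝ) * ((n.choose (j + 1) : ℝ) * ((j : ℝ) + 1)) := by
          ring
      _ = _ := by rw [hch]; ring

theorem choose_bound {c i n : ℕ} (h1 : 1 ≤ i) (hic : i ≤ c) (hcn : c < n) :
    (n - i - 1).choose (c - i) * (n - i) * i * n.choose i
      ≤ (c + 1) * (c + 1) * 2 ^ (c + 1) * n.choose (c + 1) := by
  have e1 : (n - i) * (n - i - 1).choose (c - i)
      = (n - i).choose (c + 1 - i) * (c + 1 - i) := by
    have := Nat.add_one_mul_choose_eq (n - i - 1) (c - i)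
    rwa [show n - i - 1 + 1 = n - i by omega, show c - i + 1 = c + 1 - i by omega] at this
  have e2 : n.choose (c + 1) * (c + 1).choose i
      = n.choose i * (n - i).choose (c + 1 - i) := Nat.choose_mul (by omega)
  calc (n - i - 1).choose (c - i) * (n - i) * i * n.choose i
      = ((n - i) * (n - i - 1).choose (c - i)) * i * n.choose i := by ring
    _ = i * (c + 1 - i) * (n.choose i * (n - i).choose (c + 1 - i)) := by rw [e1]; ring
    _ = i * (c + 1 - i) * (c + 1).choose i * n.choose (c + 1) := by rw [← e2]; ring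
    _ ≤ _ := by
        refine Nat.mul_le_mul_right _ (Nat.mul_le_mul (Nat.mul_le_mul (by omega) (by omega)) ?_)
        exact Nat.choose_le_two_pow _ _

theorem bad_total {c : ℕ} {ε l : ℝ} {f : Finset V → ZMod 2} (hε : 0 < ε)
    (hl : 0 ≤ l) (hlk : ∀ k < c, l ≤ thr ε k) (hcn : c < n)
    (hmix : ∀ η ∈ X.complex, η.card < c → (X.link η).Mix l) :
    ((wsum X ((X.faces (c + 1)).filter fun ρ => ∃ k < c, Bad X c (thr ε) f k ρ) : ℕ) : ℝ)
        * (n.choose c : ℝ)
      ≤ (c : ℝ) * (2 * ε * (((c + 1) * (c + 1) * 2 ^ (c + 1) : ℕ) : ℝ))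
        * ((n.choose (c + 1) : ℝ) * (wsum X (lvl X c (thr ε) f 0) : ℝ)) := by
  set M0 : ℝ := (wsum X (lvl X c (thr ε) f 0) : ℝ) with hM0
  set K : ℕ := (c + 1) * (c + 1) * 2 ^ (c + 1) with hK
  have h1 : wsum X ((X.faces (c + 1)).filter fun ρ => ∃ k < c, Bad X c (thr ε) f k ρ)
      ≤ ∑ k ∈ Finset.range c, wsum X ((X.faces (c + 1)).filter (Bad X c (thr ε) f k)) := by
    refine le_trans ?_ (sum_biUnion_le' _ _ _)
    refine Finset.sum_le_sum_of_subset fun ρ hρ => ?_
    obtain ⟨hρ1, k, hk, hb⟩ := Finset.mem_filter.1 hρ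
    exact Finset.mem_biUnion.2 ⟨k, Finset.mem_range.2 hk, Finset.mem_filter.2 ⟨hρ1, hb⟩⟩
  have h2 : ∀ k ∈ Finset.range c,
      ((wsum X ((X.faces (c + 1)).filter (Bad X c (thr ε) f k)) : ℕ) : ℝ) * (n.choose c : ℝ)
        ≤ 2 * ε * (K : ℝ) * ((n.choose (c + 1) : ℝ) * M0) := by
    intro k hk
    have hk' : k < c := Finset.mem_range.1 hk
    have hd : 0 ≤ dd ε k := pow_nonneg hε.le _
    have hb := bad_mass X (th := thr ε) (f := f) hk' hcn hl (pow_nonneg hε.le _) hmix
    have ht : thr ε k + l ≤ 2 * ε * dd ε k := by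
      have := hlk k hk'; rw [thr_eq] at this ⊢; linarith
    have hi : (n : ℝ) - ((c - k : ℕ) : ℝ) = ((n - (c - k) : ℕ) : ℝ) := by
      rw [Nat.cast_sub (by omega : c - k ≤ n)]
    rw [hi] at hb
    have hA : (((n - (c - k) - 1).choose k * (n - (c - k)) * (c - k) * n.choose (c - k) : ℕ) : ℝ)
        ≤ ((K * n.choose (c + 1) : ℕ) : ℝ) := by
      have := choose_bound (n := n) (show 1 ≤ c - k by omega) (show c - k ≤ c by omega) hcn
      rw [show c - (c - k) = k by omega] at this
      exact_mod_cast this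
    push_cast at hA
    set A1 : ℝ := ((n - (c - k) - 1).choose k : ℝ)
    set A2 : ℝ := ((n - (c - k) : ℕ) : ℝ)
    set A3 : ℝ := ((c - k : ℕ) : ℝ)
    set Wk : ℝ := (wsum X (lvl X c (thr ε) f k) : ℝ)
    have hA1 : 0 ≤ A1 := Nat.cast_nonneg _
    have hA2 : 0 ≤ A2 := Nat.cast_nonneg _
    have hA3 : 0 ≤ A3 := Nat.cast_nonneg _
    have hWk : 0 ≤ Wk := Nat.cast_nonneg _
    calc ((wsum X ((X.faces (c + 1)).filter (Bad X c (thr ε) f k)) : ℕ) : ℝ) * (n.choose c : ℝ)
        ≤ A1 * ((thr ε k + l) * A2 * A3 * Wk) * (n.choose c : ℝ) :=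
          mul_le_mul_of_nonneg_right hb (Nat.cast_nonneg _)
      _ = (thr ε k + l) * (A1 * A2 * A3 * Wk * (n.choose c : ℝ)) := by ring
      _ ≤ 2 * ε * dd ε k * (A1 * A2 * A3 * Wk * (n.choose c : ℝ)) :=
          mul_le_mul_of_nonneg_right ht (by positivity)
      _ = 2 * ε * (A1 * A2 * A3) * (dd ε k * Wk * (n.choose c : ℝ)) := by ring
      _ ≤ 2 * ε * (A1 * A2 * A3) * (M0 * (n.choose (c - k) : ℝ)) :=
          mul_le_mul_of_nonneg_left (lvl_mass X hε hcn k hk'.le) (by positivity)
      _ = 2 * ε * M0 * (A1 * A2 * A3 * (n.choose (c - k) : ℝ)) := by ring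
      _ ≤ 2 * ε * M0 * ((K : ℝ) * (n.choose (c + 1) : ℝ)) :=
          mul_le_mul_of_nonneg_left hA (by positivity)
      _ = _ := by ring
  calc _ ≤ (∑ k ∈ Finset.range c,
        ((wsum X ((X.faces (c + 1)).filter (Bad X c (thr ε) f k)) : ℕ) : ℝ))
          * (n.choose c : ℝ) :=
        mul_le_mul_of_nonneg_right (by exact_mod_cast h1) (Nat.cast_nonneg _)
    _ ≤ ∑ _k ∈ Finset.range c, 2 * ε * (K : ℝ) * ((n.choose (c + 1) : ℝ) * M0) := by
        rw [Finset.sum_mul]; exact Finset.sum_le_sum h2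
    _ = _ := by simp; ring

/-! ## The expansion step -/

theorem mem_link_faces {η s : Finset V} {e : ℕ} :
    s ∈ (X.link η).faces e ↔ ∃ q, η ⊆ X.ch q ∧ s ⊆ X.ch q ∧ Disjoint s η ∧ s.card = e := by
  rw [mem_faces]
  constructor
  · rintro ⟨⟨q, hq⟩, hs, hc⟩
    exact ⟨q, hq, Finset.subset_sdiff.1 hs |>.1, Finset.subset_sdiff.1 hs |>.2, hc⟩
  · rintro ⟨q, hq, hs, hd, hc⟩
    exact ⟨⟨q, hq⟩, Finset.subset_sdiff.2 ⟨hs, hd⟩, hc⟩

theorem link_w {η s : Finset V} (hd : Disjoint s η) : (X.link η).w s = X.w (η ∪ s) := by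
  unfold Cham.w
  refine Finset.card_bij (fun q _ => q.1) ?_ (fun q _ q' _ h => Subtype.ext h) ?_
  · intro q hq
    simp only [Finset.mem_filter, Finset.mem_univ, true_and, Cham.link,
      Finset.subset_sdiff] at hq ⊢
    exact Finset.union_subset q.2 hq.1
  · intro q hq
    simp only [Finset.mem_filter, Finset.mem_univ, true_and, Finset.union_subset_iff] at hq
    exact ⟨⟨q, hq.1⟩, by simp [Cham.link, Finset.subset_sdiff, hq.2, hd], rfl⟩

/-- The part of `f` which descends to `η`, in the link of `η`. -/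
def ladPart (c : ℕ) (th : ℕ → ℝ) (f : Finset V → ZMod 2) (η s : Finset V) : ZMod 2 :=
  if Lad (Good X c th f) η (η ∪ s) then f (η ∪ s) else 0

theorem ladPart_min {c : ℕ} {th : ℕ → ℝ} {f : Finset V → ZMod 2} (hmin : X.LocMin c f)
    {η : Finset V} (h1 : 1 ≤ η.card) (hc : η.card ≤ c) (g : Finset V → ZMod 2) :
    (X.link η).mass (c - η.card) (ladPart X c th f η)
      ≤ (X.link η).mass (c - η.card) (ladPart X c th f η + Cham.cobd g) := by
  rcases hc.lt_or_eq with hlt | heq
  · have hF := hmin η h1 hlt g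
    have key : (X.link η).mass (c - η.card) (ladPart X c th f η)
        + (X.link η).mass (c - η.card) ((fun s => f (η ∪ s)) + Cham.cobd g)
        ≤ (X.link η).mass (c - η.card) (fun s => f (η ∪ s))
        + (X.link η).mass (c - η.card) (ladPart X c th f η + Cham.cobd g) := by
      unfold Cham.mass
      rw [← Finset.sum_add_distrib, ← Finset.sum_add_distrib]
      refine Finset.sum_le_sum fun s _ => ?_
      simp only [Pi.add_apply, ladPart]
      by_cases hL : Lad (Good X c th f) η (η ∪ s)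
      · simp [hL]
      · by_cases hf : f (η ∪ s) = 0
        · simp [hL, hf]
        · simp only [if_neg hL, if_neg hf, if_true, zero_add]
          split_ifs <;> omega
    omega
  · refine le_of_eq (Finset.sum_congr rfl fun s hs => ?_)
    obtain ⟨q, -, -, -, hcard⟩ := (mem_link_faces X).1 hs
    rw [show s = ∅ from Finset.card_eq_zero.1 (by omega)]
    simp [Cham.cobd]

theorem ladPart_mass {c : ℕ} {th : ℕ → ℝ} {f : Finset V → ZMod 2} {η : Finset V} :
    wsum X ((lvl X c th f 0).filter (Lad (Good X c th f) η))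
      ≤ (X.link η).mass (c - η.card) (ladPart X c th f η) := by
  rw [mass_eq]
  unfold wsum
  calc wsum X ((lvl X c th f 0).filter (Lad (Good X c th f) η))
      = ∑ σ ∈ (lvl X c th f 0).filter (Lad (Good X c th f) η), (X.link η).w (σ \ η) := by
        refine Finset.sum_congr rfl fun σ hσ => ?_
        rw [link_w X Finset.sdiff_disjoint,
          Finset.union_sdiff_of_subset (Finset.mem_filter.1 hσ).2.subset]
    _ = ∑ s ∈ ((lvl X c th f 0).filter (Lad (Good X c th f) η)).image (fun σ => σ \ η),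
          (X.link η).w s := by
        rw [Finset.sum_image]
        intro a ha b hb hab
        have ha' := (Finset.mem_filter.1 ha).2.subset
        have hb' := (Finset.mem_filter.1 hb).2.subset
        rw [← Finset.union_sdiff_of_subset ha', ← Finset.union_sdiff_of_subset hb']
        exact congrArg (η ∪ ·) hab
    _ ≤ _ := by
        refine Finset.sum_le_sum_of_subset fun s hs => ?_
        obtain ⟨σ, hσ, rfl⟩ := Finset.mem_image.1 hs
        obtain ⟨hσ0, hLad⟩ := Finset.mem_filter.1 hσ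
        obtain ⟨hσf, hfσ⟩ := Finset.mem_filter.1 hσ0
        obtain ⟨q, hq, hcard⟩ := (mem_faces X).1 hσf
        refine Finset.mem_filter.2 ⟨(mem_link_faces X).2 ⟨q, hLad.subset.trans hq,
          Finset.sdiff_subset.trans hq, Finset.sdiff_disjoint,
          by rw [Finset.card_sdiff_of_subset hLad.subset, hcard]⟩, ?_⟩
        simp [ladPart, Finset.union_sdiff_of_subset hLad.subset, hLad, hfσ]

theorem ladPart_cobd {c : ℕ} {th : ℕ → ℝ} {f : Finset V → ZMod 2} {η : Finset V}
    (hfc : ∀ t ∈ X.faces (c + 1), Cham.cobd f t = 0) (hηc : η.card ≤ c)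
    (hterm : ∀ x ∈ η, ¬ Good X c th f (η.erase x)) :
    (X.link η).mass (c - η.card + 1) (Cham.cobd (ladPart X c th f η))
      ≤ wsum X (((X.faces (c + 1)).filter fun ρ => ∃ k < c, Bad X c th f k ρ).filter
          (η ⊆ ·)) := by
  rw [mass_eq]
  unfold wsum
  calc ∑ s ∈ ((X.link η).faces (c - η.card + 1)).filter
        (fun s => ¬ Cham.cobd (ladPart X c th f η) s = 0), (X.link η).w s
      = ∑ s ∈ ((X.link η).faces (c - η.card + 1)).filter
        (fun s => ¬ Cham.cobd (ladPart X c th f η) s = 0), X.w (η ∪ s) := by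
        refine Finset.sum_congr rfl fun s hs => ?_
        obtain ⟨q, -, -, hd, -⟩ := (mem_link_faces X).1 (Finset.mem_filter.1 hs).1
        exact link_w X hd
    _ = ∑ ρ ∈ (((X.link η).faces (c - η.card + 1)).filter
        (fun s => ¬ Cham.cobd (ladPart X c th f η) s = 0)).image (η ∪ ·), X.w ρ := by
        rw [Finset.sum_image]
        intro a ha b hb hab
        obtain ⟨-, -, -, hda, -⟩ := (mem_link_faces X).1 (Finset.mem_filter.1 ha).1
        obtain ⟨-, -, -, hdb, -⟩ := (mem_link_faces X).1 (Finset.mem_filter.1 hb).1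
        have := congrArg (· \ η) hab
        simp only [Finset.union_sdiff_left] at this
        rwa [sdiff_eq_self_of_disjoint hda, sdiff_eq_self_of_disjoint hdb] at this
    _ ≤ _ := by
        refine Finset.sum_le_sum_of_subset fun ρ hρ => ?_
        obtain ⟨s, hs, rfl⟩ := Finset.mem_image.1 hρ
        obtain ⟨hsf, hne⟩ := Finset.mem_filter.1 hs
        obtain ⟨q, hηq, hsq, hd, hsc⟩ := (mem_link_faces X).1 hsf
        have hρc : (η ∪ s).card = c + 1 := by
          rw [Finset.card_union_of_disjoint hd.symm, hsc]; omega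
        have hρf : η ∪ s ∈ X.faces (c + 1) :=
          (mem_faces X).2 ⟨q, Finset.union_subset hηq hsq, hρc⟩
        refine Finset.mem_filter.2 ⟨Finset.mem_filter.2 ⟨hρf, ?_⟩, Finset.subset_union_left⟩
        by_contra hbad
        push Not at hbad
        have hgood : ∀ a ∈ η ∪ s, f ((η ∪ s).erase a) ≠ 0 →
            Good X c th f ((η ∪ s).erase a) := by
          intro a ha hf
          have hc' : ((η ∪ s).erase a).card = c := by
            rw [Finset.card_erase_of_mem ha, hρc]; rfl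
          refine ⟨hc'.le, ?_⟩
          rw [hc', Nat.sub_self]
          exact Finset.mem_filter.2 ⟨(mem_faces X).2 ⟨q,
            (Finset.erase_subset _ _).trans (Finset.union_subset hηq hsq), hc'⟩, hf⟩
        let u : V → ZMod 2 := fun x =>
          if Lad (Good X c th f) η ((η ∪ s).erase x) then f ((η ∪ s).erase x) else 0
        have hu : Cham.cobd (ladPart X c th f η) s = ∑ x ∈ η ∪ s, u x := by
          rw [Finset.sum_union hd.symm]
          have hz : ∑ x ∈ η, u x = 0 := Finset.sum_eq_zero fun x hx => by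
            have : ¬ Lad (Good X c th f) η ((η ∪ s).erase x) := fun hl =>
              (Finset.notMem_erase x _) (hl.subset hx)
            simp [u, this]
          rw [hz, zero_add]
          refine Finset.sum_congr rfl fun x hx => ?_
          have hxη : x ∉ η := fun h => Finset.disjoint_left.1 hd hx h
          simp only [ladPart, u]
          rw [Finset.erase_union_distrib, Finset.erase_eq_of_notMem hxη]
        obtain ⟨a, ha, hua⟩ := Finset.exists_ne_zero_of_sum_ne_zero (hu ▸ hne)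
        have hla : Lad (Good X c th f) η ((η ∪ s).erase a) := by
          by_contra h; exact hua (by simp [u, h])
        have hall : ∀ b ∈ η ∪ s, u b = f ((η ∪ s).erase b) := by
          intro b hb
          by_cases hf : f ((η ∪ s).erase b) = 0
          · simp [u, hf]
          by_cases hab : b = a
          · subst hab; simp [u, hla]
          · have hlb : Lad (Good X c th f) η ((η ∪ s).erase b) :=
              lad_swap (Good X c th f) η (η ∪ s) hterm
                (fun ξ x y => closed_of_not_bad X hbad ξ x y) hla _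
                (Finset.erase_subset _ _) (Finset.erase_subset _ _) (hgood b hb hf) b
                (Finset.mem_erase.2 ⟨hab, hb⟩) a (Finset.mem_erase.2 ⟨Ne.symm hab, ha⟩)
                Finset.erase_right_comm hab
            simp [u, hlb]
        refine hne ?_
        rw [hu, Finset.sum_congr rfl hall]
        exact hfc _ hρf

theorem expand_step {c : ℕ} {th : ℕ → ℝ} {f : Finset V → ZMod 2} {β : ℝ} (hβ : 0 < β)
    (hcn : c < n) {η : Finset V} (hexp : (X.link η).ExpandAt β (c - η.card))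
    (hfc : ∀ t ∈ X.faces (c + 1), Cham.cobd f t = 0) (hmin : X.LocMin c f)
    (h1 : 1 ≤ η.card) (hG : Good X c th f η)
    (hterm : ∀ x ∈ η, ¬ Good X c th f (η.erase x)) :
    β * ((n - c : ℕ) : ℝ) * (wsum X ((lvl X c th f 0).filter (Lad (Good X c th f) η)) : ℝ)
      ≤ ((c : ℝ) + 1) * (wsum X (((X.faces (c + 1)).filter
          fun ρ => ∃ k < c, Bad X c th f k ρ).filter (η ⊆ ·)) : ℝ) := by
  obtain ⟨g, hg⟩ := hexp (ladPart X c th f η)
  have hw : 0 < X.w η := w_pos X (lvl_subset X c th f _ hG.2)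
  have hcard : Fintype.card {q : P // η ⊆ X.ch q} = X.w η := Fintype.card_subtype _
  set e := c - η.card with he
  have h2 := ladPart_cobd X hfc hG.1 hterm
  rw [← he] at h2
  set A : ℕ := (X.link η).mass e (ladPart X c th f η + Cham.cobd g)
  set B : ℕ := (X.link η).mass (e + 1) (Cham.cobd (ladPart X c th f η))
  simp only [Cham.total, hcard, Nat.cast_mul] at hg
  have hc1 : ((n - η.card).choose (e + 1) : ℝ) * ((e : ℝ) + 1)
      = ((n - η.card).choose e : ℝ) * ((n - c : ℕ) : ℝ) := by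
    have := Nat.choose_succ_right_eq (n - η.card) e
    rw [show n - η.card - e = n - c by have := hG.1; omega] at this
    exact_mod_cast this
  have hce : (0 : ℝ) < ((n - η.card).choose e : ℝ) := by
    exact_mod_cast Nat.choose_pos (by have := hG.1; omega)
  have hW : (0 : ℝ) < (X.w η : ℝ) := by exact_mod_cast hw
  have h3 : β * ((n - c : ℕ) : ℝ) * (A : ℝ) ≤ ((e : ℝ) + 1) * (B : ℝ) := by
    refine le_of_mul_le_mul_right ?_ (mul_pos hce hW)
    calc β * ((n - c : ℕ) : ℝ) * (A : ℝ) * (((n - η.card).choose e : ℝ) * (X.w η : ℝ))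
        = β * (A : ℝ) * ((((n - η.card).choose e : ℝ) * ((n - c : ℕ) : ℝ)) * (X.w η : ℝ)) := by
          ring
      _ = ((e : ℝ) + 1) *
            (β * (A : ℝ) * (((n - η.card).choose (e + 1) : ℝ) * (X.w η : ℝ))) := by
          rw [← hc1]; ring
      _ ≤ ((e : ℝ) + 1) * ((B : ℝ) * (((n - η.card).choose e : ℝ) * (X.w η : ℝ))) :=
          mul_le_mul_of_nonneg_left hg (by positivity)
      _ = _ := by ring
  have hA : (wsum X ((lvl X c th f 0).filter (Lad (Good X c th f) η)) : ℝ) ≤ (A : ℝ) :=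
    by exact_mod_cast (ladPart_mass X).trans (ladPart_min X hmin h1 hG.1 g)
  calc β * ((n - c : ℕ) : ℝ) * _ ≤ β * ((n - c : ℕ) : ℝ) * (A : ℝ) :=
        mul_le_mul_of_nonneg_left hA (by positivity)
    _ ≤ ((e : ℝ) + 1) * (B : ℝ) := h3
    _ ≤ _ := by
        refine mul_le_mul ?_ (by exact_mod_cast h2) (by positivity) (by positivity)
        have : (e : ℝ) ≤ c := by exact_mod_cast (by omega : e ≤ c)
        linarith

theorem main_step {c : ℕ} {th : ℕ → ℝ} {f : Finset V → ZMod 2} {β : ℝ} (hβ : 0 < β)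
    (hcn : c < n)
    (hexp : ∀ η ∈ X.complex, 1 ≤ η.card → η.card ≤ c → (X.link η).ExpandAt β (c - η.card))
    (hfc : ∀ t ∈ X.faces (c + 1), Cham.cobd f t = 0) (hmin : X.LocMin c f)
    (hempty : ¬ Good X c th f ∅) :
    β * ((n - c : ℕ) : ℝ) * (wsum X (lvl X c th f 0) : ℝ)
      ≤ ((c : ℝ) + 1) * 2 ^ (c + 1) *
        (wsum X ((X.faces (c + 1)).filter fun ρ => ∃ k < c, Bad X c th f k ρ) : ℝ) := by
  set B := (X.faces (c + 1)).filter fun ρ => ∃ k < c, Bad X c th f k ρ with hB
  set Tm := ((Finset.range (c + 1)).biUnion fun j => X.faces j).filter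
    (fun η => Good X c th f η ∧ ∀ x ∈ η, ¬ Good X c th f (η.erase x)) with hTm
  have h1 : wsum X (lvl X c th f 0)
      ≤ ∑ η ∈ Tm, wsum X ((lvl X c th f 0).filter (Lad (Good X c th f) η)) := by
    refine le_trans ?_ (sum_biUnion_le' _ _ _)
    refine Finset.sum_le_sum_of_subset fun σ hσ => ?_
    have hσc := card_lvl X hσ
    simp only [Nat.sub_zero] at hσc
    obtain ⟨η, hη, hterm, hlad⟩ := exists_lad (Good X c th f) σ
      ⟨hσc.le, by rwa [hσc, Nat.sub_self]⟩
    refine Finset.mem_biUnion.2 ⟨η, Finset.mem_filter.2 ⟨Finset.mem_biUnion.2 ⟨η.card, ?_, ?_⟩,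
      hη, hterm⟩, Finset.mem_filter.2 ⟨hσ, hlad⟩⟩
    · exact Finset.mem_range.2 (Nat.lt_succ_of_le hη.1)
    · have := lvl_subset X c th f _ hη.2
      rwa [show c - (c - η.card) = η.card by have := hη.1; omega] at this
  have h2 : ∀ η ∈ Tm,
      β * ((n - c : ℕ) : ℝ) * (wsum X ((lvl X c th f 0).filter (Lad (Good X c th f) η)) : ℝ)
        ≤ ((c : ℝ) + 1) * (wsum X (B.filter (η ⊆ ·)) : ℝ) := by
    intro η hη
    obtain ⟨-, hG, hterm⟩ := Finset.mem_filter.1 hη
    have hne : 1 ≤ η.card := by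
      by_contra hcon
      exact hempty ((Finset.card_eq_zero.1 (by omega : η.card = 0)) ▸ hG)
    obtain ⟨q, hq, -⟩ := (mem_faces X).1 (lvl_subset X c th f _ hG.2)
    exact expand_step X hβ hcn (hexp η ⟨q, hq⟩ hne hG.1) hfc hmin hne hG hterm
  have h3 : ∑ η ∈ Tm, wsum X (B.filter (η ⊆ ·)) ≤ 2 ^ (c + 1) * wsum X B := by
    simp only [wsum, Finset.sum_filter, Finset.mul_sum]
    rw [Finset.sum_comm]
    refine Finset.sum_le_sum fun ρ hρ => ?_
    rw [← Finset.sum_filter, Finset.sum_const, smul_eq_mul]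
    refine Nat.mul_le_mul_right _ ?_
    obtain ⟨q, -, hρc⟩ := (mem_faces X).1 (Finset.mem_filter.1 hρ).1
    rw [← hρc, ← Finset.card_powerset]
    exact Finset.card_le_card fun η hη => Finset.mem_powerset.2 (Finset.mem_filter.1 hη).2
  calc β * ((n - c : ℕ) : ℝ) * (wsum X (lvl X c th f 0) : ℝ)
      ≤ β * ((n - c : ℕ) : ℝ) *
        ((∑ η ∈ Tm, wsum X ((lvl X c th f 0).filter (Lad (Good X c th f) η)) : ℕ) : ℝ) :=
        mul_le_mul_of_nonneg_left (by exact_mod_cast h1) (by positivity)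
    _ ≤ ((c : ℝ) + 1) * ((∑ η ∈ Tm, wsum X (B.filter (η ⊆ ·)) : ℕ) : ℝ) := by
        push_cast
        rw [Finset.mul_sum, Finset.mul_sum]
        exact Finset.sum_le_sum h2
    _ ≤ ((c : ℝ) + 1) * ((2 ^ (c + 1) * wsum X B : ℕ) : ℝ) :=
        mul_le_mul_of_nonneg_left (by exact_mod_cast h3) (by positivity)
    _ = _ := by push_cast; ring

end EK

open EK in
/-- Small locally minimal cocycles vanish. -/
theorem ek : EKSpec := by
  intro c hc β hβ
  set B : ℝ := 2 ^ (c + 1) * (c : ℝ) * (2 * (((c + 1) * (c + 1) * 2 ^ (c + 1) : ℕ) : ℝ))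
    with hBdef
  have hB : 0 < B := by
    have : (0 : ℝ) < c := by exact_mod_cast hc
    positivity
  set ε : ℝ := β / (β + 2 * B) with hεdef
  have hε : 0 < ε := by positivity
  have hε1 : ε ≤ 1 := by rw [hεdef, div_le_one (by positivity)]; linarith
  have hεB : B * ε < β := by
    rw [hεdef, ← mul_div_assoc, div_lt_iff₀ (by positivity)]; nlinarith
  refine ⟨thr ε c, dd ε c / 2, pow_pos hε _, by unfold dd; positivity, ?_⟩
  intro V P _ _ n X hcn hexp hmix f hfc hmin hsmall
  classical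
  set th := thr ε
  have hM : X.mass c f = wsum X (lvl X c th f 0) := by
    simp only [Cham.mass, wsum, lvl, Finset.sum_filter, ite_not]
  intro s hs
  have hP : (0 : ℝ) < (Fintype.card P : ℝ) := by
    obtain ⟨q, -, -⟩ := (mem_faces X).1 hs
    exact_mod_cast Fintype.card_pos_iff.2 ⟨q⟩
  have hM0 : wsum X (lvl X c th f 0) = 0 := by
    by_contra hne
    have hM0 : (0 : ℝ) < (wsum X (lvl X c th f 0) : ℝ) := by
      exact_mod_cast Nat.pos_of_ne_zero hne
    have hempty : ¬ Good X c th f ∅ := by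
      intro hG
      have hmem : (∅ : Finset V) ∈ lvl X c th f c := by simpa using hG.2
      have h1 : (Fintype.card P : ℝ) ≤ (wsum X (lvl X c th f c) : ℝ) := by
        have hw : X.w (∅ : Finset V) = Fintype.card P := by simp [Cham.w]
        rw [← hw]
        exact_mod_cast Finset.single_le_sum (f := X.w) (fun _ _ => Nat.zero_le _) hmem
      have h2 := lvl_mass X (f := f) hε hcn c le_rfl
      rw [Nat.sub_self, Nat.choose_zero_right, Nat.cast_one, mul_one] at h2
      rw [hM] at hsmall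
      simp only [Cham.total, Nat.cast_mul] at hsmall
      have hd : 0 < dd ε c := pow_pos hε _
      have hC : (0 : ℝ) < (n.choose c : ℝ) := by exact_mod_cast Nat.choose_pos hcn.le
      have h3 : dd ε c * (Fintype.card P : ℝ) * (n.choose c : ℝ)
          ≤ dd ε c * (wsum X (lvl X c th f c) : ℝ) * (n.choose c : ℝ) :=
        mul_le_mul_of_nonneg_right (mul_le_mul_of_nonneg_left h1 hd.le) hC.le
      nlinarith [mul_pos (mul_pos hd hP) hC]
    have hlk : ∀ k < c, thr ε c ≤ thr ε k := fun k hk =>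
      pow_le_pow_of_le_one hε.le hε1 (Nat.pow_le_pow_right (by norm_num) hk.le)
    have hb := bad_total X (f := f) hε (pow_nonneg hε.le _ : 0 ≤ thr ε c) hlk hcn hmix
    have hm := main_step X (th := th) hβ hcn hexp hfc hmin hempty
    set W : ℝ := (wsum X (lvl X c th f 0) : ℝ)
    set Wb : ℝ :=
      (wsum X ((X.faces (c + 1)).filter fun ρ => ∃ k < c, Bad X c th f k ρ) : ℝ)
    have hch : (n.choose (c + 1) : ℝ) * ((c : ℝ) + 1)
        = (n.choose c : ℝ) * ((n - c : ℕ) : ℝ) := by
      exact_mod_cast Nat.choose_succ_right_eq n c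
    have hC1 : (0 : ℝ) < (n.choose (c + 1) : ℝ) := by exact_mod_cast Nat.choose_pos hcn
    have h4 : β * (((c : ℝ) + 1) * (n.choose (c + 1) : ℝ) * W)
        ≤ B * ε * (((c : ℝ) + 1) * (n.choose (c + 1) : ℝ) * W) := by
      calc β * (((c : ℝ) + 1) * (n.choose (c + 1) : ℝ) * W)
          = β * ((n - c : ℕ) : ℝ) * W * (n.choose c : ℝ) := by
            rw [mul_comm ((c : ℝ) + 1), hch]; ring
        _ ≤ ((c : ℝ) + 1) * 2 ^ (c + 1) * Wb * (n.choose c : ℝ) :=
            mul_le_mul_of_nonneg_right hm (Nat.cast_nonneg _)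
        _ = ((c : ℝ) + 1) * 2 ^ (c + 1) * (Wb * (n.choose c : ℝ)) := by ring
        _ ≤ ((c : ℝ) + 1) * 2 ^ (c + 1) * _ := mul_le_mul_of_nonneg_left hb (by positivity)
        _ = _ := by rw [hBdef]; ring
    have : 0 < ((c : ℝ) + 1) * (n.choose (c + 1) : ℝ) * W := by positivity
    nlinarith
  by_contra hf
  have hmem : s ∈ lvl X c th f 0 := Finset.mem_filter.2 ⟨hs, hf⟩
  have := Finset.sum_eq_zero_iff.1 hM0 s hmem
  exact absurd this (w_pos X hs).ne'

end Vale.Agent.P067.Full

end
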