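import Vale.Agent.P067.Full.Group.Gen

/-!
The elementary facts on the groups: `GroupSpec` and `SizeSpec`.
-/

open Matrix Finset Polynomial

noncomputable section

namespace Vale.Agent.P067.Full.Grp

variable {n M p m : ℕ}

lemma natCast_BM : ((p : ℕ) : BM n M p m) = 0 := by
  have h : ((p : ℕ) : Rm p m) = 0 := by
    rw [← map_natCast (Ideal.Quotient.mk (Ideal.span {(X : Polynomial (ZMod p)) ^ m})),
      ← map_natCast (Polynomial.C : ZMod p →+* _), ZMod.natCast_self, map_zero, map_zero]
  refine Matrix.ext fun i j => Matrix.ext fun a b => ?_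
  rw [← Matrix.diagonal_natCast, Matrix.zero_apply, Matrix.zero_apply]
  by_cases hij : i = j
  · subst hij
    rw [Matrix.diagonal_apply_eq, ← Matrix.diagonal_natCast]
    by_cases hab : a = b
    · subst hab; rw [Matrix.diagonal_apply_eq, h]
    · exact Matrix.diagonal_apply_ne _ hab
  · rw [Matrix.diagonal_apply_ne _ hij, Matrix.zero_apply]

/-- All entries are divisible by `t ^ s`. -/
def Dvd' (s : ℕ) (x : BM n M p m) : Prop :=
  ∀ i j a b, x i j a b ∈ Ideal.span {tt p m ^ s}

lemma Dvd'.mul {s r : ℕ} {x y : BM n M p m} (hx : Dvd' s x) (hy : Dvd' r y) :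
    Dvd' (s + r) (x * y) := by
  intro i j a b
  rw [Matrix.mul_apply, Matrix.sum_apply]
  refine Ideal.sum_mem _ fun k _ => ?_
  rw [Matrix.mul_apply]
  refine Ideal.sum_mem _ fun c _ => ?_
  rw [pow_add, ← Ideal.span_singleton_mul_span_singleton]
  exact Ideal.mul_mem_mul (hx i k a c) (hy k j c b)

/-- An element congruent to one modulo `nf` is unipotent. -/
lemma pow_eq_zero_of_nf {x : BM n M p m} (hx : ∀ i j, x i j ∈ nf n p m) : x ^ (n * m) = 0 := by
  have h1 : ∀ k : ℕ, ∀ i j (a b : Fin n), b.1 < a.1 + k →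
      (x ^ k) i j a b ∈ Ideal.span {tt p m} := by
    intro k
    induction k with
    | zero =>
      intro i j a b h
      have hab : a ≠ b := by rintro rfl; omega
      rw [pow_zero, one_BM_apply, one_apply_ne (fun h' => hab (congrArg Prod.snd h'))]
      exact Ideal.zero_mem _
    | succ k ih =>
      intro i j a b h
      rw [pow_succ, Matrix.mul_apply, Matrix.sum_apply]
      refine Ideal.sum_mem _ fun l _ => ?_
      rw [Matrix.mul_apply]
      refine Ideal.sum_mem _ fun c _ => ?_
      rcases lt_or_ge c.1 (a.1 + k) with hc | hc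
      · exact Ideal.mul_mem_right _ _ (ih i l a c hc)
      · exact Ideal.mul_mem_left _ _ (hx l j c b (Fin.le_def.2 (by omega)))
  have h2 : Dvd' 1 (x ^ n) := fun i j a b => by
    rw [pow_one]
    exact h1 n i j a b (by have := b.2; omega)
  have h3 : ∀ s : ℕ, Dvd' s ((x ^ n) ^ s) := fun s => by
    induction s with
    | zero =>
      intro i j a b
      rw [pow_zero (tt p m), Ideal.span_singleton_one]
      exact Submodule.mem_top
    | succ s ih => rw [pow_succ]; exact ih.mul h2
  refine Matrix.ext fun i j => Matrix.ext fun a b => ?_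
  have h := h3 m i j a b
  rw [← pow_mul] at h
  rw [show tt p m ^ m = 0 from ?_, Ideal.span_singleton_eq_bot.2 rfl, Ideal.mem_bot] at h
  · rw [h]; rfl
  · rw [tt, ← map_pow, Ideal.Quotient.eq_zero_iff_mem]
    exact Ideal.subset_span rfl

lemma pow_prime_pow_eq_one (hp : p.Prime) {g : Ga n M p m}
    (hg : ∀ i j, ((g : BM n M p m) - 1) i j ∈ nf n p m) : g ^ p ^ (n * m) = 1 := by
  refine Units.ext ?_
  rw [Units.val_pow_eq_pow_val, Units.val_one]
  obtain ⟨x, hx⟩ : ∃ x, (g : BM n M p m) = 1 + x := ⟨(g : BM n M p m) - 1, by abel⟩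
  rw [hx, add_sub_cancel_left] at hg
  have key : ∀ (y : BM n M p m), (1 + y) ^ p = 1 + y ^ p := fun y => by
    rw [(Commute.one_left y).add_pow]
    rw [Finset.sum_range_succ, Finset.sum_eq_single 0]
    · simp [add_comm]
    · intro k hk hk0
      rw [Finset.mem_range] at hk
      obtain ⟨r, hr⟩ := hp.dvd_choose_self hk0 hk
      rw [hr, Nat.cast_mul, natCast_BM, zero_mul, mul_zero]
    · intro h
      exact absurd (Finset.mem_range.2 hp.pos) h
  have hiter : ∀ k, (1 + x) ^ p ^ k = 1 + x ^ p ^ k := fun k => by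
    induction k with
    | zero => simp
    | succ k ih => rw [pow_succ, pow_mul, ih, key, ← pow_mul]
  rw [hx, hiter]
  obtain ⟨r, hr⟩ := Nat.exists_eq_add_of_le
    (Nat.lt_pow_self hp.one_lt : n * m < p ^ (n * m)).le
  rw [hr, pow_add, pow_eq_zero_of_nf hg, zero_mul, add_zero]

theorem card_GS (hp : p.Prime) (S : Finset (Fin M)) :
    ∃ k, Nat.card (GS n M p m S) = p ^ k := by
  have : Fact p.Prime := ⟨hp⟩
  have : NeZero p := ⟨hp.ne_zero⟩
  refine (IsPGroup.iff_card (G := GS n M p m S)).1 fun g => ⟨n * m, Subtype.ext ?_⟩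
  rw [SubgroupClass.coe_pow, OneMemClass.coe_one]
  exact pow_prime_pow_eq_one hp ((mem_GS S g.1).1 g.2).1

theorem card_Kv_le [NeZero p] (v : Fin n) :
    Nat.card (Kv n M p m v) ≤ Nat.card (Fin M → Fin M → Fin n → Fin n → ZMod p) := by
  have h : ∀ g : Kv n M p m v, ∀ i j, ∃ c : Fin n → Fin n → ZMod p, ∀ a b,
      ((g.1 : BM n M p m) - 1) i j a b = if a = b then 0 else sc p m (c a b) * te p m a b :=
    fun g i j => by
      obtain ⟨c, -, hc⟩ := (mem_Kv v g.1).1 g.2 i j
      exact ⟨c, hc⟩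
  choose c hc using h
  refine Nat.card_le_card_of_injective c fun g g' hgg' => ?_
  refine Subtype.ext (Units.ext ?_)
  rw [← sub_left_inj (a := (1 : BM n M p m))]
  exact Matrix.ext fun i j => Matrix.ext fun a b => by rw [hc, hc, hgg']

theorem le_card_GS (hn : 3 ≤ n) (hM : 1 ≤ M) [NeZero p] (hp : 2 ≤ p) :
    m ≤ Nat.card (GS n M p m univ) := by
  let i₀ : Fin M := ⟨0, hM⟩
  let a₀ : Fin n := ⟨0, by omega⟩
  let a₁ : Fin n := ⟨1, by omega⟩
  have hne : ((i₀, a₀) : Fin M × Fin n) ≠ (i₀, a₁) := fun h => by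
    simpa [a₀, a₁] using congrArg Prod.snd h
  let φ : Rm p m → GS n M p m univ := fun x => ⟨psi n M p m (tv (i₀, a₀) (i₀, a₁) x),
    (mem_GS _ _).2 (psi_mem_GSet.2 (sh_tv hne (mem_univ _) (mem_univ _) fun h =>
      absurd h (by simp [a₀, a₁, Fin.le_def])))⟩
  have hφ : Function.Injective φ := fun x y h => by
    have h1 := congrArg (fun g : GS n M p m univ => (g.1 : BM n M p m) i₀ i₀ a₀ a₁) h
    simp only [φ, psi_apply, tv_coe hne] at h1
    simpa [Matrix.transvection, one_apply_ne hne] using h1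
  refine le_trans ?_ (Nat.card_le_card_of_injective φ hφ)
  have hinj : Function.Injective fun c : Fin m → ZMod p =>
      (Ideal.Quotient.mk (Ideal.span {(X : Polynomial (ZMod p)) ^ m})
        (∑ i : Fin m, Polynomial.C (c i) * X ^ (i : ℕ))) := fun c d h => by
    rw [Ideal.Quotient.eq, Ideal.mem_span_singleton, X_pow_dvd_iff] at h
    funext i
    have := h i i.2
    rw [coeff_sub, finsetSum_coeff, finsetSum_coeff, sub_eq_zero] at this
    simpa [coeff_C_mul_X_pow, Fin.val_inj] using this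
  refine le_trans ?_ (Nat.card_le_card_of_injective _ hinj)
  rw [Nat.card_fun, Nat.card_zmod, Nat.card_eq_fintype_card, Fintype.card_fin]
  exact (Nat.lt_pow_self hp).le

end Grp

/-- The elementary facts on the groups. -/
theorem groupSpec : GroupSpec := by
  intro n M p m hn hp _
  have : NeZero p := ⟨hp.ne_zero⟩
  exact ⟨Grp.finite_Ga, Grp.mem_GS, Grp.mem_Kv, Grp.Kv_le_GS, Grp.closure_roots hn,
    Grp.card_GS hp⟩

/-- Vertex subgroups stay bounded and the group grows. -/
theorem sizeSpec : SizeSpec := by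
  intro n M p hn hM hp
  have : NeZero p := ⟨hp.ne_zero⟩
  exact ⟨⟨_, fun m v _ => Grp.card_Kv_le v⟩,
    fun N => ⟨N + 2, by omega, le_trans (by omega) (Grp.le_card_GS hn hM hp.two_le)⟩⟩

end Vale.Agent.P067.Full
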