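import Vale.Agent.P067.Full.Group.Basic

/-!
# P067 full answer: the filtration by weights

The entry `t ^ k` in position `(a, b)` has weight `k n + b - a`. Matrices of weight at least `x`
times matrices of weight at least `y` have weight at least `x + y`, whence the properties in
`LayerSpec`.
-/

open Matrix Finset

noncomputable section

namespace Vale.Agent.P067.Full.Layer

variable {n M p m : ℕ}

/-! ## Coefficients -/

lemma cf_mk {k : ℕ} (hk : k < m) (q : Polynomial (ZMod p)) :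
    cf p m k (Ideal.Quotient.mk _ q) = q.coeff k := by
  unfold cf
  rw [if_pos hk]
  set s := Function.surjInv Ideal.Quotient.mk_surjective (Ideal.Quotient.mk _ q : Rm p m) with hs
  have h : (Ideal.Quotient.mk _ s : Rm p m) = Ideal.Quotient.mk _ q :=
    Function.surjInv_eq Ideal.Quotient.mk_surjective _
  rw [Ideal.Quotient.eq, Ideal.mem_span_singleton, Polynomial.X_pow_dvd_iff] at h
  have := h k hk
  rwa [Polynomial.coeff_sub, sub_eq_zero] at this

lemma cf_of_le {k : ℕ} (hk : m ≤ k) (r : Rm p m) : cf p m k r = 0 := if_neg (not_lt.2 hk)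

lemma cf_zero (k : ℕ) : cf p m k (0 : Rm p m) = 0 := by
  rcases lt_or_ge k m with hk | hk
  · rw [← map_zero (Ideal.Quotient.mk _), cf_mk hk, Polynomial.coeff_zero]
  · exact cf_of_le hk _

lemma cf_add (k : ℕ) (r s : Rm p m) : cf p m k (r + s) = cf p m k r + cf p m k s := by
  rcases lt_or_ge k m with hk | hk
  · obtain ⟨q, rfl⟩ := Ideal.Quotient.mk_surjective r
    obtain ⟨q', rfl⟩ := Ideal.Quotient.mk_surjective s
    rw [← map_add, cf_mk hk, cf_mk hk, cf_mk hk, Polynomial.coeff_add]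
  · simp [cf_of_le hk]

/-- The coefficient of `t ^ k` in `c t ^ k`. -/
lemma cf_sc_mul_pow {k : ℕ} (hk : k < m) (c : ZMod p) :
    cf p m k (sc p m c * tt p m ^ k) = c := by
  rw [sc, tt, ← map_pow, ← map_mul, cf_mk hk, Polynomial.coeff_C_mul_X_pow, if_pos rfl]

lemma tt_pow_eq_zero {k : ℕ} (hk : m ≤ k) : tt p m ^ k = 0 := by
  rw [tt, ← map_pow, Ideal.Quotient.eq_zero_iff_mem, Ideal.mem_span_singleton]
  exact pow_dvd_pow _ hk

/-- Divisibility by `t ^ k` is the vanishing of the coefficients below `k`. -/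
lemma mem_span_pow_iff (k : ℕ) (r : Rm p m) :
    r ∈ Ideal.span {tt p m ^ k} ↔ ∀ l < k, cf p m l r = 0 := by
  obtain ⟨q, rfl⟩ := Ideal.Quotient.mk_surjective r
  rw [Ideal.mem_span_singleton, tt, ← map_pow]
  constructor
  · rintro ⟨s, hs⟩ l hl
    obtain ⟨s, rfl⟩ := Ideal.Quotient.mk_surjective s
    rcases lt_or_ge l m with hlm | hlm
    · rw [hs, ← map_mul, cf_mk hlm, Polynomial.coeff_X_pow_mul', if_neg (not_le.2 hl)]
    · exact cf_of_le hlm _
  · intro h
    rcases le_or_gt k m with hkm | hkm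
    · exact map_dvd _ (Polynomial.X_pow_dvd_iff.2 fun l hl => by
        have h' := h l hl
        rwa [cf_mk (lt_of_lt_of_le hl hkm)] at h')
    · refine ⟨0, ?_⟩
      rw [mul_zero, Ideal.Quotient.eq_zero_iff_mem, Ideal.mem_span_singleton,
        Polynomial.X_pow_dvd_iff]
      intro l hl
      have h' := h l (hl.trans hkm)
      rwa [cf_mk hl] at h'

/-! ## Weights -/

/-- Matrices of weight at least `x`. -/
def Wt (n M p m x : ℕ) : Set (BM n M p m) :=
  {X | ∀ i j, ∀ a b : Fin n, ∀ k : ℕ, k * n + b.1 < x + a.1 →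
    X i j a b ∈ Ideal.span {tt p m ^ (k + 1)}}

lemma mem_Gx {x : ℕ} {g : Ga n M p m} :
    g ∈ Gx n M p m x ↔ g ∈ GSet n M p m univ ∧ (g : BM n M p m) - 1 ∈ Wt n M p m x :=
  Iff.rfl

/-- The least power of `t` allowed in position `(a, b)` at weight `x`. -/
def ord {n : ℕ} (x : ℕ) (a b : Fin n) : ℕ := (x + a.1 + n - 1 - b.1) / n

lemma lt_ord {x : ℕ} {a b : Fin n} {k : ℕ} : k < ord x a b ↔ k * n + b.1 < x + a.1 := by
  have hn : 0 < n := a.pos
  have hb := b.2
  unfold ord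
  rw [Nat.lt_iff_add_one_le, Nat.le_div_iff_mul_le hn, add_mul, one_mul]
  omega

lemma mem_Wt {x : ℕ} {X : BM n M p m} :
    X ∈ Wt n M p m x ↔ ∀ i j a b, X i j a b ∈ Ideal.span {tt p m ^ ord x a b} := by
  refine ⟨fun h i j a b => ?_, fun h i j a b k hk => ?_⟩
  · rcases Nat.eq_zero_or_pos (ord x a b) with h0 | h0
    · rw [h0, pow_zero, Ideal.span_singleton_one]
      exact Submodule.mem_top
    · have := h i j a b (ord x a b - 1) (lt_ord.1 (by omega))
      rwa [Nat.sub_add_cancel h0] at this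
  · exact Ideal.span_singleton_le_span_singleton.2 (pow_dvd_pow _ (lt_ord.2 hk)) (h i j a b)

lemma Wt_mono {x y : ℕ} (h : y ≤ x) : Wt n M p m x ⊆ Wt n M p m y :=
  fun _ hX i j a b k hk => hX i j a b k (by omega)

lemma Wt_add {x : ℕ} {X Y : BM n M p m} (hX : X ∈ Wt n M p m x) (hY : Y ∈ Wt n M p m x) :
    X + Y ∈ Wt n M p m x :=
  fun i j a b k hk => Ideal.add_mem _ (hX i j a b k hk) (hY i j a b k hk)

lemma Wt_sub {x : ℕ} {X Y : BM n M p m} (hX : X ∈ Wt n M p m x) (hY : Y ∈ Wt n M p m x) :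
    X - Y ∈ Wt n M p m x :=
  fun i j a b k hk => Ideal.sub_mem _ (hX i j a b k hk) (hY i j a b k hk)

/-- Weights add under multiplication. -/
lemma Wt_mul {x y : ℕ} {X Y : BM n M p m} (hX : X ∈ Wt n M p m x) (hY : Y ∈ Wt n M p m y) :
    X * Y ∈ Wt n M p m (x + y) := by
  rw [mem_Wt] at *
  intro i j a b
  rw [Matrix.mul_apply, Matrix.sum_apply]
  refine Ideal.sum_mem _ fun l _ => ?_
  rw [Matrix.mul_apply]
  refine Ideal.sum_mem _ fun e _ => ?_
  have hle : ord (x + y) a b ≤ ord x a e + ord y e b := by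
    by_contra h
    rw [not_le, lt_ord, add_mul] at h
    have h1 := mt lt_ord.2 (lt_irrefl (ord x a e))
    have h2 := mt lt_ord.2 (lt_irrefl (ord y e b))
    omega
  refine Ideal.span_singleton_le_span_singleton.2 (pow_dvd_pow _ hle) ?_
  rw [pow_add, ← Ideal.span_singleton_mul_span_singleton]
  exact Ideal.mul_mem_mul (hX i l a e) (hY l j e b)

lemma one_mem_Wt : (1 : BM n M p m) ∈ Wt n M p m 0 := by
  intro i j a b k hk
  have hab : b < a := Fin.lt_def.2 (by omega)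
  rcases eq_or_ne i j with rfl | hij
  · rw [Matrix.one_apply_eq, Matrix.one_apply_ne (ne_of_gt hab)]
    exact Ideal.zero_mem _
  · rw [Matrix.one_apply_ne hij]
    exact Ideal.zero_mem _

lemma Wt_one_of_GSet {S : Finset (Fin M)} {g : Ga n M p m} (hg : g ∈ GSet n M p m S) :
    (g : BM n M p m) - 1 ∈ Wt n M p m 1 := by
  intro i j a b k hk
  have hb := b.2
  have ha := a.2
  have hk0 : k = 0 := by
    rcases Nat.eq_zero_or_pos k with h | h
    · exact h
    · have : n ≤ k * n := Nat.le_mul_of_pos_left n h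
      omega
  subst hk0
  rw [zero_add, pow_one]
  exact hg.1 i j a b (Fin.le_def.2 (by omega))

lemma coe_mem_Wt_zero {S : Finset (Fin M)} {g : Ga n M p m} (hg : g ∈ GSet n M p m S) :
    (g : BM n M p m) ∈ Wt n M p m 0 := by
  have := Wt_add (Wt_mono (Nat.zero_le 1) (Wt_one_of_GSet hg)) one_mem_Wt
  rwa [sub_add_cancel] at this

/-! ## The filtration -/

lemma GSet_subset_Gx_one : GSet n M p m univ ⊆ Gx n M p m 1 :=
  fun _ hg => mem_Gx.2 ⟨hg, Wt_one_of_GSet hg⟩

lemma Gx_mono {x y : ℕ} (h : y ≤ x) : Gx n M p m x ⊆ Gx n M p m y :=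
  fun _ hg => mem_Gx.2 ⟨hg.1, Wt_mono h hg.2⟩

lemma Gx_mul {x : ℕ} {g h : Ga n M p m} (hg : g ∈ Gx n M p m x) (hh : h ∈ Gx n M p m x) :
    g * h ∈ Gx n M p m x := by
  refine mem_Gx.2 ⟨Grp.GSet_mul hg.1 hh.1, ?_⟩
  rw [Grp.coe_mul_sub_one]
  exact Wt_add (Wt_add hg.2 hh.2) (Wt_mono (Nat.le_add_right x x) (Wt_mul hg.2 hh.2))

lemma one_mem_Gx (x : ℕ) : (1 : Ga n M p m) ∈ Gx n M p m x := by
  refine mem_Gx.2 ⟨Grp.GSet_one _, ?_⟩
  rw [Units.val_one, sub_self]
  exact fun i j a b k _ => Ideal.zero_mem _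

lemma inv_mem_GSet [NeZero p] {S : Finset (Fin M)} {g : Ga n M p m} (hg : g ∈ GSet n M p m S) :
    g⁻¹ ∈ GSet n M p m S :=
  (Grp.mem_GS S _).1 (inv_mem ((Grp.mem_GS S _).2 hg))

lemma Gx_inv [NeZero p] {x : ℕ} {g : Ga n M p m} (hg : g ∈ Gx n M p m x) :
    g⁻¹ ∈ Gx n M p m x := by
  refine mem_Gx.2 ⟨inv_mem_GSet hg.1, ?_⟩
  have h : ((g⁻¹ : Ga n M p m) : BM n M p m) - 1 =
      0 - ((g : BM n M p m) - 1) * ((g⁻¹ : Ga n M p m) : BM n M p m) := by
    rw [sub_mul, Units.mul_inv, one_mul]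
    abel
  rw [h]
  exact Wt_sub (fun i j a b k _ => Ideal.zero_mem _)
    (Wt_mul hg.2 (coe_mem_Wt_zero (inv_mem_GSet hg.1)))

/-- The layers are trivial beyond `m n`. -/
lemma eq_one_of_mem_Gx {x : ℕ} (hx : m * n ≤ x) {g : Ga n M p m} (hg : g ∈ Gx n M p m x) :
    g = 1 := by
  rcases Nat.eq_zero_or_pos m with rfl | hm
  · refine Units.ext ?_
    ext i j a b
    have h0 : (1 : Rm p 0) = 0 := by
      rw [← pow_zero (tt p 0)]; exact tt_pow_eq_zero le_rfl
    exact eq_of_zero_eq_one h0.symm _ _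
  refine Units.ext ?_
  rw [Units.val_one, ← sub_eq_zero]
  ext i j a b
  have h := hg.2 i j a b (m - 1) (by
    have hb := b.2
    have : (m - 1) * n + n = m * n := by
      rw [← Nat.succ_mul, Nat.succ_eq_add_one, Nat.sub_add_cancel hm]
    omega)
  rw [Nat.sub_add_cancel hm, tt_pow_eq_zero le_rfl, Ideal.span_singleton_eq_bot.2 rfl,
    Submodule.mem_bot] at h
  simpa using h

lemma commutator_mem_Gx [NeZero p] {x : ℕ} {g y : Ga n M p m} (hg : g ∈ GSet n M p m univ)
    (hy : y ∈ Gx n M p m x) : g * y * g⁻¹ * y⁻¹ ∈ Gx n M p m (x + 1) := by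
  refine mem_Gx.2 ⟨Grp.GSet_mul (Grp.GSet_mul (Grp.GSet_mul hg hy.1) (inv_mem_GSet hg))
    (inv_mem_GSet hy.1), ?_⟩
  set A : BM n M p m := (g : BM n M p m) - 1
  set B : BM n M p m := (y : BM n M p m) - 1
  have h : ((g * y * g⁻¹ * y⁻¹ : Ga n M p m) : BM n M p m) - 1 =
      (A * B - B * A) * (((g⁻¹ : Ga n M p m) : BM n M p m) * ((y⁻¹ : Ga n M p m) : BM n M p m)) := by
    have hAB : A * B - B * A =
        (g : BM n M p m) * (y : BM n M p m) - (y : BM n M p m) * (g : BM n M p m) := by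
      simp only [A, B, sub_mul, mul_sub, one_mul, mul_one]
      abel
    rw [hAB, sub_mul]
    simp only [Units.val_mul, mul_assoc]
    rw [Units.mul_inv_cancel_left, Units.mul_inv]
  rw [h]
  have hA : A ∈ Wt n M p m 1 := Wt_one_of_GSet hg
  have hAB : A * B - B * A ∈ Wt n M p m (x + 1) :=
    Wt_sub (by rw [add_comm x 1]; exact Wt_mul hA hy.2) (Wt_mul hy.2 hA)
  have h0 := Wt_mul (coe_mem_Wt_zero (inv_mem_GSet hg)) (coe_mem_Wt_zero (inv_mem_GSet hy.1))
  simpa using Wt_mul hAB h0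

lemma conj_mem_Gx [NeZero p] {x : ℕ} {g y : Ga n M p m} (hg : g ∈ GSet n M p m univ)
    (hy : y ∈ Gx n M p m x) : g * y * g⁻¹ ∈ Gx n M p m x := by
  have := Gx_mul (Gx_mono (Nat.le_add_right x 1) (commutator_mem_Gx hg hy)) hy
  rwa [inv_mul_cancel_right] at this

/-! ## The leading terms -/

/-- The type of the column of weight `x` in the row of type `a`. -/
def col (x : ℕ) (a : Fin n) : Fin n := ⟨(a.1 + x) % n, Nat.mod_lt _ a.pos⟩

lemma lam_apply (x : ℕ) (g : Ga n M p m) (a : Fin n) (i j : Fin M) :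
    lam n M p m x g a i j =
      cf p m ((a.1 + x) / n) (((g : BM n M p m) - 1) i j a (col x a)) :=
  rfl

lemma cf_entry_eq_zero {x : ℕ} {X : BM n M p m} (hX : X ∈ Wt n M p m (x + 1)) (a : Fin n)
    (i j : Fin M) : cf p m ((a.1 + x) / n) (X i j a (col x a)) = 0 := by
  have h := hX i j a (col x a) ((a.1 + x) / n) (by
    have := Nat.div_add_mod' (a.1 + x) n
    simp only [col]
    omega)
  exact (mem_span_pow_iff _ _).1 h _ (Nat.lt_succ_self _)

lemma lam_mul {x : ℕ} (hx : 1 ≤ x) {g h : Ga n M p m} (hg : g ∈ Gx n M p m x)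
    (hh : h ∈ Gx n M p m x) :
    lam n M p m x (g * h) = lam n M p m x g + lam n M p m x h := by
  funext a i j
  simp only [Pi.add_apply, lam_apply, Grp.coe_mul_sub_one, Matrix.add_apply, cf_add]
  rw [cf_entry_eq_zero (Wt_mono (by omega) (Wt_mul hg.2 hh.2)) a i j, add_zero]

lemma lam_eq_zero_iff {x : ℕ} {g : Ga n M p m} (hg : g ∈ Gx n M p m x) :
    lam n M p m x g = 0 ↔ g ∈ Gx n M p m (x + 1) := by
  refine ⟨fun h => mem_Gx.2 ⟨hg.1, fun i j a b k hk => ?_⟩, fun h => ?_⟩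
  · rcases Nat.lt_or_ge (k * n + b.1) (x + a.1) with hlt | hge
    · exact hg.2 i j a b k hlt
    have heq : a.1 + x = k * n + b.1 := by omega
    have hk' : (a.1 + x) / n = k := by
      rw [heq, Nat.add_comm, Nat.add_mul_div_right _ _ a.pos, Nat.div_eq_of_lt b.2, zero_add]
    have hb' : col x a = b := Fin.ext <| by
      simp only [col]
      rw [heq, Nat.add_comm, Nat.add_mul_mod_self_right, Nat.mod_eq_of_lt b.2]
    rw [mem_span_pow_iff]
    intro l hl
    rcases Nat.lt_or_ge l k with hlk | hlk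
    · refine (mem_span_pow_iff _ _).1 (mem_Wt.1 hg.2 i j a b) l (lt_ord.2 ?_)
      have : (l + 1) * n ≤ k * n := Nat.mul_le_mul_right n hlk
      rw [add_mul, one_mul] at this
      have := b.2
      omega
    · obtain rfl : l = k := by omega
      have := congrFun (congrFun (congrFun h a) i) j
      rwa [lam_apply, hk', hb'] at this
  · funext a i j
    exact cf_entry_eq_zero h.2 a i j

theorem layer : LayerSpec := by
  intro n M p m hn hp hm
  haveI : NeZero p := ⟨hp.ne_zero⟩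
  refine ⟨fun x g hg h hh => Gx_mul hg hh, GSet_subset_Gx_one,
    ⟨m * n, fun x hx g hg => eq_one_of_mem_Gx hx hg⟩, fun x _ g hg y hy => ?_,
    fun x hx g hg => ⟨fun h hh => lam_mul hx hg hh, lam_eq_zero_iff hg⟩⟩
  have hg' := (Grp.mem_GS univ g).1 hg
  exact ⟨conj_mem_Gx hg' hy, commutator_mem_Gx hg' hy⟩

end Vale.Agent.P067.Full.Layer
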