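import Vale.Agent.P067.Full.Defs

/-!
# P067 full answer: the module interfaces

Each `XSpec` is proved in its own module; see `PLAN.md`.
-/

open Finset

noncomputable section

namespace Vale.Agent.P067.Full

/-- Small locally minimal cocycles vanish. -/
def EKSpec : Prop :=
  ∀ c : ℕ, 1 ≤ c → ∀ β : ℝ, 0 < β → ∃ l μ : ℝ, 0 < l ∧ 0 < μ ∧
    ∀ (V P : Type) [DecidableEq V] [Fintype P] (n : ℕ) (X : Cham V P n), c < n →
      (∀ η ∈ X.complex, 1 ≤ η.card → η.card ≤ c → (X.link η).ExpandAt β (c - η.card)) →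
      (∀ η ∈ X.complex, η.card < c → (X.link η).Mix l) →
      ∀ f : Finset V → ZMod 2, (∀ t ∈ X.faces (c + 1), Cham.cobd f t = 0) → X.LocMin c f →
        (X.mass c f : ℝ) ≤ μ * X.total c → ∀ s ∈ X.faces c, f s = 0

/-- All links, the empty one included, mix as well as wanted once `p` is large. -/
def MixSpec : Prop :=
  ∀ n M : ℕ, 3 ≤ n → 1 ≤ M → ∀ l : ℝ, 0 < l → ∃ p₀ : ℕ, ∀ p, p₀ ≤ p → p.Prime → ∀ m, 2 ≤ m →
    ∀ [Fintype (GS n M p m univ)], ∀ η ∈ (cx n M p m).complex, η.card + 2 ≤ n →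
      ((cx n M p m).link η).Mix l

/-- Proper links expand with a constant depending only on `n` and `M`. -/
def ExpandSpec : Prop :=
  ∀ n M : ℕ, 3 ≤ n → 1 ≤ M → ∃ β : ℝ, 0 < β ∧ ∃ p₀ : ℕ, ∀ p, p₀ ≤ p → p.Prime → ∀ m, 2 ≤ m →
    ∀ [Fintype (GS n M p m univ)], ∀ η ∈ (cx n M p m).complex, 1 ≤ η.card →
      ∀ e, η.card + e < n → ((cx n M p m).link η).ExpandAt β e

/-- Elementary facts on the groups. -/
def GroupSpec : Prop :=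
  ∀ n M p m : ℕ, 3 ≤ n → p.Prime → 2 ≤ m →
    Finite (Ga n M p m) ∧
    (∀ S g, g ∈ GS n M p m S ↔ g ∈ GSet n M p m S) ∧
    (∀ v g, g ∈ Kv n M p m v ↔ g ∈ KSet n M p m {v}) ∧
    (∀ v, Kv n M p m v ≤ GS n M p m univ) ∧
    (∀ S, Subgroup.closure (roots n M p m S) = GS n M p m S) ∧
    ∀ S, ∃ k, Nat.card (GS n M p m S) = p ^ k

/-- Vertex subgroups stay bounded and the group grows. -/
def SizeSpec : Prop :=
  ∀ n M p : ℕ, 3 ≤ n → 1 ≤ M → p.Prime →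
    (∃ D, ∀ m v, 2 ≤ m → Nat.card (Kv n M p m v) ≤ D) ∧
    ∀ N, ∃ m, 2 ≤ m ∧ N ≤ Nat.card (GS n M p m univ)

/-- Cycles of the link of a vertex bound. -/
def LinkFillSpec : Prop :=
  ∀ n M : ℕ, 3 ≤ n → ∃ p₀, ∀ p, p₀ ≤ p → p.Prime → ∀ m, 2 ≤ m → ∀ S : Finset (Fin M),
    ∀ g ∈ GS n M p m S, ∀ a, ∀ c, c + 2 ≤ n →
      Fills (LinkS n M p m S (vert g a)) (LinkS n M p m S (vert g a)) c

/-- Cycles are sums of translates of cycles avoiding one colour. -/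
def CoverSpec : Prop :=
  ∀ n c : ℕ, 3 ≤ n → 2 ≤ c → c < n → ∃ r, ∀ M p m : ℕ, p.Prime → 2 ≤ m →
    ∀ S R : Finset (Fin M), R ⊆ S → r ≤ R.card →
      (∀ c', c' < c → ∀ S', S' ⊆ S → S.card ≤ S'.card + (c + 1) →
        Fills (XS n M p m S') (XS n M p m S') c') →
      ∀ z, Sup (XS n M p m S) c z → bd z = 0 →
        z ∈ Submodule.span (ZMod 2) {y | ∃ g ∈ GS n M p m S, ∃ j ∈ R, ∃ w,
          Sup (XS n M p m (S.erase j)) c w ∧ bd w = 0 ∧ y = xmul g w}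

/-- The group of one colour fixes the classes avoiding this colour. -/
def MoveSpec : Prop :=
  ∀ n M : ℕ, 3 ≤ n → ∃ p₀, ∀ p, p₀ ≤ p → p.Prime → ∀ m, 2 ≤ m → ∀ S : Finset (Fin M),
    ∀ j ∈ S, ∀ c, c < n → ∀ w, Sup (XS n M p m (S.erase j)) c w → bd w = 0 →
      ∀ y ∈ GS n M p m {j}, Bnd (XS n M p m S) c (xmul y w + w)

/-- The filtration by weights. -/
def LayerSpec : Prop :=
  ∀ n M p m : ℕ, 3 ≤ n → p.Prime → 2 ≤ m →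
    (∀ x, ∀ g ∈ Gx n M p m x, ∀ h ∈ Gx n M p m x, g * h ∈ Gx n M p m x) ∧
    GSet n M p m univ ⊆ Gx n M p m 1 ∧
    (∃ X₀, ∀ x, X₀ ≤ x → ∀ g ∈ Gx n M p m x, g = 1) ∧
    (∀ x, 1 ≤ x → ∀ g ∈ GS n M p m univ, ∀ y ∈ Gx n M p m x,
      g * y * g⁻¹ ∈ Gx n M p m x ∧ g * y * g⁻¹ * y⁻¹ ∈ Gx n M p m (x + 1)) ∧
    ∀ x, 1 ≤ x → ∀ g ∈ Gx n M p m x,
      (∀ h ∈ Gx n M p m x, lam n M p m x (g * h) = lam n M p m x g + lam n M p m x h) ∧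
      (lam n M p m x g = 0 ↔ g ∈ Gx n M p m (x + 1))

/-- Changes of colours bring one-colour elements outside any hyperplane of a layer. -/
def ThetaSpec : Prop :=
  ∀ n M : ℕ, 3 ≤ n → ∃ p₀, ∀ p, p₀ ≤ p → p.Prime → ∀ m, 2 ≤ m → ∀ S : Finset (Fin M),
    (∀ θ ∈ ThetaSet n M p m S, θ⁻¹ ∈ ThetaSet n M p m S ∧
      (∀ g ∈ GS n M p m S, θ * g * θ⁻¹ ∈ GS n M p m S) ∧
      ∀ v, ∀ g ∈ Kv n M p m v, θ * g * θ⁻¹ ∈ Kv n M p m v) ∧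
    ∀ x, 1 ≤ x → ∀ φ : (Fin n → Fin M → Fin M → ZMod p) →+ ZMod p,
      (∃ y ∈ GS n M p m S, y ∈ Gx n M p m x ∧ φ (lam n M p m x y) ≠ 0) →
      ∃ θ ∈ ThetaSet n M p m S, ∀ j ∈ S, ∃ y ∈ GS n M p m {j},
        θ * y * θ⁻¹ ∈ Gx n M p m x ∧ φ (lam n M p m x (θ * y * θ⁻¹)) ≠ 0

/-- Acyclicity below the top dimension for many colours. -/
def VanishSpec : Prop :=
  ∀ n c : ℕ, 3 ≤ n → c < n → ∃ N, ∀ M, ∃ p₀, ∀ p, p₀ ≤ p → p.Prime → ∀ m, 2 ≤ m →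
    ∀ S : Finset (Fin M), N ≤ S.card → Fills (XS n M p m S) (XS n M p m S) c

/-- The full answer to Q1 of P067. -/
def FullSpec : Prop :=
  ∀ d : ℕ, 1 ≤ d → ∃ (D : ℕ) (ε : ℝ), 0 < ε ∧ ∀ N : ℕ,
    ∃ (V : Type) (_ : Fintype V) (_ : DecidableEq V) (X : PureComplex V d),
      N ≤ Fintype.card V ∧ X.DegreeLE D ∧ X.IsCoboundaryExpander ε ∧
        ∀ f : X.Cochain 0, X.delta 0 f = 0 → X.IsBoundary 0 f

end Vale.Agent.P067.Full
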