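import Vale.Agent.P067.Full.Chains
import Vale.Agent.P067.Full.Spec

/-!
# P067 full answer: elements of one colour fix the classes avoiding this colour

A simple root element `u` of type `a` and colour `j` commutes with the colours `S.erase j`, so it
fixes every vertex of `XS (S.erase j)` of another type. A cycle of this subcomplex and its translate
by `u` differ by suspensions of cycles in links of vertices of type `a`, which bound there.
-/

open Finset

noncomputable section

namespace Vale.Agent.P067.Full.Move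

open scoped Classical

variable {n M p m : ℕ}

/-- The coefficient of a vertex. -/
def lk {α : Type} [DecidableEq α] (u : α) : Ch α →ₗ[ZMod 2] Ch α :=
  Finsupp.linearCombination (ZMod 2) fun s =>
    if u ∈ s then Finsupp.single (s.erase u) 1 else 0

theorem lk_single {α : Type} [DecidableEq α] (u : α) (s : Finset α) (a : ZMod 2) :
    lk u (Finsupp.single s a) = if u ∈ s then Finsupp.single (s.erase u) a else 0 := by
  simp only [lk, Finsupp.linearCombination_single]
  split_ifs <;> simp

theorem bd_lk {α : Type} [DecidableEq α] (u : α) (z : Ch α) : bd (lk u z) = lk u (bd z) := by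
  induction z using Finsupp.induction_linear with
  | zero => simp
  | add f g hf hg => simp only [map_add, hf, hg]
  | single s a =>
    rw [lk_single, bd_single, map_sum]
    simp only [lk_single]
    by_cases hu : u ∈ s
    · rw [if_pos hu, bd_single, ← add_sum_erase s _ hu, if_neg (notMem_erase u s), zero_add]
      refine sum_congr rfl fun x hx => ?_
      rw [if_pos (mem_erase.2 ⟨(ne_of_mem_erase hx).symm, hu⟩), erase_right_comm]
    · rw [if_neg hu, map_zero, sum_eq_zero fun x _ => if_neg fun h => hu (mem_of_mem_erase h)]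

theorem GS_mono {S T : Finset (Fin M)} (h : S ⊆ T) : GS n M p m S ≤ GS n M p m T := by
  refine Subgroup.closure_mono fun g hg => ⟨hg.1, fun i j hij => ?_, hg.2.2⟩
  exact hg.2.1 i j (hij.imp (fun hi hs => hi (h hs)) (fun hj hs => hj (h hs)))

theorem XS_mono {S T : Finset (Fin M)} (h : S ⊆ T) : XS n M p m S ⊆ XS n M p m T :=
  fun _ ⟨g, hg, hs⟩ => ⟨g, GS_mono h hg, hs⟩

theorem vmul_one (x : Vx n M p m) : vmul (1 : Ga n M p m) x = x := by
  simp [vmul]

theorem vmul_vmul (g h : Ga n M p m) (x : Vx n M p m) : vmul g (vmul h x) = vmul (g * h) x := by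
  exact Sigma.ext rfl (heq_of_eq (mul_smul g h x.2).symm)

theorem vmul_vert (g h : Ga n M p m) (v : Fin n) : vmul g (vert h v) = vert (g * h) v := rfl

theorem xmul_xmul (g h : Ga n M p m) (z : Ch (Vx n M p m)) :
    xmul g (xmul h z) = xmul (g * h) z := by
  rw [xmul, xmul, xmul, chMap_chMap]
  exact congrArg (fun F => chMap F z) (funext fun x => vmul_vmul g h x)

theorem xmul_one (z : Ch (Vx n M p m)) : xmul (1 : Ga n M p m) z = z :=
  (chMap_congr fun _ _ x _ => vmul_one x).trans (chMap_id z)

theorem image_vmul_mem {S : Finset (Fin M)} {y : Ga n M p m} (hy : y ∈ GS n M p m S)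
    {s : Finset (Vx n M p m)} (hs : s ∈ XS n M p m S) : s.image (vmul y) ∈ XS n M p m S := by
  obtain ⟨g, hg, hsg⟩ := hs
  refine ⟨y * g, mul_mem hy hg, fun x hx => ?_⟩
  obtain ⟨z, hz, rfl⟩ := mem_image.1 hx
  obtain ⟨v, -, rfl⟩ := mem_map.1 (hsg hz)
  exact mem_map.2 ⟨v, mem_univ v, rfl⟩

theorem bnd_xmul {S : Finset (Fin M)} {y : Ga n M p m} (hy : y ∈ GS n M p m S) {c : ℕ}
    {z : Ch (Vx n M p m)} (hz : Bnd (XS n M p m S) c z) :
    Bnd (XS n M p m S) c (xmul y z) := by
  obtain ⟨w, hw, rfl⟩ := hz
  exact ⟨xmul y w, hw.chMap _ fun s hs _ _ => image_vmul_mem hy hs, chMap_bd _ w⟩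

/-- Elements of disjoint colours commute. -/
theorem commute_of_disjoint {S T : Finset (Fin M)} (hST : Disjoint S T) {g h : Ga n M p m}
    (hg : g ∈ GS n M p m S) (hh : h ∈ GS n M p m T) : g * h = h * g := by
  have key : ∀ g ∈ GSet n M p m S, ∀ h ∈ GSet n M p m T, g * h = h * g := by
    intro g hg h hh
    have z1 : ((g : BM n M p m) - 1) * ((h : BM n M p m) - 1) = 0 := by
      refine Matrix.ext fun i k => ?_
      rw [Matrix.mul_apply, Matrix.zero_apply]
      refine sum_eq_zero fun l _ => ?_
      by_cases hl : l ∈ S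
      · rw [hh.2.1 l k (Or.inl (disjoint_left.1 hST hl)), mul_zero]
      · rw [hg.2.1 i l (Or.inr hl), zero_mul]
    have z2 : ((h : BM n M p m) - 1) * ((g : BM n M p m) - 1) = 0 := by
      refine Matrix.ext fun i k => ?_
      rw [Matrix.mul_apply, Matrix.zero_apply]
      refine sum_eq_zero fun l _ => ?_
      by_cases hl : l ∈ S
      · rw [hh.2.1 i l (Or.inr (disjoint_left.1 hST hl)), zero_mul]
      · rw [hg.2.1 l k (Or.inl hl), mul_zero]
    apply Units.ext
    simp only [Units.val_mul]
    calc (g : BM n M p m) * h = ((g : BM n M p m) - 1) * ((h : BM n M p m) - 1) + g + h - 1 := by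
          rw [sub_mul, mul_sub, mul_one, one_mul]; abel
      _ = ((h : BM n M p m) - 1) * ((g : BM n M p m) - 1) + g + h - 1 := by rw [z1, z2]
      _ = (h : BM n M p m) * g := by rw [sub_mul, mul_sub, mul_one, one_mul]; abel
  refine Subgroup.closure_induction (p := fun g _ => g * h = h * g) (fun g hg => ?_)
    (by simp) (fun a b _ _ ha hb => ?_) (fun a _ ha => ?_) hg
  · refine Subgroup.closure_induction (p := fun h _ => g * h = h * g) (fun h hh => key g hg h hh)
      (by simp) (fun a b _ _ ha hb => ?_) (fun a _ ha => ?_) hh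
    · exact Commute.mul_right ha hb
    · exact Commute.inv_right ha
  · exact Commute.mul_left ha hb
  · exact Commute.inv_left ha

theorem crosses_nxt {v a : Fin n} (h : crosses v a (nxt a)) : v = a := by
  have := a.isLt
  have := v.isLt
  apply Fin.ext
  unfold crosses nxt at h
  simp only at h
  rcases Nat.lt_or_ge (a.1 + 1) n with h' | h'
  · rw [Nat.mod_eq_of_lt h'] at h; omega
  · rw [show a.1 + 1 = n by omega, Nat.mod_self] at h; omega

theorem nxt_ne (hn : 2 ≤ n) (a : Fin n) : a ≠ nxt a := by
  intro h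
  have h' : a.1 = (a.1 + 1) % n := congrArg Fin.val h
  have := a.isLt
  rcases Nat.lt_or_ge (a.1 + 1) n with h1 | h1
  · rw [Nat.mod_eq_of_lt h1] at h'; omega
  · rw [show a.1 + 1 = n by omega, Nat.mod_self] at h'; omega

theorem sc_zero : sc p m 0 = 0 := by simp [sc]

/-- A root element lies in the vertex subgroups of all types but its own. -/
theorem root_mem_Kv (hn : 2 ≤ n) {u : Ga n M p m} {a : Fin n} {c : ZMod p} {i k : Fin M}
    (hu : (u : BM n M p m) =
      1 + Matrix.single i k (Matrix.single a (nxt a) (sc p m c * te p m a (nxt a))))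
    {v : Fin n} (hv : v ≠ a) : u ∈ Kv n M p m v := by
  refine Subgroup.subset_closure fun i' k' => ?_
  rw [hu, add_sub_cancel_left]
  refine ⟨fun a' b' => if i = i' ∧ k = k' ∧ a = a' ∧ nxt a = b' then c else 0,
    fun w hw a' b' hcr => ?_, fun a' b' => ?_⟩
  · rw [mem_singleton] at hw
    subst hw
    refine if_neg ?_
    rintro ⟨-, -, rfl, rfl⟩
    exact hv (crosses_nxt hcr)
  · beta_reduce
    by_cases h : i = i' ∧ k = k' ∧ a = a' ∧ nxt a = b'
    · obtain ⟨rfl, rfl, rfl, rfl⟩ := h
      simp [nxt_ne hn a]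
    · simp only [if_neg h, sc_zero, zero_mul, ite_self]
      rw [Matrix.single_apply]
      split_ifs with h'
      · rw [Matrix.single_apply, if_neg fun h'' => h ⟨h'.1, h'.2, h''.1, h''.2⟩]
      · rfl

/-- Translation by one root element does not change the class. -/
theorem bnd_root {S : Finset (Fin M)} {j : Fin M} {c : ℕ} (hc : c < n) {u : Ga n M p m}
    (hu : u ∈ GS n M p m S) {a : Fin n} (hua : ∀ v, v ≠ a → u ∈ Kv n M p m v)
    (hcomm : ∀ h ∈ GS n M p m (S.erase j), u * h = h * u)
    (hfill : ∀ g ∈ GS n M p m (S.erase j), ∀ c', c' + 2 ≤ n →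
      Fills (LinkS n M p m (S.erase j) (vert g a)) (LinkS n M p m (S.erase j) (vert g a)) c')
    {w : Ch (Vx n M p m)} (hw : Sup (XS n M p m (S.erase j)) c w) (hcyc : bd w = 0) :
    Bnd (XS n M p m S) c (xmul u w + w) := by
  set T := S.erase j with hT
  have hfix : ∀ s ∈ XS n M p m T, ∀ y ∈ s, y.1 ≠ a → vmul u y = y := by
    rintro s ⟨g, hg, hsg⟩ y hy hya
    obtain ⟨v, -, rfl⟩ := mem_map.1 (hsg hy)
    show vmul u (vert g v) = vert g v
    rw [vmul_vert, hcomm g hg]
    exact congrArg (Sigma.mk v) (QuotientGroup.mk_mul_of_mem g (hua v hya))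
  have huniq : ∀ s ∈ XS n M p m T, ∀ x ∈ s, ∀ y ∈ s, x.1 = y.1 → x = y := by
    rintro s ⟨g, -, hsg⟩ x hx y hy hxy
    obtain ⟨v, -, rfl⟩ := mem_map.1 (hsg hx)
    obtain ⟨v', -, rfl⟩ := mem_map.1 (hsg hy)
    obtain rfl : v = v' := hxy
    rfl
  set U := (w.support.biUnion id).filter fun x => x.1 = a with hU
  -- the difference is a sum of suspensions
  have hdiff : xmul u w + w = ∑ x ∈ U, (cone (vmul u x) (lk x w) + cone x (lk x w)) := by
    have hlin : ∀ s ∈ w.support, xmul u (Finsupp.single s 1) + Finsupp.single s 1 =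
        ∑ x ∈ U, (cone (vmul u x) (lk x (Finsupp.single s 1)) +
          cone x (lk x (Finsupp.single s 1))) := by
      intro s hs
      have hsK := (hw s hs).1
      by_cases hx : ∃ x ∈ s, x.1 = a
      · obtain ⟨x, hxs, hxa⟩ := hx
        have hne : ∀ y ∈ s.erase x, y.1 ≠ a := fun y hy h =>
          ne_of_mem_erase hy (huniq s hsK y (mem_of_mem_erase hy) x hxs (h.trans hxa.symm))
        have him : s.image (vmul u) = insert (vmul u x) (s.erase x) := by
          conv_lhs => rw [← insert_erase hxs, image_insert]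
          rw [image_congr (g := id) fun y hy =>
            hfix s hsK y (mem_of_mem_erase hy) (hne y hy), image_id]
        have hnot : vmul u x ∉ s.erase x := fun h => hne _ h hxa
        rw [sum_eq_single x]
        · rw [lk_single, if_pos hxs, cone_single, if_neg hnot, cone_single,
            if_neg (notMem_erase x s), insert_erase hxs, xmul, chMap_single, him, if_pos]
          rw [card_insert_of_notMem hnot, card_erase_of_mem hxs]
          have := card_pos.2 ⟨x, hxs⟩
          omega
        · intro y hy hyx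
          rw [lk_single, if_neg fun h => hyx (huniq s hsK y h x hxs
            ((mem_filter.1 hy).2.trans hxa.symm))]
          simp
        · intro h
          exact absurd (by rw [hU, mem_filter, mem_biUnion]; exact ⟨⟨s, hs, hxs⟩, hxa⟩) h
      · push Not at hx
        have him : s.image (vmul u) = s := by
          rw [image_congr (g := id) fun y hy => hfix s hsK y hy (hx y hy), image_id]
        rw [sum_eq_zero, xmul, chMap_single, him, if_pos rfl, ch_add_self]
        intro y hy
        rw [lk_single, if_neg fun h => hx y h (mem_filter.1 hy).2]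
        simp
    conv_lhs => rw [← Finsupp.sum_single w, Finsupp.sum, map_sum, ← sum_add_distrib]
    conv_rhs =>
      rw [← Finsupp.sum_single w, Finsupp.sum]
      simp only [map_sum, ← sum_add_distrib]
      rw [sum_comm]
    refine sum_congr rfl fun s hs => ?_
    have h1 : w s = 1 := by
      have h0 := Finsupp.mem_support_iff.1 hs
      generalize w s = b at h0
      revert h0
      revert b
      decide
    rw [h1]
    exact hlin s hs
  rw [hdiff]
  refine Bnd.sum _ _ fun x hx => ?_
  obtain ⟨hxU, hxa⟩ := mem_filter.1 hx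
  obtain ⟨s₀, hs₀, hxs₀⟩ := mem_biUnion.1 hxU
  obtain ⟨g, hg, hsg⟩ := (hw s₀ hs₀).1
  obtain ⟨v, -, rfl⟩ := mem_map.1 (hsg hxs₀)
  obtain rfl : v = a := hxa
  have hc1 : 1 ≤ c := (hw s₀ hs₀).2 ▸ card_pos.2 ⟨_, hxs₀⟩
  have hl : Sup (LinkS n M p m T (vert g v)) (c - 1) (lk (vert g v) w) := by
    refine hw.map (lk (vert g v)) fun s hs hsc => ?_
    rw [lk_single]
    split_ifs with h
    · exact Sup.single 1 ⟨notMem_erase _ _, by rwa [insert_erase h]⟩
        (by rw [card_erase_of_mem h, hsc])
    · exact Sup.zero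
  obtain ⟨f, hf, hfb⟩ := hfill g hg (c - 1) (by omega) _ hl (by rw [bd_lk, hcyc, map_zero])
  have hc2 : c - 1 + 1 = c := by omega
  rw [hc2] at hf
  refine ⟨cone (vmul u (vert g v)) f + cone (vert g v) f, ?_, ?_⟩
  · refine (hf.cone _ fun s hs _ _ => ?_).add
      (hf.cone _ fun s hs _ _ => XS_mono (erase_subset _ _) hs.2)
    have him : (insert (vert g v) s).image (vmul u) = insert (vmul u (vert g v)) s := by
      rw [image_insert, image_congr (g := id) fun y hy =>
        hfix _ hs.2 y (mem_insert_of_mem hy) fun h => hs.1 (huniq _ hs.2 (vert g v)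
          (mem_insert_self _ _) y (mem_insert_of_mem hy) h.symm ▸ hy), image_id]
    rw [← him]
    exact image_vmul_mem hu (XS_mono (erase_subset _ _) hs.2)
  · rw [map_add, bd_cone, bd_cone, hfb, show
      ∀ A B C : Ch (Vx n M p m), A + B + (A + C) = A + A + (B + C) from fun A B C => by abel,
      ch_add_self, zero_add]
    rfl

/-- The group of one colour fixes the classes of cycles avoiding this colour. -/
theorem move (hG : GroupSpec) (hL : LinkFillSpec) : MoveSpec := by
  intro n M hn
  obtain ⟨p₀, hp₀⟩ := hL n M hn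
  refine ⟨p₀, fun p hp hpp m hm S j hj c hc w hw hcyc y hy => ?_⟩
  obtain ⟨-, -, -, -, hroots, -⟩ := hG n M p m hn hpp hm
  have hjS : ({j} : Finset (Fin M)) ⊆ S := singleton_subset_iff.2 hj
  rw [← hroots {j}] at hy
  refine (Subgroup.closure_induction
    (p := fun y _ => y ∈ GS n M p m S ∧ Bnd (XS n M p m S) c (xmul y w + w))
    (fun u hu => ?_) ?_ (fun a b _ _ ha hb => ?_) (fun a _ ha => ?_) hy).2
  · obtain ⟨hu', a, r, i, hi, k, hk, he⟩ := hu
    have hu1 : u ∈ GS n M p m {j} := Subgroup.subset_closure hu'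
    exact ⟨GS_mono hjS hu1, bnd_root hc (GS_mono hjS hu1)
      (fun v hv => root_mem_Kv (by omega) he hv)
      (fun h hh => commute_of_disjoint
        (disjoint_left.2 fun x hx => (mem_singleton.1 hx) ▸ notMem_erase j S) hu1 hh)
      (fun g hg c' hc' => hp₀ p hp hpp m hm (S.erase j) g hg a c' hc') hw hcyc⟩
  · refine ⟨one_mem _, ?_⟩
    rw [xmul_one, ch_add_self]
    exact Bnd.zero
  · refine ⟨mul_mem ha.1 hb.1, ?_⟩
    have h := (bnd_xmul ha.1 hb.2).add ha.2
    rwa [map_add, xmul_xmul, add_assoc, ← add_assoc (xmul a w), ch_add_self, zero_add] at h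
  · refine ⟨inv_mem ha.1, ?_⟩
    have h := bnd_xmul (inv_mem ha.1) ha.2
    rwa [map_add, xmul_xmul, inv_mul_cancel, xmul_one, add_comm] at h

end Vale.Agent.P067.Full.Move
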