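import Vale.Agent.P067.Full.LinkModel
import Vale.Agent.P067.Full.Move

/-!
# P067 full answer: expansion and acyclicity of links

Links are complexes of opposite flags (`LinkModel.model`), which have bounded cones (`OppFlag`).
Averaging the cones over the translations fixing the face gives the expansion of the links.
-/

open Finset Module
open scoped Vale.Agent.P067.Full.LinkModel

noncomputable section

namespace Vale.Agent.P067.Full.LinkExpand

set_option linter.unusedSectionVars false

/-! ## Cochains -/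

section Cochain

variable {α : Type} [DecidableEq α]

/-- Evaluation of a cochain on chains. -/
def ev (f : Finset α → ZMod 2) : Ch α →ₗ[ZMod 2] ZMod 2 := Finsupp.linearCombination (ZMod 2) f

theorem ev_single (f : Finset α → ZMod 2) (s : Finset α) :
    ev f (Finsupp.single s 1) = f s := by simp [ev]

theorem ev_cobd (f : Finset α → ZMod 2) (z : Ch α) : ev (Cham.cobd f) z = ev f (bd z) := by
  induction z using Finsupp.induction_linear with
  | zero => simp
  | add u v hu hv => simp only [map_add, hu, hv]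
  | single s a =>
    simp [ev, bd_single, Cham.cobd, Finset.mul_sum]

theorem exists_of_ev_ne_zero {f : Finset α → ZMod 2} {z : Ch α} (h : ev f z ≠ 0) :
    ∃ u ∈ z.support, f u ≠ 0 := by
  by_contra hc
  simp only [not_exists, not_and, not_not] at hc
  refine h ?_
  rw [ev, Finsupp.linearCombination_apply, Finsupp.sum]
  exact Finset.sum_eq_zero fun u hu => by rw [hc u hu, smul_zero]

theorem chMap_support {β : Type} [DecidableEq β] (g : α → β) {z : Ch α} {u : Finset β}
    (h : u ∈ (chMap g z).support) : ∃ v ∈ z.support, u = v.image g := by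
  by_contra hc
  simp only [not_exists, not_and] at hc
  refine Finsupp.mem_support_iff.1 h ?_
  have hz : chMap g z = ∑ v ∈ z.support, z v •
      if (v.image g).card = v.card then Finsupp.single (v.image g) (1 : ZMod 2) else 0 := by
    rw [chMap, Finsupp.linearCombination_apply, Finsupp.sum]
  rw [hz, Finsupp.finsetSum_apply]
  refine Finset.sum_eq_zero fun v hv => ?_
  split_ifs with hcard
  · simp [Finsupp.single_eq_of_ne (hc v hv)]
  · simp

theorem chMap_single_injective {g : α → α} (hg : Function.Injective g) (s : Finset α) :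
    chMap g (Finsupp.single s (1 : ZMod 2)) = Finsupp.single (s.image g) 1 := by
  rw [chMap_single, if_pos (Finset.card_image_of_injective _ hg)]

theorem image_eq_self {f : α → α} {s : Finset α} (h : ∀ x ∈ s, f x = x) : s.image f = s := by
  ext x
  simp only [Finset.mem_image]
  exact ⟨by rintro ⟨y, hy, rfl⟩; rwa [h y hy], fun hx => ⟨x, hx, h x hx⟩⟩

theorem w_eq {P : Type} [Fintype P] {n : ℕ} (X : Cham α P n) (s : Finset α) :
    X.w s = ∑ q, if s ⊆ X.ch q then 1 else 0 := by
  rw [Cham.w, Finset.card_filter]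

theorem mass_eq {P : Type} [Fintype P] {n : ℕ} (X : Cham α P n) (c : ℕ) (f : Finset α → ZMod 2) :
    X.mass c f = ∑ q, ∑ s ∈ (X.ch q).powersetCard c, if f s = 0 then 0 else 1 := by
  calc X.mass c f = ∑ s ∈ X.faces c, ∑ q, if s ⊆ X.ch q then (if f s = 0 then 0 else 1) else 0 :=
        Finset.sum_congr rfl fun s _ => by
          by_cases h : f s = 0 <;> simp [h, w_eq]
    _ = ∑ q, ∑ s ∈ (X.faces c).filter (fun s => s ⊆ X.ch q), if f s = 0 then 0 else 1 := by
        rw [Finset.sum_comm]
        exact Finset.sum_congr rfl fun q _ => (Finset.sum_filter _ _).symm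
    _ = _ := Finset.sum_congr rfl fun q _ => by
        refine Finset.sum_congr ?_ fun _ _ => rfl
        ext s
        simp only [Cham.faces, Finset.mem_filter, Finset.mem_biUnion, Finset.mem_univ, true_and,
          Finset.mem_powersetCard]
        exact ⟨fun ⟨⟨_, _, h⟩, h'⟩ => ⟨h', h⟩, fun ⟨h, h'⟩ => ⟨⟨q, h, h'⟩, h⟩⟩

end Cochain

/-! ## Translations of a family of top faces -/

/-- Bounded cones, translated and averaged over a transitive family of symmetries, give
expansion. -/
theorem expandAt_of_cones {V P : Type} [DecidableEq V] [Fintype P] [Nonempty P] {N : ℕ}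
    (X : Cham V P N) (τ σ : P → V → V) (hστ : ∀ q x, σ q (τ q x) = x)
    (act : P → P → P) (hact : ∀ q, Function.Bijective (act q))
    (hact' : ∀ q', Function.Bijective fun q => act q q')
    (hch : ∀ q q', X.ch (act q q') = (X.ch q').image (τ q)) (e L : ℕ)
    (C : Ch V →ₗ[ZMod 2] Ch V)
    (hC : ∀ s ∈ X.complex, s.card ≤ e →
      bd (C (Finsupp.single s 1)) = Finsupp.single s 1 + C (bd (Finsupp.single s 1)) ∧
      (C (Finsupp.single s 1)).support.card ≤ L ∧
      ∀ u ∈ (C (Finsupp.single s 1)).support, u.card = s.card + 1 ∧ u ∈ X.complex)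
    (β : ℝ) (hβ : 0 ≤ β) (hβL : β * ((N.choose (e + 1) : ℝ) * L) ≤ 1) :
    X.ExpandAt β e := by
  intro f
  have hinj : ∀ q, Function.Injective (τ q) := fun q => Function.LeftInverse.injective (hστ q)
  let g : P → Finset V → ZMod 2 := fun q u =>
    ev f (chMap (τ q) (C (chMap (σ q) (Finsupp.single u 1))))
  set A : Finset V → ℕ := fun u => if Cham.cobd f u = 0 then 0 else 1 with hA
  have key : ∀ q q', ∀ s ∈ (X.ch q').powersetCard e,
      (if (f + Cham.cobd (g q)) (s.image (τ q)) = 0 then 0 else 1) ≤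
        ∑ u ∈ (C (Finsupp.single s 1)).support, A (u.image (τ q)) := by
    intro q q' s hs
    obtain ⟨hsub, hcard⟩ := Finset.mem_powersetCard.1 hs
    obtain ⟨hb, -, -⟩ := hC s ⟨q', hsub⟩ hcard.le
    have hg : Cham.cobd (g q) (s.image (τ q)) =
        ev f (chMap (τ q) (C (bd (Finsupp.single s 1)))) := by
      rw [Cham.cobd, Finset.sum_image fun x _ y _ h => hinj q h, bd_single]
      simp only [map_sum]
      refine Finset.sum_congr rfl fun x _ => ?_
      have he : (s.image (τ q)).erase (τ q x) = (s.erase x).image (τ q) :=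
        (Finset.image_erase (hinj q) s x).symm
      simp only [g, he, ← chMap_single_injective (hinj q), chMap_chMap]
      rw [chMap_congr (f := σ q ∘ τ q) (g := id) fun _ _ x _ => hστ q x, chMap_id]
    have hval : (f + Cham.cobd (g q)) (s.image (τ q)) =
        ev (Cham.cobd f) (chMap (τ q) (C (Finsupp.single s 1))) := by
      rw [ev_cobd, chMap_bd, hb, map_add, map_add, Pi.add_apply, hg,
        chMap_single_injective (hinj q), ev_single]
    split_ifs with h
    · exact Nat.zero_le _
    · rw [hval] at h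
      obtain ⟨u, hu, hu0⟩ := exists_of_ev_ne_zero h
      obtain ⟨v, hv, rfl⟩ := chMap_support _ hu
      refine le_trans ?_ (Finset.single_le_sum (fun w _ => Nat.zero_le (A (w.image (τ q)))) hv)
      simp [hA, hu0]
  have hsum : ∑ q, X.mass e (f + Cham.cobd (g q)) ≤
      Fintype.card P * (N.choose e * (L * X.mass (e + 1) (Cham.cobd f))) := by
    calc ∑ q, X.mass e (f + Cham.cobd (g q))
        ≤ ∑ q, ∑ q', ∑ s ∈ (X.ch q').powersetCard e,
            ∑ u ∈ (C (Finsupp.single s 1)).support, A (u.image (τ q)) := by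
          refine Finset.sum_le_sum fun q _ => ?_
          rw [mass_eq, ← (hact q).sum_comp
            fun q' => ∑ s ∈ (X.ch q').powersetCard e,
              if (f + Cham.cobd (g q)) s = 0 then 0 else 1]
          refine Finset.sum_le_sum fun q' _ => ?_
          have hps : (X.ch (act q q')).powersetCard e =
              ((X.ch q').powersetCard e).image (Finset.image (τ q)) := by
            rw [hch, Finset.powersetCard_eq_filter, Finset.powersetCard_eq_filter,
              Finset.powerset_image, Finset.filter_image]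
            refine congrArg _ (Finset.filter_congr fun s _ => ?_)
            rw [Finset.card_image_of_injective _ (hinj q)]
          rw [hps, Finset.sum_image fun x _ y _ h => Finset.image_injective (hinj q) h]
          exact Finset.sum_le_sum fun s hs => key q q' s hs
      _ = ∑ q', ∑ s ∈ (X.ch q').powersetCard e,
            ∑ u ∈ (C (Finsupp.single s 1)).support, ∑ q, A (u.image (τ q)) := by
          rw [Finset.sum_comm]
          refine Finset.sum_congr rfl fun q' _ => ?_
          rw [Finset.sum_comm]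
          exact Finset.sum_congr rfl fun s _ => Finset.sum_comm
      _ ≤ ∑ q' : P, N.choose e * (L * X.mass (e + 1) (Cham.cobd f)) := by
          refine Finset.sum_le_sum fun q' _ => ?_
          refine le_trans (Finset.sum_le_card_nsmul _ _ (L * X.mass (e + 1) (Cham.cobd f))
            fun s hs => ?_) ?_
          · obtain ⟨hsub, hcard⟩ := Finset.mem_powersetCard.1 hs
            obtain ⟨-, hL, hu⟩ := hC s ⟨q', hsub⟩ hcard.le
            refine le_trans (Finset.sum_le_card_nsmul _ _ (X.mass (e + 1) (Cham.cobd f))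
              fun u hmem => ?_) ?_
            · obtain ⟨hc, q₁, hq₁⟩ := hu u hmem
              rw [mass_eq, ← (hact' q₁).sum_comp
                fun q => ∑ t ∈ (X.ch q).powersetCard (e + 1),
                  if Cham.cobd f t = 0 then 0 else 1]
              refine Finset.sum_le_sum fun q _ => ?_
              refine Finset.single_le_sum (f := A) (fun t _ => Nat.zero_le _) ?_
              rw [Finset.mem_powersetCard, hch,
                Finset.card_image_of_injective _ (hinj q), hc, hcard]
              exact ⟨Finset.image_subset_image hq₁, rfl⟩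
            · rw [smul_eq_mul]
              exact Nat.mul_le_mul_right _ hL
          · rw [smul_eq_mul, Finset.card_powersetCard, X.card_ch]
      _ = _ := by rw [Finset.sum_const, Finset.card_univ, smul_eq_mul]
  obtain ⟨q, -, hq⟩ := Finset.exists_le_of_sum_le (Finset.univ_nonempty (α := P))
    (g := fun _ : P => N.choose e * (L * X.mass (e + 1) (Cham.cobd f)))
    (hsum.trans_eq (by rw [Finset.sum_const, Finset.card_univ, smul_eq_mul]))
  refine ⟨g q, ?_⟩
  have hq' : (X.mass e (f + Cham.cobd (g q)) : ℝ) ≤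
      (N.choose e : ℝ) * (L * X.mass (e + 1) (Cham.cobd f)) := by exact_mod_cast hq
  simp only [Cham.total, Nat.cast_mul]
  calc β * X.mass e (f + Cham.cobd (g q)) * ((N.choose (e + 1) : ℝ) * Fintype.card P)
      ≤ β * ((N.choose e : ℝ) * (L * X.mass (e + 1) (Cham.cobd f))) *
          ((N.choose (e + 1) : ℝ) * Fintype.card P) := by gcongr
    _ = (β * ((N.choose (e + 1) : ℝ) * L)) *
          ((X.mass (e + 1) (Cham.cobd f) : ℝ) * (N.choose e * Fintype.card P)) := by ring
    _ ≤ _ := mul_le_of_le_one_left (by positivity) hβL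

/-! ## Links -/

section Links

variable {n M p m : ℕ}

theorem mem_chamber {g : Ga n M p m} {x : Vx n M p m} : x ∈ chamber g ↔ x = vert g x.1 := by
  constructor
  · intro h
    obtain ⟨v, -, rfl⟩ := Finset.mem_map.1 h
    rfl
  · intro h
    exact Finset.mem_map.2 ⟨x.1, Finset.mem_univ _, h.symm⟩

theorem chamber_mul (h g : Ga n M p m) : chamber (h * g) = (chamber g).image (vmul h) := by
  ext x
  simp only [Finset.mem_image, chamber, Finset.mem_map, Finset.mem_univ, true_and]
  exact ⟨fun ⟨v, hv⟩ => ⟨_, ⟨v, rfl⟩, hv⟩, fun ⟨_, ⟨v, hv⟩, hx⟩ => ⟨v, by rw [← hx, ← hv]; rfl⟩⟩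

theorem vmul_injective (h : Ga n M p m) : Function.Injective (vmul (n := n) h) :=
  Function.LeftInverse.injective (g := vmul h⁻¹) fun x => by
    rw [Move.vmul_vmul, inv_mul_cancel, Move.vmul_one]

variable [Fintype (GS n M p m univ)]

/-- The complex of a link. -/
theorem link_complex (hG : GroupSpec) (hn : 3 ≤ n) (hp : p.Prime) (hm : 2 ≤ m)
    {η : Finset (Vx n M p m)} (q₀ : GS n M p m univ) (hη : η ⊆ chamber q₀.1)  :
    ((cx n M p m).link η).complex = LinkModel.Lk (η.image Sigma.fst) univ q₀.1 := by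
  obtain ⟨-, -, -, hle, -⟩ := hG n M p m hn hp hm
  have hmem : ∀ q : Ga n M p m, η ⊆ chamber q ↔
      ∀ v ∈ η.image Sigma.fst, q₀.1⁻¹ * q ∈ Kv n M p m v := by
    refine fun q => ⟨fun h v hv => ?_, fun h x hx => ?_⟩
    · obtain ⟨x, hx, rfl⟩ := Finset.mem_image.1 hv
      rw [← LinkModel.vert_eq_iff, ← mem_chamber.1 (hη hx), ← mem_chamber.1 (h hx)]
    · rw [mem_chamber, ← (LinkModel.vert_eq_iff _ _ _).2 (h _ (Finset.mem_image_of_mem _ hx))]
      exact mem_chamber.1 (hη hx)
  ext t
  constructor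
  · rintro ⟨⟨⟨q, hq⟩, hηq⟩, ht⟩
    refine ⟨q₀.1⁻¹ * q, LinkModel.mem_KJ.2 ⟨mul_mem (inv_mem q₀.2) hq, (hmem q).1 hηq⟩,
      fun x hx => ?_⟩
    obtain ⟨h1, h2⟩ := Finset.mem_sdiff.1 (ht hx)
    refine ⟨x.1, fun h => h2 ?_, by rw [mul_inv_cancel_left]; exact mem_chamber.1 h1⟩
    obtain ⟨y, hy, hyx⟩ := Finset.mem_image.1 h
    rwa [mem_chamber.1 h1, ← hyx, ← mem_chamber.1 (hηq hy)]
  · rintro ⟨k, hk, ht⟩
    obtain ⟨hk1, hk2⟩ := LinkModel.mem_KJ.1 hk
    have hηq : η ⊆ chamber (q₀.1 * k) :=
      (hmem _).2 fun v hv => by rw [inv_mul_cancel_left]; exact hk2 v hv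
    refine ⟨⟨⟨q₀.1 * k, mul_mem q₀.2 hk1⟩, hηq⟩, fun x hx => ?_⟩
    obtain ⟨v, hv, rfl⟩ := ht x hx
    exact Finset.mem_sdiff.2 ⟨mem_chamber.2 rfl,
      fun h => hv (Finset.mem_image.2 ⟨_, h, rfl⟩)⟩

end Links

/-- Proper links expand. -/
theorem expand (hG : GroupSpec) : ExpandSpec := by
  intro n M hn hM
  obtain ⟨L, P, hLP⟩ := OppFlag.opp_cones n
  refine ⟨1 / ((2 : ℝ) ^ n * 2 ^ L), by positivity, P, fun p hpP hp m hm => ?_⟩
  intro _ η hη hη1 e he
  have : Fact p.Prime := ⟨hp⟩
  obtain ⟨q₀, hq₀⟩ := hη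
  have hne : η.Nonempty := Finset.card_pos.1 hη1
  set J := η.image Sigma.fst with hJ
  have hJc : J.card = η.card := Finset.card_image_of_injOn fun x hx y hy h => by
    rw [mem_chamber.1 (hq₀ hx), mem_chamber.1 (hq₀ hy)]
    exact congrArg (vert q₀.1) h
  obtain ⟨F, ψ, φ, hsum, hψ, hφ⟩ := LinkModel.model (S := (univ : Finset (Fin M))) hG hn hm
    (J := J) (hne.image _) ⟨⟨0, hM⟩, Finset.mem_univ _⟩ q₀.1
  have hK : (P : ℕ∞) ≤ ENat.card (ZMod p) := by
    rw [ENat.card_eq_coe_fintype_card, ZMod.card]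
    exact_mod_cast hpP
  obtain ⟨C, hC⟩ := hLP (ZMod p) _ J F hK e (by omega) (by omega)
  have : Nonempty {q : GS n M p m univ // η ⊆ (cx n M p m).ch q} := ⟨⟨q₀, hq₀⟩⟩
  set X := (cx n M p m).link η with hX
  have hXc : X.complex = LinkModel.Lk J univ q₀.1 := link_complex hG hn hp hm q₀ hq₀
  have hact : ∀ q q' : {q : GS n M p m univ // η ⊆ (cx n M p m).ch q},
      η ⊆ chamber (q.1.1 * q₀.1⁻¹ * q'.1.1) := by
    intro q q' x hx
    have h1 : x = vert q.1.1 x.1 := mem_chamber.1 (q.2 hx)
    have h2 : x = vert q'.1.1 x.1 := mem_chamber.1 (q'.2 hx)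
    have h3 : x = vert q₀.1 x.1 := mem_chamber.1 (hq₀ hx)
    refine mem_chamber.2 ?_
    calc x = vmul (q.1.1 * q₀.1⁻¹) (vert q₀.1 x.1) := by
          rw [Move.vmul_vert, inv_mul_cancel_right]; exact h1
      _ = vmul (q.1.1 * q₀.1⁻¹) (vert q'.1.1 x.1) := by rw [← h3, ← h2]
      _ = _ := Move.vmul_vert _ _ _
  refine expandAt_of_cones X (fun q => vmul (q.1.1 * q₀.1⁻¹))
    (fun q => vmul (q.1.1 * q₀.1⁻¹)⁻¹)
    (fun q x => by rw [Move.vmul_vmul, inv_mul_cancel, Move.vmul_one])
    (fun q q' => ⟨⟨q.1.1 * q₀.1⁻¹ * q'.1.1,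
      mul_mem (mul_mem q.1.2 (inv_mem q₀.2)) q'.1.2⟩, hact q q'⟩)
    (fun q => Finite.injective_iff_bijective.1 fun a b h => Subtype.ext (Subtype.ext
      (mul_left_cancel (congrArg (fun x => x.1.1) h))))
    (fun q' => Finite.injective_iff_bijective.1 fun a b h => Subtype.ext (Subtype.ext
      (mul_right_cancel (mul_right_cancel (congrArg (fun x => x.1.1) h)))))
    (fun q q' => ?_) e (2 ^ L) (chMap φ ∘ₗ C ∘ₗ chMap ψ) (fun s hs hse => ?_) _ (by positivity) ?_
  · show chamber (q.1.1 * q₀.1⁻¹ * q'.1.1) \ η = (chamber q'.1.1 \ η).image _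
    rw [Finset.image_sdiff _ _ (vmul_injective _), ← chamber_mul]
    congr 1
    refine (image_eq_self fun x hx => ?_).symm
    conv_lhs => rw [mem_chamber.1 (hq₀ hx), Move.vmul_vert, inv_mul_cancel_right]
    exact (mem_chamber.1 (q.2 hx)).symm
  · rw [hXc] at hs
    obtain ⟨h1, h2⟩ := hψ s hs
    have hcard : (s.image ψ).card = s.card :=
      Finset.card_image_of_injOn fun x hx y hy h => by rw [← h2 x hx, h, h2 y hy]
    have hψs : chMap ψ (Finsupp.single s (1 : ZMod 2)) = Finsupp.single (s.image ψ) 1 := by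
      rw [chMap_single, if_pos hcard]
    have hid : chMap φ (chMap ψ (Finsupp.single s (1 : ZMod 2))) = Finsupp.single s 1 := by
      rw [chMap_chMap, chMap_single,
        image_eq_self (f := φ ∘ ψ) h2, if_pos rfl]
    obtain ⟨⟨U, hU, hsup⟩, hb⟩ := hC _ h1 (hcard.le.trans hse)
    refine ⟨?_, ?_, fun u hu => ?_⟩
    · simp only [LinearMap.comp_apply]
      rw [chMap_bd, hψs, hb, map_add, ← hψs, chMap_bd, hid]
    · simp only [LinearMap.comp_apply, hψs]
      refine (Finset.card_le_card (t := U.powerset.image (Finset.image φ)) fun u hu => ?_).trans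
        (Finset.card_image_le.trans ?_)
      · obtain ⟨v, hv, rfl⟩ := chMap_support _ hu
        exact Finset.mem_image_of_mem _ (Finset.mem_powerset.2 (hsup v hv).1.2)
      · rw [Finset.card_powerset]
        exact Nat.pow_le_pow_right (by norm_num) hU
    · simp only [LinearMap.comp_apply, hψs] at hu
      have h3 : Sup (LinkModel.Lk J univ q₀.1) (s.card + 1)
          (chMap φ (C (Finsupp.single (s.image ψ) 1))) := by
        rw [← hcard]
        exact Sup.chMap φ hsup fun v hv _ _ => hφ v hv.1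
      exact ⟨(h3 u hu).2, hXc ▸ (h3 u hu).1⟩
  · rw [div_mul_eq_mul_div, one_mul, div_le_one (by positivity)]
    push_cast
    gcongr
    have h1 := Nat.choose_le_two_pow (n - η.card) (e + 1)
    have h2 : 2 ^ (n - η.card) ≤ 2 ^ n := Nat.pow_le_pow_right (by norm_num) (Nat.sub_le _ _)
    exact_mod_cast h1.trans h2

/-- Cycles of the link of a vertex bound. -/
theorem linkFill (hG : GroupSpec) : LinkFillSpec := by
  intro n M hn
  choose P hP using OppFlag.opp_fills
  refine ⟨(Finset.range n).sup P, fun p hpP hp m hm S g hg a c hc => ?_⟩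
  have : Fact p.Prime := ⟨hp⟩
  have hLk : LinkS n M p m S (vert g a) = LinkModel.Lk {a} S g := by
    ext t
    constructor
    · rintro ⟨hxt, h, hh, hsub⟩
      have hga : g⁻¹ * h ∈ Kv n M p m a :=
        (LinkModel.vert_eq_iff _ _ _).1 (mem_chamber.1 (hsub (Finset.mem_insert_self _ _)))
      refine ⟨g⁻¹ * h, LinkModel.mem_KJ.2 ⟨mul_mem (inv_mem hg) hh, by simpa using hga⟩,
        fun x hx => ?_⟩
      have hx' := mem_chamber.1 (hsub (Finset.mem_insert_of_mem hx))
      refine ⟨x.1, fun he => hxt ?_, by rwa [mul_inv_cancel_left]⟩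
      rw [Finset.mem_singleton] at he
      rw [he, ← (LinkModel.vert_eq_iff g h a).2 hga] at hx'
      exact hx' ▸ hx
    · rintro ⟨k, hk, ht⟩
      obtain ⟨hk1, hk2⟩ := LinkModel.mem_KJ.1 hk
      refine ⟨fun h => ?_, g * k, mul_mem hg hk1, Finset.insert_subset ?_ fun x hx => ?_⟩
      · obtain ⟨v, hv, he⟩ := ht _ h
        exact hv (Finset.mem_singleton.2 (congrArg Sigma.fst he).symm)
      · exact mem_chamber.2 ((LinkModel.vert_eq_iff g (g * k) a).2
          (by rw [inv_mul_cancel_left]; exact hk2 a (Finset.mem_singleton_self a)))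
      · obtain ⟨v, -, rfl⟩ := ht x hx
        exact mem_chamber.2 rfl
  rw [hLk]
  rcases S.eq_empty_or_nonempty with rfl | hS
  · obtain ⟨v, hv⟩ : ∃ v : Fin n, v ≠ a := Fintype.exists_ne_of_one_lt_card (by simp; omega) a
    have h1 : ∀ k ∈ GS n M p m (∅ : Finset (Fin M)), k = 1 := fun k hk => by
      refine Units.ext (sub_eq_zero.1 ?_)
      ext i j : 1
      exact (((hG n M p m hn hp hm).2.1 ∅ k).1 hk).2.1 i j (Or.inl (Finset.notMem_empty i))
    intro z hz hcyc
    refine ⟨cone (vert g v) z, hz.cone _ fun t ht _ _ => ?_, bd_cone_of_bd_eq_zero _ hcyc⟩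
    obtain ⟨k, hk, ht⟩ := ht
    have := h1 k (LinkModel.mem_KJ.1 hk).1
    subst this
    refine ⟨1, hk, fun x hx => ?_⟩
    rcases Finset.mem_insert.1 hx with rfl | hx
    · exact ⟨v, by simpa using hv, by rw [mul_one]⟩
    · exact ht x hx
  obtain ⟨F, ψ, φ, hsum, hψ, hφ⟩ := LinkModel.model hG hn hm (J := {a})
    (Finset.singleton_nonempty a) hS g
  have hK : (P c : ℕ∞) ≤ ENat.card (ZMod p) := by
    rw [ENat.card_eq_coe_fintype_card, ZMod.card]
    exact_mod_cast le_trans (Finset.le_sup (Finset.mem_range.2 (by omega))) hpP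
  rw [Finset.card_singleton] at hsum
  have hfill := hP c (ZMod p) _ ({a} : Finset (Fin n)) F hK (by omega)
  intro z hz hcyc
  obtain ⟨w, hw, hb⟩ := hfill (chMap ψ z) (Sup.chMap ψ hz fun t ht _ _ => (hψ t ht).1)
    (by rw [chMap_bd, hcyc, map_zero])
  refine ⟨chMap φ w, Sup.chMap φ hw fun t ht _ _ => hφ t ht, ?_⟩
  rw [chMap_bd, hb, chMap_chMap,
    chMap_congr (f := φ ∘ ψ) (g := id) fun t ht x hx => (hψ t (hz t ht).1).2 x hx, chMap_id]

end Vale.Agent.P067.Full.LinkExpand

end
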