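import Mathlib

/-!
The base inequality for the block point-line graph.
-/

open Matrix Finset

noncomputable section

namespace Vale.Agent.P067.Full.MixBase

open scoped Classical

lemma one_sub_sum_le_prod {ι : Type*} (s : Finset ι) (x : ι → ℝ) (h0 : ∀ i ∈ s, 0 ≤ x i)
    (h1 : ∀ i ∈ s, x i ≤ 1) : 1 - ∑ i ∈ s, x i ≤ ∏ i ∈ s, (1 - x i) := by
  induction s using Finset.induction_on with
  | empty => simp
  | insert a s ha ih =>
    rw [sum_insert ha, prod_insert ha]
    have ha0 := h0 a (mem_insert_self a s)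
    have ha1 := h1 a (mem_insert_self a s)
    have hs : 0 ≤ ∑ i ∈ s, x i := sum_nonneg fun i hi => h0 i (mem_insert_of_mem hi)
    nlinarith [mul_le_mul_of_nonneg_left
      (ih (fun i hi => h0 i (mem_insert_of_mem hi)) fun i hi => h1 i (mem_insert_of_mem hi))
      (sub_nonneg.2 ha1)]

variable {M p : ℕ}

/-- There are few singular matrices. -/
lemma card_singular (hp : p.Prime) [NeZero p] :
    ((univ.filter fun D : Matrix (Fin M) (Fin M) (ZMod p) => ¬ IsUnit D).card : ℝ) * p ≤
      M * Fintype.card (Matrix (Fin M) (Fin M) (ZMod p)) := by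
  have : Fact p.Prime := ⟨hp⟩
  set X := Matrix (Fin M) (Fin M) (ZMod p)
  have hsum : ((univ.filter fun D : X => ¬ IsUnit D).card : ℝ) +
      Nat.card (GL (Fin M) (ZMod p)) = Fintype.card X := by
    have he : Nat.card (GL (Fin M) (ZMod p)) = (univ.filter fun D : X => IsUnit D).card := by
      rw [← Fintype.card_subtype, ← Nat.card_eq_fintype_card]
      exact Nat.card_congr (Equiv.ofBijective (fun u => (⟨(u : X), u.isUnit⟩ : {D : X // IsUnit D}))
        ⟨fun u v h => Units.ext (congrArg Subtype.val h),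
          fun D => ⟨D.2.unit, Subtype.ext D.2.unit_spec⟩⟩)
    rw [he, add_comm]
    exact_mod_cast card_filter_add_card_filter_not (s := (univ : Finset X)) (fun D => IsUnit D)
  have hX : (Fintype.card X : ℝ) = ((p : ℝ) ^ M) ^ M := by
    rw [← Nat.card_eq_fintype_card]
    show ((Nat.card (Fin M → Fin M → ZMod p) : ℕ) : ℝ) = _
    rw [Nat.card_fun, Nat.card_fun, Nat.card_zmod, Nat.card_eq_fintype_card, Fintype.card_fin]
    push_cast
    ring
  have hp1 : (1 : ℝ) ≤ p := by exact_mod_cast hp.one_lt.le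
  have hp0 : (0 : ℝ) < p := lt_of_lt_of_le one_pos hp1
  rw [Matrix.card_GL_field, ZMod.card, Nat.cast_prod] at hsum
  have hfac : ∀ i : Fin M, ((p ^ M - p ^ (i : ℕ) : ℕ) : ℝ) =
      (p : ℝ) ^ M * (1 - (p : ℝ) ^ (i : ℕ) / (p : ℝ) ^ M) := fun i => by
    rw [Nat.cast_sub (Nat.pow_le_pow_right hp.pos i.2.le), Nat.cast_pow, Nat.cast_pow, mul_sub,
      mul_one, mul_div_cancel₀ _ (pow_ne_zero _ hp0.ne')]
  simp only [hfac] at hsum
  rw [prod_mul_distrib, prod_const, card_univ, Fintype.card_fin, ← hX] at hsum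
  have hb := one_sub_sum_le_prod (univ : Finset (Fin M))
    (fun i => (p : ℝ) ^ (i : ℕ) / (p : ℝ) ^ M)
    (fun i _ => by positivity) (fun i _ => (div_le_one (by positivity)).2
      (pow_le_pow_right₀ hp1 i.2.le))
  have hs : (∑ i : Fin M, (p : ℝ) ^ (i : ℕ) / (p : ℝ) ^ M) * p ≤ M := by
    rw [sum_mul]
    refine (sum_le_sum (g := fun _ => (1 : ℝ)) fun i _ => ?_).trans_eq (by simp)
    rw [div_mul_eq_mul_div, div_le_one (by positivity), ← pow_succ]
    exact pow_le_pow_right₀ hp1 i.2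
  have hXn : (0 : ℝ) ≤ Fintype.card X := Nat.cast_nonneg _
  have h2 := mul_le_mul_of_nonneg_left hb hXn
  have h3 := mul_le_mul_of_nonneg_left hs hXn
  nlinarith

variable {Y : Type*} [Ring Y] [Fintype Y]

/-- The operator bound over a finite ring with `s` non-units. -/
lemma sq_bound (f : Y × Y → ℝ) (hf : ∑ x, f x = 0) :
    ∑ x : Y × Y, (∑ P, f (P, x.2 - P * x.1)) ^ 2 ≤
      2 * (univ.filter fun D : Y => ¬ IsUnit D).card * (Fintype.card Y : ℝ) * ∑ x, f x ^ 2 := by
  set N := (Fintype.card Y : ℝ) with hN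
  set s := ((univ.filter fun D : Y => ¬ IsUnit D).card : ℝ) with hs
  let a : Y → ℝ := fun P => ∑ T, f (P, T)
  let b : Y → ℝ := fun P => ∑ T, f (P, T) ^ 2
  have hN0 : 0 ≤ N := Nat.cast_nonneg _
  have hexp : ∑ x : Y × Y, (∑ P, f (P, x.2 - P * x.1)) ^ 2 =
      ∑ P, ∑ P', ∑ R, ∑ T, f (P, T) * f (P', T + (P - P') * R) := by
    simp only [sq, sum_mul_sum]
    rw [sum_comm]
    refine sum_congr rfl fun P _ => ?_
    rw [sum_comm]
    refine sum_congr rfl fun P' _ => ?_
    rw [Fintype.sum_prod_type]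
    refine sum_congr rfl fun R _ => ?_
    refine Fintype.sum_equiv (Equiv.subRight (P * R)) _ _ fun S => ?_
    simp only [Equiv.subRight_apply]
    rw [sub_mul, sub_add_sub_cancel]
  have hunit : ∀ P P', IsUnit (P - P') →
      ∑ R, ∑ T, f (P, T) * f (P', T + (P - P') * R) = a P * a P' := by
    intro P P' h
    rw [sum_comm, sum_mul]
    refine sum_congr rfl fun T _ => ?_
    rw [← mul_sum]
    congr 1
    refine Fintype.sum_bijective _
      ((Equiv.addLeft T).bijective.comp h.unit.mulLeft.bijective) _ _ fun R => ?_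
    simp [Function.comp]
  have hshift : ∀ P' D, ∑ T, f (P', T + D) ^ 2 = b P' := fun P' D =>
    Fintype.sum_equiv (Equiv.addRight D) _ _ fun T => rfl
  have hany : ∀ P P', ∑ R, ∑ T, f (P, T) * f (P', T + (P - P') * R) ≤
      N * ((b P + b P') / 2) := by
    intro P P'
    refine (sum_le_sum (g := fun _ => (b P + b P') / 2) fun R _ => ?_).trans_eq ?_
    · rw [← hshift P' ((P - P') * R), ← sum_add_distrib, sum_div]
      exact sum_le_sum fun T _ => by
        nlinarith [sq_nonneg (f (P, T) - f (P', T + (P - P') * R))]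
    · rw [sum_const, card_univ, nsmul_eq_mul]
  have ha : ∀ P, a P ^ 2 ≤ N * b P := fun P => by
    have := sq_sum_le_card_mul_sum_sq (s := (univ : Finset Y)) (f := fun T => f (P, T))
    rwa [card_univ] at this
  have hterm : ∀ P P', ∑ R, ∑ T, f (P, T) * f (P', T + (P - P') * R) - a P * a P' ≤
      if IsUnit (P - P') then 0 else N * (b P + b P') := fun P P' => by
    split_ifs with h
    · rw [hunit P P' h, sub_self]
    · nlinarith [hany P P', ha P, ha P', sq_nonneg (a P + a P')]
  have haa : ∑ P, ∑ P', a P * a P' = 0 := by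
    rw [← sum_mul_sum, show ∑ P, a P = 0 by rw [← hf, Fintype.sum_prod_type]]
    ring
  have hc1 : ∀ P, ((univ.filter fun P' : Y => ¬ IsUnit (P - P')).card : ℝ) = s := fun P => by
    rw [hs, Nat.cast_inj]
    exact card_equiv (Equiv.subLeft P) fun P' => by simp
  have hc2 : ∀ P', ((univ.filter fun P : Y => ¬ IsUnit (P - P')).card : ℝ) = s := fun P' => by
    rw [hs, Nat.cast_inj]
    exact card_equiv (Equiv.subRight P') fun P => by simp
  have key := sum_le_sum (s := (univ : Finset Y)) fun P _ =>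
    sum_le_sum (s := (univ : Finset Y)) fun P' _ => hterm P P'
  simp only [sum_sub_distrib] at key
  rw [haa, sub_zero, ← hexp] at key
  refine key.trans (le_of_eq ?_)
  have : ∀ P P' : Y, (if IsUnit (P - P') then 0 else N * (b P + b P')) =
      (if ¬ IsUnit (P - P') then N * b P else 0) + if ¬ IsUnit (P - P') then N * b P' else 0 :=
    fun P P' => by split_ifs <;> ring
  simp only [this, sum_add_distrib]
  rw [sum_comm (f := fun P P' => if ¬ IsUnit (P - P') then N * b P' else 0)]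
  simp only [← sum_filter, sum_const, nsmul_eq_mul, hc1, hc2]
  rw [Fintype.sum_prod_type]
  simp only [b, ← mul_sum]
  ring

/-- The base inequality. -/
theorem base (M : ℕ) {l : ℝ} (hl : 0 < l) {p : ℕ} (hp : p.Prime) [NeZero p]
    (hpl : 2 * (M : ℝ) ≤ l ^ 2 * p)
    (f g : Matrix (Fin M) (Fin M) (ZMod p) × Matrix (Fin M) (Fin M) (ZMod p) → ℝ)
    (h0 : (∑ x, f x) + (∑ x, g x) = 0) :
    2 * ∑ P, ∑ R, ∑ T, f (P, T) * g (R, T + P * R) ≤
      l * Fintype.card (Matrix (Fin M) (Fin M) (ZMod p)) *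
        ((∑ x, f x ^ 2) + ∑ x, g x ^ 2) := by
  set N := (Fintype.card (Matrix (Fin M) (Fin M) (ZMod p)) : ℝ) with hN
  have hN0 : 0 < N := Nat.cast_pos.2 Fintype.card_pos
  set cf : ℝ := (∑ x, f x) / (N * N) with hcf
  let f0 : Matrix (Fin M) (Fin M) (ZMod p) × Matrix (Fin M) (Fin M) (ZMod p) → ℝ := fun x => f x - cf
  have hcard : (Fintype.card (Matrix (Fin M) (Fin M) (ZMod p) × Matrix (Fin M) (Fin M) (ZMod p)) : ℝ) = N * N := by rw [Fintype.card_prod, Nat.cast_mul]
  have hf0 : ∑ x, f0 x = 0 := by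
    show ∑ x, (f x - cf) = 0
    rw [sum_sub_distrib, sum_const, card_univ, nsmul_eq_mul, hcard, hcf,
      mul_div_cancel₀ _ (by positivity), sub_self]
  have hsq : ∑ x, f0 x ^ 2 ≤ ∑ x, f x ^ 2 := by
    have e : ∑ x, f x ^ 2 - ∑ x, f0 x ^ 2 = cf * (∑ x, f x) := by
      have e1 : ∀ x, f x ^ 2 - f0 x ^ 2 = 2 * cf * f x - cf ^ 2 := fun x => by simp only [f0]; ring
      rw [← sum_sub_distrib, sum_congr rfl fun x _ => e1 x, sum_sub_distrib, ← mul_sum, sum_const,
        card_univ, nsmul_eq_mul, hcard, hcf]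
      field_simp
      ring
    have : 0 ≤ cf * ∑ x, f x := by
      rw [hcf, div_mul_eq_mul_div]
      exact div_nonneg (mul_self_nonneg _) (by positivity)
    linarith
  let A : Matrix (Fin M) (Fin M) (ZMod p) × Matrix (Fin M) (Fin M) (ZMod p) → ℝ := fun x => ∑ P, f0 (P, x.2 - P * x.1)
  have hcross : ∑ P, ∑ R, ∑ T, f (P, T) * g (R, T + P * R) =
      cf * N * (∑ x, g x) + ∑ x, g x * A x := by
    have e1 : ∀ P R, ∑ T, f (P, T) * g (R, T + P * R) =
        ∑ S, (cf * g (R, S) + g (R, S) * f0 (P, S - P * R)) := fun P R => by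
      refine Fintype.sum_equiv (Equiv.addRight (P * R)) _ _ fun T => ?_
      simp only [f0, Equiv.coe_addRight, add_sub_cancel_right]
      ring
    simp only [e1, sum_add_distrib, ← mul_sum]
    rw [sum_const, card_univ, nsmul_eq_mul, ← hN, Fintype.sum_prod_type, Fintype.sum_prod_type]
    congr 1
    · ring
    · rw [sum_comm]
      refine sum_congr rfl fun R _ => ?_
      rw [sum_comm]
      exact sum_congr rfl fun S _ => (mul_sum _ _ _).symm
  have hneg : cf * N * (∑ x, g x) ≤ 0 := by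
    rw [eq_neg_of_add_eq_zero_right h0, mul_neg, neg_nonpos, hcf]
    have : (∑ x, f x) / (N * N) * N * (∑ x, f x) = (∑ x, f x) ^ 2 / N := by field_simp
    rw [this]
    positivity
  have hA := sq_bound f0 hf0
  have hsing := card_singular (M := M) hp
  set s : ℝ := ((univ.filter fun D : Matrix (Fin M) (Fin M) (ZMod p) => ¬ IsUnit D).card : ℝ) with hs
  have hAM : ∀ x, 2 * (g x * A x) ≤ l * N * g x ^ 2 + A x ^ 2 / (l * N) := fun x => by
    rw [← sub_nonneg]
    have : l * N * g x ^ 2 + A x ^ 2 / (l * N) - 2 * (g x * A x) =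
        (l * N * g x - A x) ^ 2 / (l * N) := by field_simp; ring
    rw [this]
    positivity
  have h2 := sum_le_sum (s := (univ : Finset (Matrix (Fin M) (Fin M) (ZMod p) × Matrix (Fin M) (Fin M) (ZMod p)))) fun x _ => hAM x
  rw [← mul_sum, sum_add_distrib, ← mul_sum, ← sum_div] at h2
  have hp0 : (0 : ℝ) < p := by exact_mod_cast hp.pos
  have hfn : 0 ≤ ∑ x, f0 x ^ 2 := sum_nonneg fun x _ => sq_nonneg _
  have h3 : 2 * s ≤ l ^ 2 * N := by
    refine le_of_mul_le_mul_right ?_ hp0
    have := mul_le_mul_of_nonneg_right hpl hN0.le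
    nlinarith [hsing]
  have h4 : (∑ x, A x ^ 2) / (l * N) ≤ l * N * ∑ x, f x ^ 2 := by
    rw [div_le_iff₀ (by positivity)]
    have hA' : ∑ x, A x ^ 2 ≤ 2 * s * N * ∑ x, f0 x ^ 2 := by
      refine hA.trans (le_of_eq ?_)
      rw [hs, ← hN]
      congr!
    refine hA'.trans ?_
    have := mul_le_mul h3 hsq hfn (by positivity)
    nlinarith
  rw [hcross]
  linarith

end Vale.Agent.P067.Full.MixBase
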