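import Vale.Agent.P067.Full.MixLinks

/-!
The links of faces of two free types, and connectivity of all links.
-/

open Matrix Finset

noncomputable section

namespace Vale.Agent.P067.Full.Grp

open scoped Classical

variable {n M p m : ℕ}

/-- A colour matrix placed in one block. -/
def Nb (a b : Fin n) (P : Matrix (Fin M) (Fin M) (ZMod p)) : BM n M p m :=
  Matrix.of fun i j => Matrix.single a b (sc p m (P i j) * te p m a b)

lemma Nb_apply (a b : Fin n) (P : Matrix (Fin M) (Fin M) (ZMod p)) (i j : Fin M) (x y : Fin n) :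
    (Nb a b P : BM n M p m) i j x y =
      if a = x ∧ b = y then sc p m (P i j) * te p m a b else 0 := by
  simp [Nb, Matrix.single_apply]

lemma Nb_add (a b : Fin n) (P Q : Matrix (Fin M) (Fin M) (ZMod p)) :
    (Nb a b (P + Q) : BM n M p m) = Nb a b P + Nb a b Q := by
  refine Matrix.ext fun i j => Matrix.ext fun x y => ?_
  rw [Matrix.add_apply, Matrix.add_apply, Nb_apply, Nb_apply, Nb_apply]
  split_ifs
  · rw [Matrix.add_apply, sc_add, add_mul]
  · rw [add_zero]

lemma Nb_mul_eq_zero {a b c d : Fin n} (h : b ≠ c) (P Q : Matrix (Fin M) (Fin M) (ZMod p)) :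
    (Nb a b P : BM n M p m) * Nb c d Q = 0 := by
  refine Matrix.ext fun i j => ?_
  rw [Matrix.mul_apply]
  exact Finset.sum_eq_zero fun k _ => by simp [Nb, h]

lemma Nb_mul {a b c : Fin n} (h : te p m a b * te p m b c = te p m a c)
    (P Q : Matrix (Fin M) (Fin M) (ZMod p)) :
    (Nb a b P : BM n M p m) * Nb b c Q = Nb a c (P * Q) := by
  refine Matrix.ext fun i j => Matrix.ext fun x y => ?_
  rw [Matrix.mul_apply, Matrix.sum_apply, Nb_apply, Matrix.mul_apply]
  simp only [Nb, Matrix.of_apply, Matrix.single_mul_single_same, Matrix.single_apply]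
  split_ifs with hxy
  · rw [sc_eq, map_sum, Finset.sum_mul]
    refine Finset.sum_congr rfl fun k _ => ?_
    rw [map_mul, ← sc_eq, ← sc_eq, ← h]
    ring
  · exact Finset.sum_eq_zero fun k _ => rfl

/-- The unit of a block. -/
def rho {a b : Fin n} (h : a ≠ b) (P : Matrix (Fin M) (Fin M) (ZMod p)) : Ga n M p m where
  val := 1 + Nb a b P
  inv := 1 - Nb a b P
  val_inv := by
    rw [mul_sub, mul_one, add_mul, one_mul, Nb_mul_eq_zero h.symm]; abel
  inv_val := by
    rw [mul_add, mul_one, sub_mul, one_mul, Nb_mul_eq_zero h.symm]; abel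

lemma coe_rho {a b : Fin n} (h : a ≠ b) (P : Matrix (Fin M) (Fin M) (ZMod p)) :
    ((rho h P : Ga n M p m) : BM n M p m) = 1 + Nb a b P := rfl

lemma rho_mem_Kv {a b v : Fin n} (h : a ≠ b) (hv : ¬ crosses v a b)
    (P : Matrix (Fin M) (Fin M) (ZMod p)) : (rho h P : Ga n M p m) ∈ Kv n M p m v := by
  refine Subgroup.subset_closure fun i j => ?_
  refine ⟨fun x y => if a = x ∧ b = y then P i j else 0, fun w hw x y hcr => if_neg ?_,
    fun x y => ?_⟩
  · rintro ⟨rfl, rfl⟩
    rw [mem_singleton.1 hw] at hcr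
    exact hv hcr
  · rw [coe_rho, add_sub_cancel_left, Nb_apply]
    dsimp only
    by_cases hxy : a = x ∧ b = y
    · obtain ⟨rfl, rfl⟩ := hxy
      simp [h]
    · simp [hxy, sc_zero]

lemma rho_mem_KJ [NeZero p] {a b : Fin n} (h : a ≠ b) {J : Finset (Fin n)} (hJ : J.Nonempty)
    (hv : ∀ v ∈ J, ¬ crosses v a b) (P : Matrix (Fin M) (Fin M) (ZMod p)) :
    (rho h P : Ga n M p m) ∈ KJ n M p m J :=
  mem_KJ.2 ⟨Kv_le_GS _ (rho_mem_Kv h (hv _ hJ.choose_spec) P), fun v hv' => rho_mem_Kv h (hv v hv') P⟩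

lemma not_crosses_nxt {v a : Fin n} (h : v ≠ a) : ¬ crosses v a (nxt a) := by
  have := a.2
  have := v.2
  simp only [ne_eq, Fin.ext_iff, crosses_iff, nxt_val] at *
  split_ifs <;> omega

lemma not_crosses_nxt2 {v a : Fin n} (h : v ≠ a) (h' : v ≠ nxt a) :
    ¬ crosses v a (nxt (nxt a)) := by
  have := a.2
  have := v.2
  simp only [ne_eq, Fin.ext_iff, crosses_iff, nxt_val] at *
  split_ifs at * <;> omega

lemma nxt2_ne (hn : 3 ≤ n) (a : Fin n) : nxt (nxt a) ≠ a := by
  have := a.2
  simp only [ne_eq, Fin.ext_iff, nxt_val]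
  split_ifs <;> omega

lemma nxt_injective : Function.Injective (nxt : Fin n → Fin n) := fun a b h => by
  have := a.2
  have := b.2
  simp only [Fin.ext_iff, nxt_val] at *
  split_ifs at h <;> omega

/-- A position of the stabiliser of a face with two free types. -/
lemma free_pair (hn : 3 ≤ n) {J : Finset (Fin n)} (hJ : Jᶜ.card ≤ 2) {a b : Fin n} (hab : a ≠ b)
    (h : ∀ v ∈ J, ¬ crosses v a b) : a ∉ J ∧ (b = nxt a ∨ nxt a ∉ J ∧ b = nxt (nxt a)) := by
  have h0 := not_mem_of_not_crosses hab h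
  refine ⟨h0, ?_⟩
  by_contra hc
  push Not at hc
  have h1 : ∀ v ∈ J, ¬ crosses v (nxt a) b := fun v hv hcr =>
    h v hv (crosses_sub hab hc.1.symm hcr)
  have h1' := not_mem_of_not_crosses hc.1.symm h1
  have h2 : ∀ v ∈ J, ¬ crosses v (nxt (nxt a)) b := fun v hv hcr =>
    h1 v hv (crosses_sub hc.1.symm (hc.2 h1').symm hcr)
  have h2' := not_mem_of_not_crosses (hc.2 h1').symm h2
  have hsub : ({a, nxt a, nxt (nxt a)} : Finset (Fin n)) ⊆ Jᶜ := by
    intro x hx
    simp only [mem_insert, mem_singleton] at hx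
    rcases hx with rfl | rfl | rfl <;> simp [h0, h1', h2']
  have hcard : ({a, nxt a, nxt (nxt a)} : Finset (Fin n)).card = 3 := by
    rw [card_insert_of_notMem, card_pair (nxt_ne (by omega) _)]
    simp only [mem_insert, mem_singleton, not_or]
    exact ⟨nxt_ne (by omega) a, (nxt2_ne hn a).symm⟩
  have := card_le_card hsub
  omega

lemma vert_mul_of_mem {g k : Ga n M p m} {v : Fin n} (hk : k ∈ Kv n M p m v) :
    vert (g * k) v = vert g v :=
  congrArg (Sigma.mk v) (QuotientGroup.mk_mul_of_mem g hk)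

lemma vert_injective (g : Ga n M p m) : Function.Injective (vert g) :=
  fun _ _ h => congrArg Sigma.fst h

lemma eq_image_types {η : Finset (Vx n M p m)} {g : Ga n M p m} (h : η ⊆ chamber g) :
    η = (η.image Sigma.fst).image (vert g) := by
  have hv : ∀ x ∈ η, vert g x.1 = x := fun x hx => by
    obtain ⟨v, -, rfl⟩ := mem_map.1 (h hx)
    rfl
  rw [image_image]
  conv_lhs => rw [← image_id (s := η)]
  exact image_congr fun x hx => (hv x hx).symm

variable [Fintype (GS n M p m univ)]

/-- The chambers over a face are a coset of its stabiliser. -/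
lemma link_mem_iff {η : Finset (Vx n M p m)} {g : Ga n M p m} (hg : g ∈ GS n M p m univ)
    (h : η ⊆ chamber g) (q : GS n M p m univ) :
    η ⊆ (cx n M p m).ch q ↔ g⁻¹ * q.1 ∈ KJ n M p m (η.image Sigma.fst) := by
  show η ⊆ chamber q.1 ↔ _
  rw [mem_KJ]
  constructor
  · intro hq
    refine ⟨mul_mem (inv_mem hg) q.2, fun v hv => ?_⟩
    obtain ⟨x, hx, rfl⟩ := mem_image.1 hv
    obtain ⟨v, -, rfl⟩ := mem_map.1 (h hx)
    obtain ⟨w, -, hw⟩ := mem_map.1 (hq hx)
    obtain rfl : w = v := congrArg Sigma.fst hw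
    exact QuotientGroup.eq.1 (eq_of_heq (Sigma.mk.inj_iff.1 hw).2).symm
  · rintro ⟨-, hk⟩ x hx
    obtain ⟨v, -, rfl⟩ := mem_map.1 (h hx)
    refine mem_map.2 ⟨v, mem_univ v, ?_⟩
    show vert q.1 v = vert g v
    rw [show q.1 = g * (g⁻¹ * q.1) by group]
    exact vert_mul_of_mem (hk v (mem_image.2 ⟨_, hx, rfl⟩))

/-- The chambers of the link of a face. -/
lemma link_ch {η : Finset (Vx n M p m)}
    (q : {q : GS n M p m univ // η ⊆ (cx n M p m).ch q}) :
    ((cx n M p m).link η).ch q = (η.image Sigma.fst)ᶜ.image (vert q.1.1) := by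
  have hη : η = (η.image Sigma.fst).image (vert q.1.1) := eq_image_types q.2
  show chamber q.1.1 \ η = _
  refine (congrArg (chamber q.1.1 \ ·) hη).trans ?_
  rw [show chamber q.1.1 = (univ : Finset (Fin n)).image (vert q.1.1) by
    rw [chamber, map_eq_image]; rfl, ← image_sdiff _ _ (vert_injective _), compl_eq_univ_sdiff]

omit [Fintype (GS n M p m univ)] in
lemma card_types {η : Finset (Vx n M p m)} {g : Ga n M p m} (h : η ⊆ chamber g) :
    (η.image Sigma.fst)ᶜ.card = n - η.card := by
  rw [card_compl, Fintype.card_fin]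
  congr 1
  conv_rhs => rw [eq_image_types h, card_image_of_injective _ (vert_injective g)]

/-- The links of faces leaving at least two types are connected. -/
theorem link_conn [NeZero p] (hn : 3 ≤ n) (hm : 2 ≤ m) {η : Finset (Vx n M p m)}
    (hη : η ∈ (cx n M p m).complex) (hcard : η.card + 2 ≤ n) (h : Vx n M p m → ℝ)
    (hh : ∀ q, ∀ x ∈ ((cx n M p m).link η).ch q, ∀ y ∈ ((cx n M p m).link η).ch q, h x = h y) :
    ∃ a, ∀ q, ∀ x ∈ ((cx n M p m).link η).ch q, h x = a := by
  obtain ⟨q₀, hq₀⟩ := hη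
  set g := q₀.1
  set J := η.image Sigma.fst with hJ
  have h2 : 1 < Jᶜ.card := by rw [card_types hq₀]; omega
  obtain ⟨u₀, hu₀⟩ : Jᶜ.Nonempty := card_pos.1 (by omega)
  have hconst : ∀ k ∈ KJ n M p m J, ∀ u ∈ Jᶜ, h (vert (g * k) u) = h (vert (g * k) u₀) := by
    intro k hk u hu
    let q : {q : GS n M p m univ // η ⊆ (cx n M p m).ch q} :=
      ⟨⟨g * k, mul_mem q₀.2 (mem_KJ.1 hk).1⟩, (link_mem_iff q₀.2 hq₀ _).2 (by show g⁻¹ * (g * k) ∈ _; rw [inv_mul_cancel_left]; exact hk)⟩
    exact hh q _ (by rw [link_ch]; exact mem_image_of_mem _ hu) _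
      (by rw [link_ch]; exact mem_image_of_mem _ hu₀)
  have hroot : ∀ k ∈ KJ n M p m J, ∀ r ∈ rootsJ n M p m J,
      h (vert (g * (k * r)) u₀) = h (vert (g * k) u₀) := by
    rintro k hk _ ⟨i, j, a, c, ha, rfl⟩
    obtain ⟨u, hu, hua⟩ := exists_mem_ne h2 a
    have hr := root_mem_KJ (n := n) (M := M) (p := p) (m := m) (by omega) i j ha c
    have hru : psi n M p m (tv (i, a) (j, nxt a) (sc p m c * te p m a (nxt a))) ∈
        Kv n M p m u :=
      (mem_KJ.1 (root_mem_KJ (J := ({u} : Finset (Fin n))) (by omega) i j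
        (by simpa using Ne.symm hua) c)).2 u (mem_singleton_self u)
    rw [← hconst _ (mul_mem hk hr) u hu, ← hconst k hk u hu, ← mul_assoc, vert_mul_of_mem hru]
  have hall : ∀ k ∈ Subgroup.closure (rootsJ n M p m J),
      h (vert (g * k) u₀) = h (vert g u₀) := by
    intro k hk
    induction hk using Subgroup.closure_induction_right with
    | one => rw [mul_one]
    | mul_right x hx y hy ih =>
      rw [hroot x ((closure_rootsJ hn hm J).le hx) y hy]
      exact ih
    | mul_inv_cancel x hx y hy ih =>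
      have hy' : y ∈ KJ n M p m J := (closure_rootsJ hn hm J).le (Subgroup.subset_closure hy)
      have := hroot _ (mul_mem ((closure_rootsJ hn hm J).le hx) (inv_mem hy')) y hy
      rw [inv_mul_cancel_right] at this
      rw [← this]
      exact ih
  refine ⟨h (vert g u₀), fun q x hx => ?_⟩
  rw [link_ch] at hx
  obtain ⟨u, hu, rfl⟩ := mem_image.1 hx
  have hk := (link_mem_iff q₀.2 hq₀ q.1).1 q.2
  have := hconst _ hk u hu
  rw [mul_inv_cancel_left] at this
  rw [this, ← hall _ ((closure_rootsJ hn hm J).ge hk), mul_inv_cancel_left]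

lemma sum_shift {X Y : Type*} [Fintype X] [Fintype Y] [AddCommGroup Y] (d : X → X → Y)
    (φ : X → Y → ℝ) :
    ∑ x : X × X × Y, φ x.1 (x.2.2 - d x.1 x.2.1) = (Fintype.card X : ℝ) * ∑ x : X × Y, φ x.1 x.2 := by
  rw [Fintype.sum_prod_type, Fintype.sum_prod_type, Finset.mul_sum]
  refine sum_congr rfl fun P _ => ?_
  rw [Fintype.sum_prod_type]
  have : ∀ R : X, ∑ T : Y, φ P (T - d P R) = ∑ T : Y, φ P T := fun R =>
    Fintype.sum_equiv (Equiv.subRight (d P R)) _ _ fun T => rfl
  simp only [this, sum_const, card_univ, nsmul_eq_mul]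

/-- The two-type links mix as well as the block point-line graph. -/
theorem link_gap [NeZero p] (hn : 3 ≤ n) (hm : 2 ≤ m) {l : ℝ} (hl : 0 ≤ l)
    (hbase : ∀ f g : Matrix (Fin M) (Fin M) (ZMod p) × Matrix (Fin M) (Fin M) (ZMod p) → ℝ,
      (∑ x, f x) + (∑ x, g x) = 0 →
      2 * ∑ P, ∑ R, ∑ T, f (P, T) * g (R, T + P * R) ≤
        l * Fintype.card (Matrix (Fin M) (Fin M) (ZMod p)) *
          ((∑ x, f x ^ 2) + ∑ x, g x ^ 2))
    {η : Finset (Vx n M p m)} (hη : η ∈ (cx n M p m).complex) (hcard : η.card + 2 = n)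
    (h : Vx n M p m → ℝ)
    (h0 : ∑ q, ∑ x ∈ ((cx n M p m).link η).ch q, h x = 0) :
    ∑ q, ((∑ x ∈ ((cx n M p m).link η).ch q, h x) ^ 2 -
        ∑ x ∈ ((cx n M p m).link η).ch q, h x ^ 2) ≤
      l * ∑ q, ∑ x ∈ ((cx n M p m).link η).ch q, h x ^ 2 := by
  obtain ⟨q₀, hq₀⟩ := hη
  set g := q₀.1
  set J := η.image Sigma.fst with hJdef
  have h2 : Jᶜ.card = 2 := by rw [card_types hq₀]; omega
  have hJ : J.Nonempty := by
    rw [nonempty_iff_ne_empty]
    intro he
    rw [he, compl_empty, card_univ, Fintype.card_fin] at h2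
    omega
  let e : {q : GS n M p m univ // η ⊆ (cx n M p m).ch q} ≃ KJ n M p m J :=
    { toFun := fun q => ⟨g⁻¹ * q.1.1, (link_mem_iff q₀.2 hq₀ q.1).1 q.2⟩
      invFun := fun k => ⟨⟨g * k.1, mul_mem q₀.2 (mem_KJ.1 k.2).1⟩,
        (link_mem_iff q₀.2 hq₀ _).2 (by show g⁻¹ * (g * k.1) ∈ _; rw [inv_mul_cancel_left]; exact k.2)⟩
      left_inv := fun q => Subtype.ext (Subtype.ext (by simp))
      right_inv := fun k => Subtype.ext (by simp) }
  -- one transfer for any parametrisation and any two types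
  have transfer : ∀ {ι : Type} [Fintype ι] (φ : ι → Ga n M p m) (u w : Fin n), u ≠ w →
      Jᶜ = {u, w} → Function.Injective φ → (∀ x, φ x ∈ KJ n M p m J) →
      (∀ k ∈ KJ n M p m J, ∃ x, φ x = k) → ∀ F : ℝ → ℝ → ℝ,
      (∑ q, F (∑ x ∈ ((cx n M p m).link η).ch q, h x)
        (∑ x ∈ ((cx n M p m).link η).ch q, h x ^ 2)) =
      ∑ x, F (h (vert (g * φ x) u) + h (vert (g * φ x) w))
        (h (vert (g * φ x) u) ^ 2 + h (vert (g * φ x) w) ^ 2) := by
    intro ι _ φ u w huw hJc hφ hmem hsurj F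
    let e' : ι ≃ {q : GS n M p m univ // η ⊆ (cx n M p m).ch q} :=
      (Equiv.ofBijective (fun x => (⟨φ x, hmem x⟩ : KJ n M p m J))
        ⟨fun x y hxy => hφ (congrArg Subtype.val hxy), fun k => by
          obtain ⟨x, hx⟩ := hsurj k.1 k.2
          exact ⟨x, Subtype.ext hx⟩⟩).trans e.symm
    refine (Fintype.sum_equiv e' _ _ fun x => ?_).symm
    rw [link_ch, ← hJdef, hJc, sum_image fun _ _ _ _ hxy => vert_injective _ hxy,
      sum_image fun _ _ _ _ hxy => vert_injective _ hxy, sum_pair huw, sum_pair huw]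
    rfl
  have hneq : ∀ a : Fin n, a ≠ nxt a := nxt_ne (by omega)
  by_cases hadj : ∃ u, Jᶜ = {u, nxt u}
  · obtain ⟨u, hJc⟩ := hadj
    set w := nxt u with hw
    set z := nxt w with hz
    have huw : u ≠ w := hneq u
    have hwz : w ≠ z := hneq w
    have huz : u ≠ z := (nxt2_ne hn u).symm
    have hmemJ : ∀ v, v ∈ J ↔ v ≠ u ∧ v ≠ w := fun v => by
      constructor
      · intro hv
        have : v ∉ Jᶜ := by simp [hv]
        simpa [hJc] using this
      · intro hv
        by_contra h'
        have : v ∈ Jᶜ := by simp [h']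
        rw [hJc] at this
        simp [hv.1, hv.2] at this
    have hm1 : ∀ v ∈ J, ¬ crosses v u w := fun v hv => not_crosses_nxt ((hmemJ v).1 hv).1
    have hm2 : ∀ v ∈ J, ¬ crosses v w z := fun v hv => not_crosses_nxt ((hmemJ v).1 hv).2
    have hm3 : ∀ v ∈ J, ¬ crosses v u z := fun v hv =>
      not_crosses_nxt2 ((hmemJ v).1 hv).1 ((hmemJ v).1 hv).2
    have hte : te p m u w * te p m w z = te p m u z := by
      obtain ⟨v, hv⟩ := hJ
      exact (not_crosses_trans huw hwz (hm1 v hv) (hm2 v hv)).2.2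
    let X := Matrix (Fin M) (Fin M) (ZMod p)
    let φ : X × X × X → Ga n M p m := fun x =>
      rho huz x.2.2 * rho hwz x.2.1 * rho huw x.1
    have hφc : ∀ x, (φ x : BM n M p m) = 1 + Nb u w x.1 + Nb w z x.2.1 + Nb u z x.2.2 := fun x => by
      simp only [φ, Units.val_mul, coe_rho, mul_add, add_mul, one_mul, mul_one,
        Nb_mul_eq_zero hwz.symm, Nb_mul_eq_zero huz.symm, zero_mul, add_zero]
      abel
    have hφ : Function.Injective φ := fun x y hxy => by
      have hent := fun i j a b => congrFun (congrFun (congrFun (congrFun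
        (congrArg (fun k : Ga n M p m => (k : BM n M p m)) hxy) i) j) a) b
      simp only [hφc, Matrix.add_apply, Nb_apply, one_BM_apply] at hent
      refine Prod.ext (Matrix.ext fun i j => ?_) (Prod.ext (Matrix.ext fun i j => ?_)
        (Matrix.ext fun i j => ?_))
      · have := hent i j u w
        simp only [and_self, if_true, huw, huw.symm, hwz, hwz.symm, huz, huz.symm, false_and,
          and_false, if_false, add_zero] at this
        exact sc_mul_te_injective hm (add_left_cancel this)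
      · have := hent i j w z
        simp only [and_self, if_true, huw, huw.symm, hwz, hwz.symm, huz, huz.symm, false_and,
          and_false, if_false, add_zero] at this
        exact sc_mul_te_injective hm (add_left_cancel this)
      · have := hent i j u z
        simp only [and_self, if_true, huw, huw.symm, hwz, hwz.symm, huz, huz.symm, false_and,
          and_false, if_false, add_zero] at this
        exact sc_mul_te_injective hm (add_left_cancel this)
    have hmem : ∀ x, φ x ∈ KJ n M p m J := fun x =>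
      mul_mem (mul_mem (rho_mem_KJ huz hJ hm3 _) (rho_mem_KJ hwz hJ hm2 _))
        (rho_mem_KJ huw hJ hm1 _)
    have hsurj : ∀ k ∈ KJ n M p m J, ∃ x, φ x = k := by
      intro k hk
      have hK := (mem_KJ_iff_KSet hm hJ).1 hk
      choose c hc hx using hK
      refine ⟨(Matrix.of fun i j => c i j u w, Matrix.of fun i j => c i j w z,
        Matrix.of fun i j => c i j u z), Units.ext ?_⟩
      rw [hφc, add_assoc, add_assoc, eq_comm, ← sub_eq_iff_eq_add']
      refine Matrix.ext fun i j => Matrix.ext fun a b => ?_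
      rw [hx]
      simp only [Matrix.add_apply, Nb_apply]
      simp only [Matrix.of_apply]
      by_cases hab : a = b
      · subst hab
        rw [if_pos rfl, if_neg, if_neg, if_neg, add_zero, add_zero]
        · rintro ⟨rfl, h'⟩; exact huz h'.symm
        · rintro ⟨rfl, h'⟩; exact hwz h'.symm
        · rintro ⟨rfl, h'⟩; exact huw h'.symm
      rw [if_neg hab]
      by_cases hz0 : ∃ v ∈ J, crosses v a b
      · obtain ⟨v, hv, hcr⟩ := hz0
        rw [hc i j v hv a b hcr, sc_zero, zero_mul, if_neg, if_neg, if_neg, add_zero, add_zero]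
        · rintro ⟨rfl, rfl⟩; exact hm3 v hv hcr
        · rintro ⟨rfl, rfl⟩; exact hm2 v hv hcr
        · rintro ⟨rfl, rfl⟩; exact hm1 v hv hcr
      push Not at hz0
      obtain ⟨ha, hb⟩ := free_pair hn h2.le hab hz0
      have ha' : a = u ∨ a = w := by
        have : a ∈ Jᶜ := mem_compl.2 ha
        rwa [hJc, mem_insert, mem_singleton] at this
      rcases ha' with rfl | rfl
      · rcases hb with rfl | ⟨-, rfl⟩
        · simp [huw, huw.symm, hwz, hwz.symm, huz, huz.symm, ← hw, ← hz]
        · simp [huw, huw.symm, hwz, hwz.symm, huz, huz.symm, ← hw, ← hz]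
      · rcases hb with rfl | ⟨hnot, -⟩
        · simp [huw, huw.symm, hwz, hwz.symm, huz, huz.symm, ← hz]
        · exact absurd ((hmemJ _).2 ⟨huz.symm, hwz.symm⟩) hnot
    set f : X × X → ℝ := fun x => h (vert (g * (rho huz x.2 * rho huw x.1)) u) with hf
    set f' : X × X → ℝ := fun x => h (vert (g * (rho huz x.2 * rho hwz x.1)) w) with hf'
    have hu : ∀ x : X × X × X, h (vert (g * φ x) u) = f (x.1, x.2.2 - x.1 * x.2.1) := fun x => by
      have hk : φ x = rho huz (x.2.2 - x.1 * x.2.1) * rho huw x.1 * rho hwz x.2.1 := by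
        refine Units.ext ?_
        rw [hφc]
        simp only [Units.val_mul, coe_rho, mul_add, add_mul, one_mul, mul_one,
          Nb_mul_eq_zero hwz.symm, Nb_mul_eq_zero huz.symm, Nb_mul hte, zero_mul]
        rw [show x.2.2 = (x.2.2 - x.1 * x.2.1) + x.1 * x.2.1 from (sub_add_cancel _ _).symm,
          Nb_add, add_sub_cancel_right]
        abel
      rw [hk, ← mul_assoc g, vert_mul_of_mem (rho_mem_Kv hwz (not_crosses_nxt huw) _)]
    have hw' : ∀ x : X × X × X, h (vert (g * φ x) w) = f' (x.2.1, x.2.2) := fun x => by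
      simp only [φ]
      rw [← mul_assoc g, vert_mul_of_mem (rho_mem_Kv huw (not_crosses_nxt huw.symm) _)]
    have t1 := transfer φ u w huw hJc hφ hmem hsurj (fun s _ => s)
    have t2 := transfer φ u w huw hJc hφ hmem hsurj (fun _ s => s)
    have t3 := transfer φ u w huw hJc hφ hmem hsurj (fun s t => s ^ 2 - t)
    beta_reduce at t1 t2 t3
    rw [t1] at h0
    rw [t2, t3]
    simp only [hu, hw'] at h0 ⊢
    have key : ∀ F : X × X → ℝ, (∑ x : X × X × X, F (x.1, x.2.2 - x.1 * x.2.1)) =
        (Fintype.card X : ℝ) * ∑ x, F x := fun F => sum_shift (fun P R => P * R) fun P T => F (P, T)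
    have key' : ∀ F : X × X → ℝ, (∑ x : X × X × X, F (x.2.1, x.2.2)) =
        (Fintype.card X : ℝ) * ∑ x, F x := fun F => by
      rw [Fintype.sum_prod_type]
      simp only [sum_const, card_univ, nsmul_eq_mul]
    rw [sum_add_distrib, key f, key' f', ← mul_add] at h0
    have hX : (Fintype.card X : ℝ) ≠ 0 := Nat.cast_ne_zero.2 Fintype.card_ne_zero
    have hb := hbase f f' ((mul_eq_zero.1 h0).resolve_left hX)
    rw [sum_add_distrib, key (fun x => f x ^ 2), key' (fun x => f' x ^ 2), ← mul_add, ← mul_assoc]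
    refine le_trans (le_of_eq ?_) hb
    rw [sum_congr rfl fun x _ => (by ring : (f (x.1, x.2.2 - x.1 * x.2.1) + f' (x.2.1, x.2.2)) ^ 2 -
      (f (x.1, x.2.2 - x.1 * x.2.1) ^ 2 + f' (x.2.1, x.2.2) ^ 2) =
        2 * (f (x.1, x.2.2 - x.1 * x.2.1) * f' (x.2.1, x.2.2))), ← mul_sum, Fintype.sum_prod_type]
    congr 1
    refine sum_congr rfl fun P _ => ?_
    rw [Fintype.sum_prod_type]
    refine sum_congr rfl fun R _ => ?_
    exact Fintype.sum_equiv (Equiv.subRight (P * R)) _ _ fun S => by simp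
  · push Not at hadj
    obtain ⟨u, w, huw, hJc⟩ := card_eq_two.1 h2
    have hwu : w ≠ nxt u := fun h' => hadj u (h' ▸ hJc)
    have huw' : u ≠ nxt w := fun h' => hadj w (h' ▸ (hJc.trans (pair_comm u w)))
    have hu' : u ≠ nxt u := hneq u
    have hw2 : w ≠ nxt w := hneq w
    have hmemJ : ∀ v, v ∈ J ↔ v ≠ u ∧ v ≠ w := fun v => by
      constructor
      · intro hv
        have : v ∉ Jᶜ := by simp [hv]
        simpa [hJc] using this
      · intro hv
        by_contra h'
        have : v ∈ Jᶜ := by simp [h']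
        rw [hJc] at this
        simp [hv.1, hv.2] at this
    have hm1 : ∀ v ∈ J, ¬ crosses v u (nxt u) := fun v hv => not_crosses_nxt ((hmemJ v).1 hv).1
    have hm2 : ∀ v ∈ J, ¬ crosses v w (nxt w) := fun v hv => not_crosses_nxt ((hmemJ v).1 hv).2
    let X := Matrix (Fin M) (Fin M) (ZMod p)
    let φ : X × X → Ga n M p m := fun x => rho hu' x.1 * rho hw2 x.2
    have hφc : ∀ x, (φ x : BM n M p m) = 1 + Nb u (nxt u) x.1 + Nb w (nxt w) x.2 := fun x => by
      simp only [φ, Units.val_mul, coe_rho, mul_add, add_mul, one_mul, mul_one,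
        Nb_mul_eq_zero hwu.symm, add_zero]
    have hne : ¬(w = u ∧ nxt w = nxt u) := fun h' => huw h'.1.symm
    have hne' : ¬(u = w ∧ nxt u = nxt w) := fun h' => huw h'.1
    have hφ : Function.Injective φ := fun x y hxy => by
      have hent := fun i j a b => congrFun (congrFun (congrFun (congrFun
        (congrArg (fun k : Ga n M p m => (k : BM n M p m)) hxy) i) j) a) b
      simp only [hφc, Matrix.add_apply, Nb_apply, one_BM_apply] at hent
      refine Prod.ext (Matrix.ext fun i j => ?_) (Matrix.ext fun i j => ?_)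
      · have := hent i j u (nxt u)
        simp only [and_self, if_true, hne, huw.symm, false_and, if_false, add_zero] at this
        exact sc_mul_te_injective hm (add_left_cancel this)
      · have := hent i j w (nxt w)
        simp only [and_self, if_true, huw, false_and, if_false, add_zero] at this
        exact sc_mul_te_injective hm (add_left_cancel this)
    have hmem : ∀ x, φ x ∈ KJ n M p m J := fun x =>
      mul_mem (rho_mem_KJ hu' hJ hm1 _) (rho_mem_KJ hw2 hJ hm2 _)
    have hsurj : ∀ k ∈ KJ n M p m J, ∃ x, φ x = k := by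
      intro k hk
      have hK := (mem_KJ_iff_KSet hm hJ).1 hk
      choose c hc hx using hK
      refine ⟨(Matrix.of fun i j => c i j u (nxt u), Matrix.of fun i j => c i j w (nxt w)),
        Units.ext ?_⟩
      rw [hφc, add_assoc, eq_comm, ← sub_eq_iff_eq_add']
      refine Matrix.ext fun i j => Matrix.ext fun a b => ?_
      rw [hx, Matrix.add_apply, Matrix.add_apply, Nb_apply, Nb_apply]
      simp only [Matrix.of_apply]
      by_cases hab : a = b
      · subst hab
        rw [if_pos rfl, if_neg, if_neg, add_zero]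
        · rintro ⟨rfl, h'⟩; exact hw2 h'.symm
        · rintro ⟨rfl, h'⟩; exact hu' h'.symm
      rw [if_neg hab]
      by_cases hz0 : ∃ v ∈ J, crosses v a b
      · obtain ⟨v, hv, hcr⟩ := hz0
        rw [hc i j v hv a b hcr, sc_zero, zero_mul, if_neg, if_neg, add_zero]
        · rintro ⟨rfl, rfl⟩; exact hm2 v hv hcr
        · rintro ⟨rfl, rfl⟩; exact hm1 v hv hcr
      push Not at hz0
      obtain ⟨ha, hb⟩ := free_pair hn h2.le hab hz0
      have ha' : a = u ∨ a = w := by
        have : a ∈ Jᶜ := mem_compl.2 ha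
        rwa [hJc, mem_insert, mem_singleton] at this
      rcases ha' with rfl | rfl
      · rcases hb with rfl | ⟨hnot, -⟩
        · rw [if_pos (⟨rfl, rfl⟩ : a = a ∧ nxt a = nxt a), if_neg hne, add_zero]
        · exact absurd ((hmemJ _).2 ⟨hu'.symm, hwu.symm⟩) hnot
      · rcases hb with rfl | ⟨hnot, -⟩
        · rw [if_pos (⟨rfl, rfl⟩ : a = a ∧ nxt a = nxt a), if_neg hne', zero_add]
        · exact absurd ((hmemJ _).2 ⟨huw'.symm, hw2.symm⟩) hnot
    set f : X → ℝ := fun P => h (vert (g * rho hu' P) u) with hf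
    set f' : X → ℝ := fun R => h (vert (g * rho hw2 R) w) with hf'
    have hu : ∀ x : X × X, h (vert (g * φ x) u) = f x.1 := fun x => by
      simp only [φ]
      rw [← mul_assoc g, vert_mul_of_mem (rho_mem_Kv hw2 (not_crosses_nxt huw) _)]
    have hw' : ∀ x : X × X, h (vert (g * φ x) w) = f' x.2 := fun x => by
      have hk : φ x = rho hw2 x.2 * rho hu' x.1 := by
        refine Units.ext ?_
        rw [hφc]
        simp only [Units.val_mul, coe_rho, mul_add, add_mul, one_mul, mul_one,
          Nb_mul_eq_zero huw'.symm, add_zero]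
        abel
      rw [hk, ← mul_assoc g, vert_mul_of_mem (rho_mem_Kv hu' (not_crosses_nxt huw.symm) _)]
    have t1 := transfer φ u w huw hJc hφ hmem hsurj (fun s _ => s)
    have t2 := transfer φ u w huw hJc hφ hmem hsurj (fun _ s => s)
    have t3 := transfer φ u w huw hJc hφ hmem hsurj (fun s t => s ^ 2 - t)
    beta_reduce at t1 t2 t3
    rw [t1] at h0
    rw [t2, t3]
    simp only [hu, hw'] at h0 ⊢
    rw [sum_add_distrib, Fintype.sum_prod_type, Fintype.sum_prod_type] at h0
    simp only [sum_const, card_univ, nsmul_eq_mul, ← mul_sum, ← mul_add] at h0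
    have hX : (Fintype.card X : ℝ) ≠ 0 := Nat.cast_ne_zero.2 Fintype.card_ne_zero
    have hs := (mul_eq_zero.1 h0).resolve_left hX
    rw [sum_congr rfl fun x _ => (by ring : (f x.1 + f' x.2) ^ 2 - (f x.1 ^ 2 + f' x.2 ^ 2) =
      2 * (f x.1 * f' x.2)), ← mul_sum, Fintype.sum_prod_type, ← sum_mul_sum]
    have hnn : 0 ≤ l * ∑ x : X × X, (f x.1 ^ 2 + f' x.2 ^ 2) :=
      mul_nonneg hl (sum_nonneg fun x _ => add_nonneg (sq_nonneg _) (sq_nonneg _))
    rw [eq_neg_of_add_eq_zero_right hs]
    nlinarith [sq_nonneg (∑ P, f P)]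

end Vale.Agent.P067.Full.Grp
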