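import Vale.Agent.P067.Full.Defs

/-!
# P067 full answer: trickle-down of the one-sided spectral gap

`GapOn T ch n l` : on functions of mean zero the form `Σ_q Σ_{x ≠ y in ch q} h x h y` is at most
`l (n - 1)` times the square norm. Gaps of the links and connectivity give gaps below (Oppenheim).
-/

open Finset

noncomputable section

namespace Vale.Agent.P067.Full.Trickle

open scoped Classical

variable {V P : Type}

/-- The sum over incidences. -/
def s1 (T : Finset P) (ch : P → Finset V) (h : V → ℝ) : ℝ := ∑ q ∈ T, ∑ x ∈ ch q, h x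

/-- The sum over ordered pairs of distinct vertices of a top face. -/
def sq (T : Finset P) (ch : P → Finset V) (h : V → ℝ) : ℝ :=
  ∑ q ∈ T, ((∑ x ∈ ch q, h x) ^ 2 - ∑ x ∈ ch q, h x ^ 2)

/-- The one-sided spectral gap. -/
def GapOn (T : Finset P) (ch : P → Finset V) (n : ℕ) (l : ℝ) : Prop :=
  ∀ h : V → ℝ, s1 T ch h = 0 → sq T ch h ≤ l * ((n : ℝ) - 1) * s1 T ch (fun x => h x ^ 2)

/-- Connectivity on a set of top faces. -/
def ConnOn (T : Finset P) (ch : P → Finset V) : Prop :=
  ∀ h : V → ℝ, (∀ q ∈ T, ∀ x ∈ ch q, ∀ y ∈ ch q, h x = h y) →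
    ∃ a, ∀ q ∈ T, ∀ x ∈ ch q, h x = a

section Identities

variable (T : Finset P) (ch : P → Finset V) {n : ℕ}

theorem s1_shift (hch : ∀ q ∈ T, (ch q).card = n) (h : V → ℝ) (a : ℝ) :
    s1 T ch (fun x => h x - a) = s1 T ch h - a * n * T.card := by
  unfold s1
  rw [show (a * n * T.card : ℝ) = ∑ _q ∈ T, a * n by rw [sum_const, nsmul_eq_mul]; ring,
    ← sum_sub_distrib]
  refine sum_congr rfl fun q hq => ?_
  rw [sum_sub_distrib, sum_const, hch q hq, nsmul_eq_mul]
  ring

theorem s1_sq_shift (hch : ∀ q ∈ T, (ch q).card = n) (h : V → ℝ) (a : ℝ) :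
    s1 T ch (fun x => (h x - a) ^ 2) =
      s1 T ch (fun x => h x ^ 2) - 2 * a * s1 T ch h + a ^ 2 * n * T.card := by
  unfold s1
  rw [show (a ^ 2 * n * T.card : ℝ) = ∑ _q ∈ T, a ^ 2 * n by rw [sum_const, nsmul_eq_mul]; ring,
    mul_sum, ← sum_sub_distrib, ← sum_add_distrib]
  refine sum_congr rfl fun q hq => ?_
  rw [mul_sum, ← sum_sub_distrib,
    show (a ^ 2 * n : ℝ) = ∑ _x ∈ ch q, a ^ 2 by rw [sum_const, hch q hq, nsmul_eq_mul]; ring,
    ← sum_add_distrib]
  exact sum_congr rfl fun x _ => by ring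

theorem sq_shift (hch : ∀ q ∈ T, (ch q).card = n) (h : V → ℝ) (a : ℝ) :
    sq T ch (fun x => h x - a) =
      sq T ch h - 2 * a * ((n : ℝ) - 1) * s1 T ch h + a ^ 2 * n * ((n : ℝ) - 1) * T.card := by
  unfold Trickle.sq s1
  rw [show (a ^ 2 * n * ((n : ℝ) - 1) * T.card : ℝ) = ∑ _q ∈ T, a ^ 2 * n * ((n : ℝ) - 1) by
    rw [sum_const, nsmul_eq_mul]; ring, mul_sum, ← sum_sub_distrib, ← sum_add_distrib]
  refine sum_congr rfl fun q hq => ?_
  have h2 : ∑ x ∈ ch q, (h x - a) ^ 2 =
      ∑ x ∈ ch q, h x ^ 2 - 2 * a * ∑ x ∈ ch q, h x + a ^ 2 * n := by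
    rw [show (a ^ 2 * n : ℝ) = ∑ _x ∈ ch q, a ^ 2 by rw [sum_const, hch q hq, nsmul_eq_mul]; ring,
      mul_sum, ← sum_sub_distrib, ← sum_add_distrib]
    exact sum_congr rfl fun x _ => by ring
  rw [sum_sub_distrib, sum_const, hch q hq, nsmul_eq_mul, h2]
  ring

/-- The gap in inhomogeneous form. -/
theorem gap_inhom (hn : 1 ≤ n) (hch : ∀ q ∈ T, (ch q).card = n) {l : ℝ} (hg : GapOn T ch n l)
    (h : V → ℝ) :
    sq T ch h ≤ l * ((n : ℝ) - 1) * s1 T ch (fun x => h x ^ 2) +
      (1 - l) * ((n : ℝ) - 1) * (s1 T ch h ^ 2 / (n * T.card)) := by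
  rcases T.eq_empty_or_nonempty with rfl | hT
  · simp only [Trickle.sq, Trickle.s1, sum_empty]
    norm_num
  have hc : (0 : ℝ) < T.card := by exact_mod_cast card_pos.2 hT
  have hn' : (0 : ℝ) < n := by exact_mod_cast hn
  set a := s1 T ch h / (n * T.card) with ha
  have h0 : s1 T ch (fun x => h x - a) = 0 := by
    rw [s1_shift T ch hch, ha]; field_simp; ring
  have h1 := hg _ h0
  rw [sq_shift T ch hch, s1_sq_shift T ch hch] at h1
  have e : s1 T ch h = a * n * T.card := by rw [ha]; field_simp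
  clear_value a
  clear ha
  have e2 : s1 T ch h ^ 2 / (n * T.card) = a ^ 2 * n * T.card := by
    rw [e, pow_two, mul_div_assoc, mul_assoc a, mul_assoc a, mul_div_assoc,
      div_self (mul_pos hn' hc).ne']
    ring
  rw [e2]
  rw [e] at h1
  nlinarith [h1]

end Identities

section Step

variable {T : Finset P} {ch : P → Finset V} {n : ℕ} [DecidableEq V]

/-- The trickle-down step. -/
theorem gap_step (hn : 3 ≤ n) (hch : ∀ q ∈ T, (ch q).card = n) {l : ℝ} (hl : l < 1)
    (hlink : ∀ x, GapOn (T.filter fun q => x ∈ ch q) (fun q => (ch q).erase x) (n - 1) l)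
    (hconn : ConnOn T ch) : GapOn T ch n (l / (1 - l)) := by
  set U := T.biUnion ch with hU
  set N : ℝ := (n : ℝ) - 1 with hN
  have hn' : (3 : ℝ) ≤ n := by exact_mod_cast hn
  have hN2 : 2 ≤ N := by rw [hN]; linarith
  -- the weights and the averaging operator
  set w : V → ℝ := fun x => ((T.filter fun q => x ∈ ch q).card : ℝ) with hw
  set L : (V → ℝ) → V → ℝ := fun h x =>
    ∑ q ∈ T.filter (fun q => x ∈ ch q), (∑ y ∈ ch q, h y - h x) with hL
  have hswap : ∀ F : P → V → ℝ,
      ∑ x ∈ U, ∑ q ∈ T.filter (fun q => x ∈ ch q), F q x = ∑ q ∈ T, ∑ x ∈ ch q, F q x := by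
    intro F
    rw [sum_comm' (s' := fun q => ch q) (t' := T)]
    intro x q
    simp only [hU, mem_biUnion, mem_filter]
    exact ⟨fun ⟨_, hq, hx⟩ => ⟨hx, hq⟩, fun ⟨hx, hq⟩ => ⟨⟨q, hq, hx⟩, hq, hx⟩⟩
  have hs1 : ∀ h : V → ℝ, s1 T ch h = ∑ x ∈ U, w x * h x := by
    intro h
    rw [s1, ← hswap]
    exact sum_congr rfl fun x _ => by rw [sum_const, nsmul_eq_mul]
  have hLsum : ∀ h : V → ℝ, ∑ x ∈ U, L h x = N * s1 T ch h := by
    intro h
    rw [hL]
    simp only
    rw [hswap fun q x => ∑ y ∈ ch q, h y - h x, s1, mul_sum]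
    refine sum_congr rfl fun q hq => ?_
    rw [sum_sub_distrib, sum_const, hch q hq, nsmul_eq_mul, hN]
    ring
  have hbil : ∀ g h : V → ℝ, ∑ x ∈ U, g x * L h x =
      ∑ q ∈ T, ((∑ x ∈ ch q, g x) * (∑ x ∈ ch q, h x) - ∑ x ∈ ch q, g x * h x) := by
    intro g h
    rw [hL]
    simp only [mul_sum]
    rw [hswap fun q x => g x * (∑ y ∈ ch q, h y - h x)]
    refine sum_congr rfl fun q _ => ?_
    rw [← mul_sum, sum_mul, ← sum_sub_distrib]
    exact sum_congr rfl fun x _ => by ring
  have hsq : ∀ h : V → ℝ, sq T ch h = ∑ x ∈ U, h x * L h x := by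
    intro h
    rw [hbil]
    unfold Trickle.sq
    exact sum_congr rfl fun q _ => by
      rw [pow_two, show ∑ x ∈ ch q, h x * h x = ∑ x ∈ ch q, h x ^ 2 from
        sum_congr rfl fun x _ => by ring]
  -- summing the gaps of the links
  have hgar : ∀ h : V → ℝ, sq T ch h ≤ l * N * s1 T ch (fun x => h x ^ 2) +
      (1 - l) * ∑ x ∈ U, L h x ^ 2 / (N * w x) := by
    intro h
    have h1 := sum_le_sum fun x (_ : x ∈ U) =>
      gap_inhom (T.filter fun q => x ∈ ch q) (fun q => (ch q).erase x) (n := n - 1) (by omega)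
        (fun q hq => by rw [card_erase_of_mem (mem_filter.1 hq).2, hch q (mem_filter.1 hq).1])
        (hlink x) h
    have hcast : (((n - 1 : ℕ) : ℝ)) = N := by rw [hN, Nat.cast_sub (by omega)]; simp
    rw [hcast] at h1
    have eL : ∀ x, s1 (T.filter fun q => x ∈ ch q) (fun q => (ch q).erase x) h = L h x := by
      intro x
      rw [s1, hL]
      exact sum_congr rfl fun q hq => sum_erase_eq_sub (mem_filter.1 hq).2
    simp only [eL, sum_add_distrib, ← mul_sum] at h1
    have e1 : ∑ x ∈ U, s1 (T.filter fun q => x ∈ ch q) (fun q => (ch q).erase x)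
        (fun y => h y ^ 2) = N * s1 T ch (fun x => h x ^ 2) := by
      rw [← hLsum]
      refine sum_congr rfl fun x _ => ?_
      rw [s1, hL]
      exact sum_congr rfl fun q hq => sum_erase_eq_sub (mem_filter.1 hq).2
    have e2 : ∑ x ∈ U, sq (T.filter fun q => x ∈ ch q) (fun q => (ch q).erase x) h =
        (N - 1) * sq T ch h := by
      simp only [Trickle.sq]
      rw [hswap fun q x => (∑ y ∈ (ch q).erase x, h y) ^ 2 - ∑ y ∈ (ch q).erase x, h y ^ 2,
        mul_sum]
      refine sum_congr rfl fun q hq => ?_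
      have : ∀ x ∈ ch q, (∑ y ∈ (ch q).erase x, h y) ^ 2 - ∑ y ∈ (ch q).erase x, h y ^ 2 =
          (∑ y ∈ ch q, h y) ^ 2 - ∑ y ∈ ch q, h y ^ 2 - 2 * (∑ y ∈ ch q, h y) * h x +
            2 * h x ^ 2 := by
        intro x hx
        rw [sum_erase_eq_sub hx, sum_erase_eq_sub hx]
        ring
      rw [sum_congr rfl this, sum_add_distrib, sum_sub_distrib, sum_const, hch q hq,
        nsmul_eq_mul, ← mul_sum, ← mul_sum, hN]
      ring
    rw [e1, e2] at h1
    have hC : ∀ x, L h x ^ 2 / (N * w x) =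
        L h x ^ 2 / (N * ((T.filter fun q => x ∈ ch q).card : ℝ)) := fun x => rfl
    simp only [← hC] at h1
    by_contra hcon
    push Not at hcon
    have hpos : 0 < N - 1 := by linarith
    nlinarith [mul_lt_mul_of_pos_left hcon hpos]
  -- a maximiser among the functions of mean zero
  intro h hh
  have hw1 : ∀ x ∈ U, 1 ≤ w x := by
    intro x hx
    obtain ⟨q, hq, hxq⟩ := mem_biUnion.1 hx
    exact Nat.one_le_cast.2 (card_pos.2 ⟨q, mem_filter.2 ⟨hq, hxq⟩⟩)
  set S2 : (V → ℝ) → ℝ := fun f => s1 T ch (fun x => f x ^ 2) with hS2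
  have hS2nn : ∀ f, 0 ≤ S2 f := fun f => sum_nonneg fun q _ => sum_nonneg fun x _ => sq_nonneg _
  have hS20 : ∀ f, S2 f = 0 → ∀ x ∈ U, f x = 0 := by
    intro f hf x hx
    rw [hS2] at hf
    simp only [hs1] at hf
    have := (sum_eq_zero_iff_of_nonneg fun y hy =>
      mul_nonneg (le_trans zero_le_one (hw1 y hy)) (sq_nonneg _)).1 hf x hx
    rcases mul_eq_zero.1 this with h' | h'
    · linarith [hw1 x hx]
    · exact pow_eq_zero_iff (n := 2) (by norm_num) |>.1 h'
  by_cases h2 : S2 h = 0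
  · have : sq T ch h = 0 := by
      rw [hsq]; exact sum_eq_zero fun x hx => by rw [hS20 h h2 x hx, zero_mul]
    rw [this]
    simp only [hS2] at h2
    rw [h2, mul_zero]
  -- transport to functions on `U`
  let ext' : (U → ℝ) → V → ℝ := fun f x => if hx : x ∈ U then f ⟨x, hx⟩ else 0
  have hcongr1 : ∀ f g : V → ℝ, (∀ x ∈ U, f x = g x) → s1 T ch f = s1 T ch g := by
    intro f g hfg
    rw [hs1, hs1]; exact sum_congr rfl fun x hx => by rw [hfg x hx]
  have hcongrq : ∀ f g : V → ℝ, (∀ x ∈ U, f x = g x) → sq T ch f = sq T ch g := by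
    intro f g hfg
    unfold Trickle.sq
    refine sum_congr rfl fun q hq => ?_
    have hsub : ∀ x ∈ ch q, f x = g x := fun x hx => hfg x (mem_biUnion.2 ⟨q, hq, hx⟩)
    rw [sum_congr rfl hsub, sum_congr rfl fun x hx => show f x ^ 2 = g x ^ 2 by rw [hsub x hx]]
  set K : Set (U → ℝ) := {f | s1 T ch (ext' f) = 0 ∧ S2 (ext' f) = 1} with hK
  have hcont : ∀ x, Continuous fun f : U → ℝ => ext' f x := by
    intro x
    by_cases hx : x ∈ U
    · simpa [ext', hx] using continuous_apply (⟨x, hx⟩ : U)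
    · simpa [ext', hx] using continuous_const
  have hc1 : Continuous fun f : U → ℝ => s1 T ch (ext' f) :=
    continuous_finsetSum _ fun q _ => continuous_finsetSum _ fun x _ => hcont x
  have hc2 : Continuous fun f : U → ℝ => S2 (ext' f) :=
    continuous_finsetSum _ fun q _ => continuous_finsetSum _ fun x _ => (hcont x).pow 2
  have hcq : Continuous fun f : U → ℝ => sq T ch (ext' f) :=
    continuous_finsetSum _ fun q _ => ((continuous_finsetSum _ fun x _ => hcont x).pow 2).sub
      (continuous_finsetSum _ fun x _ => (hcont x).pow 2)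
  have hKc : IsCompact K := by
    refine (isCompact_Icc (a := fun _ : U => (-1 : ℝ)) (b := fun _ => 1)).of_isClosed_subset
      ((isClosed_eq hc1 continuous_const).inter (isClosed_eq hc2 continuous_const))
      fun f hf => ?_
    have hb : ∀ x : U, f x ^ 2 ≤ 1 := by
      intro x
      have h3 := hf.2
      simp only [hS2, hs1] at h3
      have h4 : w x * ext' f x ^ 2 ≤ ∑ y ∈ U, w y * ext' f y ^ 2 :=
        single_le_sum (f := fun y => w y * ext' f y ^ 2)
          (fun y hy => mul_nonneg (le_trans zero_le_one (hw1 y hy)) (sq_nonneg _)) x.2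
      rw [h3, show ext' f x = f x by simp [ext']] at h4
      nlinarith [hw1 x x.2, sq_nonneg (f x)]
    exact ⟨fun x => (abs_le.1 ((sq_le_one_iff_abs_le_one _).1 (hb x))).1,
      fun x => (abs_le.1 ((sq_le_one_iff_abs_le_one _).1 (hb x))).2⟩
  -- normalisation
  have hnormal : ∀ f : V → ℝ, s1 T ch f = 0 → S2 f ≠ 0 →
      ∃ g ∈ K, sq T ch f = S2 f * sq T ch (ext' g) := by
    intro f hf hf2
    have hpos : 0 < S2 f := lt_of_le_of_ne (hS2nn f) (Ne.symm hf2)
    set r := Real.sqrt (S2 f) with hr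
    have hr0 : 0 < r := Real.sqrt_pos.2 hpos
    have hrr : r * r = S2 f := Real.mul_self_sqrt hpos.le
    refine ⟨fun x => f x / r, ⟨?_, ?_⟩, ?_⟩
    · rw [hcongr1 _ (fun x => r⁻¹ * f x) fun x hx => by simp [ext', hx, div_eq_inv_mul]]
      rw [hs1, show ∑ x ∈ U, w x * (r⁻¹ * f x) = r⁻¹ * ∑ x ∈ U, w x * f x by
        rw [mul_sum]; exact sum_congr rfl fun x _ => by ring, ← hs1, hf, mul_zero]
    · show s1 T ch (fun x => _ ^ 2) = 1
      rw [hcongr1 _ (fun x => (r * r)⁻¹ * f x ^ 2) fun x hx => by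
        simp [ext', hx]; field_simp]
      rw [hs1, show ∑ x ∈ U, w x * ((r * r)⁻¹ * f x ^ 2) =
        (r * r)⁻¹ * ∑ x ∈ U, w x * f x ^ 2 by
        rw [mul_sum]; exact sum_congr rfl fun x _ => by ring, ← hs1, hrr]
      exact inv_mul_cancel₀ hf2
    · rw [hcongrq (ext' fun x : U => f x / r) (fun x => r⁻¹ * f x) fun x hx => by
          simp [ext', hx, div_eq_inv_mul],
        ← hrr]
      unfold Trickle.sq
      rw [mul_sum]
      refine sum_congr rfl fun q _ => ?_
      rw [← mul_sum, mul_pow, show ∑ x ∈ ch q, (r⁻¹ * f x) ^ 2 = r⁻¹ ^ 2 * ∑ x ∈ ch q, f x ^ 2 by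
        rw [mul_sum]; exact sum_congr rfl fun x _ => by ring]
      field_simp
  obtain ⟨g₀, hg₀, -⟩ := hnormal h hh h2
  obtain ⟨f₁, hf₁, hmax⟩ := hKc.exists_isMaxOn ⟨g₀, hg₀⟩ hcq.continuousOn
  set f := ext' f₁ with hf
  set t := sq T ch f / N with ht
  have htsq : sq T ch f = N * t := by rw [ht]; field_simp
  have hle : ∀ g : V → ℝ, s1 T ch g = 0 → sq T ch g ≤ N * t * S2 g := by
    intro g hg
    by_cases hg2 : S2 g = 0
    · rw [hg2, mul_zero, hsq]
      exact le_of_eq (sum_eq_zero fun x hx => by rw [hS20 g hg2 x hx, zero_mul])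
    · obtain ⟨g', hg', he⟩ := hnormal g hg hg2
      rw [he, ← htsq, mul_comm (sq T ch f)]
      exact mul_le_mul_of_nonneg_left (hmax hg') (hS2nn g)
  -- the maximiser is an eigenfunction
  have heig : ∀ x ∈ U, L f x = N * t * (w x * f x) := by
    set g : V → ℝ := fun x => (L f x - N * t * (w x * f x)) / w x with hg
    have hgw : ∀ x ∈ U, w x * g x = L f x - N * t * (w x * f x) := fun x hx => by
      rw [hg]; exact mul_div_cancel₀ _ (by linarith [hw1 x hx])
    have hg1 : s1 T ch g = 0 := by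
      rw [hs1, sum_congr rfl hgw, sum_sub_distrib, hLsum, hf₁.1, ← mul_sum, ← hs1, hf₁.1]
      ring
    set A := ∑ x ∈ U, g x * (L f x - N * t * (w x * f x)) with hA
    have hquad : ∀ s : ℝ, 2 * s * A + s ^ 2 * (sq T ch g - N * t * S2 g) ≤ 0 := by
      intro s
      have hm : s1 T ch (fun x => f x + s * g x) = 0 := by
        rw [hs1]
        simp only [mul_add, sum_add_distrib]
        rw [← hs1, hf₁.1, show ∑ x ∈ U, w x * (s * g x) = s * ∑ x ∈ U, w x * g x by
          rw [mul_sum]; exact sum_congr rfl fun x _ => by ring, ← hs1, hg1]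
        ring
      have h3 := hle _ hm
      have e1 : sq T ch (fun x => f x + s * g x) =
          sq T ch f + 2 * s * (∑ x ∈ U, g x * L f x) + s ^ 2 * sq T ch g := by
        rw [hbil g f]
        unfold Trickle.sq
        rw [mul_sum, mul_sum, ← sum_add_distrib, ← sum_add_distrib]
        refine sum_congr rfl fun q _ => ?_
        rw [sum_add_distrib, ← mul_sum]
        have e : ∑ x ∈ ch q, (f x + s * g x) ^ 2 = ∑ x ∈ ch q, f x ^ 2 +
            2 * s * ∑ x ∈ ch q, g x * f x + s ^ 2 * ∑ x ∈ ch q, g x ^ 2 := by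
          rw [mul_sum, mul_sum, ← sum_add_distrib, ← sum_add_distrib]
          exact sum_congr rfl fun x _ => by ring
        rw [e]
        ring
      have e2 : S2 (fun x => f x + s * g x) =
          S2 f + 2 * s * (∑ x ∈ U, g x * (w x * f x)) + s ^ 2 * S2 g := by
        simp only [hS2, hs1]
        rw [mul_sum, mul_sum, ← sum_add_distrib, ← sum_add_distrib]
        exact sum_congr rfl fun x _ => by ring
      have e3 : A = ∑ x ∈ U, g x * L f x - N * t * ∑ x ∈ U, g x * (w x * f x) := by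
        rw [hA, mul_sum, ← sum_sub_distrib]
        exact sum_congr rfl fun x _ => by ring
      rw [e1, e2, htsq, hf₁.2] at h3
      rw [e3]
      linarith
    have hA0 : A = 0 := by
      set B := sq T ch g - N * t * S2 g with hB
      by_contra hA'
      have hden : 0 < |B| + 1 := by positivity
      have h4 := hquad (A / (|B| + 1))
      have hA2 : 0 < A ^ 2 := by positivity
      field_simp at h4
      nlinarith [abs_nonneg B, neg_abs_le B, hA2]
    intro x hx
    have h5 : ∑ y ∈ U, w y * g y ^ 2 = 0 := by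
      rw [← hA0, hA]
      exact sum_congr rfl fun y hy => by rw [← hgw y hy]; ring
    have h6 := (sum_eq_zero_iff_of_nonneg fun y hy =>
      mul_nonneg (le_trans zero_le_one (hw1 y hy)) (sq_nonneg (g y))).1 h5 x hx
    have h7 : g x = 0 := by
      rcases mul_eq_zero.1 h6 with h' | h'
      · linarith [hw1 x hx]
      · exact pow_eq_zero_iff (n := 2) (by norm_num) |>.1 h'
    have h8 := hgw x hx
    rw [h7, mul_zero] at h8
    linarith
  -- so the eigenvalue is below `l / (1 - l)`
  have hlt : t < 1 := by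
    by_contra htge
    push Not at htge
    have hnn : ∀ q ∈ T, 0 ≤ (n : ℝ) * (∑ x ∈ ch q, f x ^ 2) - (∑ x ∈ ch q, f x) ^ 2 := by
      intro q hq
      have := sq_sum_le_card_mul_sum_sq (s := ch q) (f := f)
      rw [hch q hq] at this
      linarith
    have hsum : ∑ q ∈ T, ((n : ℝ) * (∑ x ∈ ch q, f x ^ 2) - (∑ x ∈ ch q, f x) ^ 2) =
        N * S2 f - sq T ch f := by
      simp only [hS2, s1, Trickle.sq, hN, mul_sum, ← sum_sub_distrib]
      exact sum_congr rfl fun q _ => by rw [← mul_sum, ← mul_sum]; ring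
    have hzero : ∀ q ∈ T, (n : ℝ) * (∑ x ∈ ch q, f x ^ 2) - (∑ x ∈ ch q, f x) ^ 2 = 0 := by
      refine (sum_eq_zero_iff_of_nonneg hnn).1 (le_antisymm ?_ (sum_nonneg hnn))
      rw [hsum, hf₁.2, htsq]
      nlinarith
    obtain ⟨a, ha⟩ := hconn f fun q hq x hx y hy => by
      have hmean : ∀ z ∈ ch q, f z = (∑ x ∈ ch q, f x) / n := by
        set b := (∑ x ∈ ch q, f x) / n with hb
        have h6 : ∑ z ∈ ch q, (f z - b) ^ 2 = 0 := by
          simp only [sub_sq, sum_add_distrib, sum_sub_distrib, sum_const, hch q hq, nsmul_eq_mul,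
            ← sum_mul, ← mul_sum]
          rw [hb]
          have := hzero q hq
          field_simp
          linarith
        intro z hz
        have h7 := (sum_eq_zero_iff_of_nonneg fun y _ => sq_nonneg (f y - b)).1 h6 z hz
        linarith [pow_eq_zero_iff (n := 2) (by norm_num) |>.1 h7]
      rw [hmean x hx, hmean y hy]
    have hfa : ∀ x ∈ U, f x = a := by
      intro x hx
      obtain ⟨q, hq, hxq⟩ := mem_biUnion.1 hx
      exact ha q hq x hxq
    have h8 : s1 T ch f = 0 := hf₁.1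
    rw [hs1, sum_congr rfl fun x hx => show w x * f x = w x * a by rw [hfa x hx],
      ← sum_mul] at h8
    have h9 : S2 f = 1 := hf₁.2
    simp only [hS2, hs1] at h9
    rw [sum_congr rfl fun x hx => show w x * f x ^ 2 = w x * a ^ 2 by rw [hfa x hx],
      ← sum_mul] at h9
    rcases mul_eq_zero.1 h8 with h' | h'
    · rw [h'] at h9; simp at h9
    · rw [h'] at h9; simp at h9
  have hbound : t ≤ l / (1 - l) := by
    have h3 := hgar f
    have hC : ∑ x ∈ U, L f x ^ 2 / (N * w x) = t ^ 2 * N * S2 f := by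
      simp only [hS2, hs1, mul_sum]
      refine sum_congr rfl fun x hx => ?_
      have : w x ≠ 0 := by linarith [hw1 x hx]
      rw [heig x hx]
      field_simp
    rw [hC, htsq, show s1 T ch (fun x => f x ^ 2) = 1 from hf₁.2, hf₁.2] at h3
    have hN0 : 0 < N := by linarith
    have h4 : N * ((1 - t) * (l - (1 - l) * t)) ≥ 0 := by nlinarith
    have h5 : 0 ≤ l - (1 - l) * t := by
      by_contra h'
      push Not at h'
      nlinarith [mul_pos hN0 (mul_pos (sub_pos.2 hlt) (neg_pos.2 h'))]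
    rw [le_div_iff₀ (sub_pos.2 hl)]
    linarith
  have h10 := hle h hh
  simp only [hS2] at h10 hS2nn
  have hN0 : 0 < N := by linarith
  have := hS2nn h
  rw [← hN]
  calc sq T ch h ≤ N * t * s1 T ch (fun x => h x ^ 2) := h10
    _ ≤ l / (1 - l) * N * s1 T ch (fun x => h x ^ 2) := by
        apply mul_le_mul_of_nonneg_right _ this
        rw [mul_comm (l / (1 - l))]
        exact mul_le_mul_of_nonneg_left hbound hN0.le

end Step

variable [DecidableEq V] [Fintype P] {n : ℕ}

/-- The gap of a family of top faces. -/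
def Gap (X : Cham V P n) (l : ℝ) : Prop := GapOn univ X.ch n l

/-- Connectivity: a function constant on each top face is constant. -/
def Conn (X : Cham V P n) : Prop :=
  ∀ h : V → ℝ, (∀ q, ∀ x ∈ X.ch q, ∀ y ∈ X.ch q, h x = h y) →
    ∃ a, ∀ q, ∀ x ∈ X.ch q, h x = a

variable (X : Cham V P n)

/-- The top faces of a link, inside the index set of the family. -/
theorem gap_link_iff (η : Finset V) (l : ℝ) :
    Gap (X.link η) l ↔
      GapOn (univ.filter fun q => η ⊆ X.ch q) (fun q => X.ch q \ η) (n - η.card) l := by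
  have e1 : ∀ h : V → ℝ, s1 univ (X.link η).ch h =
      s1 (univ.filter fun q => η ⊆ X.ch q) (fun q => X.ch q \ η) h := fun h =>
    (sum_subtype (univ.filter fun q => η ⊆ X.ch q) (fun q => by simp)
      fun q => ∑ x ∈ X.ch q \ η, h x).symm
  have e2 : ∀ h : V → ℝ, sq univ (X.link η).ch h =
      sq (univ.filter fun q => η ⊆ X.ch q) (fun q => X.ch q \ η) h := fun h =>
    (sum_subtype (univ.filter fun q => η ⊆ X.ch q) (fun q => by simp)
      fun q => (∑ x ∈ X.ch q \ η, h x) ^ 2 - ∑ x ∈ X.ch q \ η, h x ^ 2).symm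
  simp only [Gap, GapOn, e1, e2]

theorem conn_link {η : Finset V} (h : Conn (X.link η)) :
    ConnOn (univ.filter fun q => η ⊆ X.ch q) (fun q => X.ch q \ η) := by
  intro f hf
  obtain ⟨a, ha⟩ := h f fun q => hf q.1 (mem_filter.2 ⟨mem_univ _, q.2⟩)
  exact ⟨a, fun q hq => ha ⟨q, (mem_filter.1 hq).2⟩⟩

omit [DecidableEq V] [Fintype P] in
theorem GapOn.mono {T : Finset P} {ch : P → Finset V} {k : ℕ} {l l' : ℝ} (h : GapOn T ch k l)
    (hl : l ≤ l') (hk : 1 ≤ k) : GapOn T ch k l' := by
  intro f hf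
  refine (h f hf).trans ?_
  have : (0 : ℝ) ≤ (k : ℝ) - 1 := sub_nonneg.2 (by exact_mod_cast hk)
  exact mul_le_mul_of_nonneg_right (mul_le_mul_of_nonneg_right hl this)
    (sum_nonneg fun q _ => sum_nonneg fun x _ => sq_nonneg _)

/-- The gap implies mixing. -/
theorem mix_of_gap (hn : 2 ≤ n) {l : ℝ} (hl : 0 ≤ l) (h : Gap X l) : X.Mix l := by
  intro S
  set f : V → ℝ := fun x => if x ∈ S then 1 else 0 with hf
  have e1 : ∀ q, ∑ x ∈ X.ch q, f x = ((X.ch q ∩ S).card : ℝ) := fun q => by
    rw [hf, sum_boole, filter_mem_eq_inter]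
  have e2 : (fun x => f x ^ 2) = f := funext fun x => by simp [hf]
  have hg := gap_inhom univ X.ch (by omega) (fun q _ => X.card_ch q) h f
  rw [e2] at hg
  have es : s1 univ X.ch f = ∑ q, ((X.ch q ∩ S).card : ℝ) := sum_congr rfl fun q _ => e1 q
  have eq : sq univ X.ch f =
      ∑ q, ((X.ch q ∩ S).card : ℝ) * ((X.ch q ∩ S).card - 1) := by
    refine sum_congr rfl fun q _ => ?_
    have : ∑ x ∈ X.ch q, f x ^ 2 = ∑ x ∈ X.ch q, f x := sum_congr rfl fun x _ => congrFun e2 x
    rw [this, e1]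
    ring
  rw [es, eq, card_univ] at hg
  intro a
  set s := ∑ q, ((X.ch q ∩ S).card : ℝ)
  set Q := ∑ q, ((X.ch q ∩ S).card : ℝ) * ((X.ch q ∩ S).card - 1)
  have hn' : (2 : ℝ) ≤ n := by exact_mod_cast hn
  rcases Nat.eq_zero_or_pos (Fintype.card P) with hP | hP
  · have := Fintype.card_eq_zero_iff.1 hP
    simp only [a, Q, univ_eq_empty, sum_empty, zero_div]
    norm_num
  have hP' : (0 : ℝ) < Fintype.card P := by exact_mod_cast hP
  rw [div_le_iff₀ (mul_pos (mul_pos (by linarith) (by linarith)) hP')]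
  have ea : s = a * (n * Fintype.card P) :=
    (div_mul_cancel₀ s (mul_pos (by linarith) hP').ne').symm
  clear_value a s Q
  have hs2 : s ^ 2 / (n * Fintype.card P) = a ^ 2 * (n * Fintype.card P) := by
    rw [ea, pow_two, mul_div_assoc, mul_div_assoc, div_self (mul_pos (by linarith) hP').ne']
    ring
  rw [hs2, ea] at hg
  have hpos : 0 ≤ l * a ^ 2 * ((n : ℝ) * (n - 1) * Fintype.card P) :=
    mul_nonneg (mul_nonneg hl (sq_nonneg a))
      (mul_nonneg (mul_nonneg (by linarith) (by linarith)) hP'.le)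
  nlinarith

/-- Trickling down from the links of codimension two to all links. -/
theorem mix_links (_hn : 2 ≤ n) {l₀ : ℝ} (hl₀ : 0 ≤ l₀) (hsmall : (n : ℝ) * l₀ ≤ 1 / 2)
    (hbase : ∀ η ∈ X.complex, η.card + 2 = n → Gap (X.link η) l₀)
    (hconn : ∀ η ∈ X.complex, η.card + 2 ≤ n → Conn (X.link η)) :
    ∀ η ∈ X.complex, η.card + 2 ≤ n → (X.link η).Mix (2 * l₀) := by
  have hden : ∀ j : ℕ, j ≤ n → (1 : ℝ) / 2 ≤ 1 - j * l₀ := fun j hj => by
    have : (j : ℝ) * l₀ ≤ n * l₀ := mul_le_mul_of_nonneg_right (by exact_mod_cast hj) hl₀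
    linarith
  have key : ∀ j, ∀ η ∈ X.complex, η.card + 2 + j = n →
      Gap (X.link η) (l₀ / (1 - j * l₀)) := by
    intro j
    induction j with
    | zero => intro η hη hc; simpa using hbase η hη hc
    | succ j ih =>
      intro η hη hc
      set lj := l₀ / (1 - j * l₀) with hlj
      have hd := hden j (by omega)
      have hd1 := hden (j + 1) (by omega)
      push_cast at hd1
      have hlj0 : 0 ≤ lj := div_nonneg hl₀ (by linarith)
      have hlj1 : lj < 1 := by rw [hlj, div_lt_one (by linarith)]; linarith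
      have he : lj / (1 - lj) = l₀ / (1 - ((j + 1 : ℕ) : ℝ) * l₀) := by
        have hA : (1 : ℝ) - j * l₀ ≠ 0 := by linarith
        rw [hlj, one_sub_div hA, div_div_div_cancel_right₀ hA]
        push_cast
        congr 1
        ring
      rw [← he, gap_link_iff]
      refine gap_step (by omega) (fun q hq => ?_) hlj1 (fun x => ?_)
        (conn_link X (hconn η hη (by omega)))
      · rw [card_sdiff_of_subset (mem_filter.1 hq).2, X.card_ch]
      · by_cases hne : ∃ q, η ⊆ X.ch q ∧ x ∈ X.ch q \ η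
        · obtain ⟨q₀, hq₀, hx₀⟩ := hne
          obtain ⟨hx₁, hxη⟩ := mem_sdiff.1 hx₀
          have hg := (gap_link_iff X (insert x η) lj).1 (ih (insert x η)
            ⟨q₀, insert_subset hx₁ hq₀⟩ (by rw [card_insert_of_notMem hxη]; omega))
          have ef : ((univ.filter fun q => η ⊆ X.ch q).filter fun q => x ∈ X.ch q \ η) =
              univ.filter fun q => insert x η ⊆ X.ch q := by
            ext q
            simp only [mem_filter, mem_univ, true_and, mem_sdiff, insert_subset_iff]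
            tauto
          rw [ef, show (fun q => (X.ch q \ η).erase x) = fun q => X.ch q \ insert x η from
            funext fun q => by rw [sdiff_insert]]
          rwa [card_insert_of_notMem hxη, ← Nat.sub_sub] at hg
        · push Not at hne
          have ef : ((univ.filter fun q => η ⊆ X.ch q).filter fun q => x ∈ X.ch q \ η) = ∅ :=
            filter_eq_empty_iff.2 fun q hq => hne q (mem_filter.1 hq).2
          rw [ef]
          intro f _
          simp [Trickle.sq, Trickle.s1]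
  intro η hη hc
  obtain ⟨j, hj⟩ : ∃ j, η.card + 2 + j = n := ⟨n - (η.card + 2), by omega⟩
  have hd := hden j (by omega)
  refine mix_of_gap _ (by omega) (by linarith) ((key j η hη hj).mono ?_ (by omega))
  rw [div_le_iff₀ (by linarith)]
  nlinarith

end Vale.Agent.P067.Full.Trickle
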