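import Vale.Agent.P067.Full.Spec
import Vale.Agent.P067.Full.Trickle
import Vale.Agent.P067.Full.MixGap
import Vale.Agent.P067.Full.MixBase

/-!
All links mix.
-/

open Finset

noncomputable section

namespace Vale.Agent.P067.Full

/-- The links of the complexes mix as well as wanted. -/
theorem mixSpec : MixSpec := by
  intro n M hn _hM l hl
  set l₀ : ℝ := min (l / 2) (1 / (2 * n)) with hl₀def
  have hn0 : (0 : ℝ) < n := by exact_mod_cast (show 0 < n by omega)
  have hl₀ : 0 < l₀ := lt_min (by linarith) (by positivity)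
  have hsmall : (n : ℝ) * l₀ ≤ 1 / 2 :=
    (mul_le_mul_of_nonneg_left (min_le_right _ _) hn0.le).trans_eq (by field_simp)
  refine ⟨⌈2 * (M : ℝ) / l₀ ^ 2⌉₊, fun p hp hprime m hm => ?_⟩
  intro _ η hη hcard
  have : NeZero p := ⟨hprime.ne_zero⟩
  have hpl : 2 * (M : ℝ) ≤ l₀ ^ 2 * p := by
    have := Nat.ceil_le.1 hp
    rw [div_le_iff₀ (by positivity)] at this
    linarith
  have hgap : ∀ η' ∈ (cx n M p m).complex, η'.card + 2 = n →
      Trickle.Gap ((cx n M p m).link η') l₀ := by
    intro η' hη' hc h h0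
    have h2 : ((n - η'.card : ℕ) : ℝ) - 1 = 1 := by
      rw [show n - η'.card = 2 by omega]; norm_num
    rw [h2, mul_one]
    exact Grp.link_gap hn hm hl₀.le (MixBase.base M hl₀ hprime hpl) hη' hc h h0
  have hmix := Trickle.mix_links (cx n M p m) (by omega) hl₀.le hsmall hgap
    (fun η' hη' hc h hh => Grp.link_conn hn hm hη' hc h hh) η hη hcard
  intro S
  refine (hmix S).trans (add_le_add le_rfl (mul_le_mul_of_nonneg_right ?_ ?_))
  · linarith [min_le_left (l / 2) (1 / (2 * (n : ℝ)))]
  · exact div_nonneg (sum_nonneg fun q _ => Nat.cast_nonneg _)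
      (mul_nonneg (Nat.cast_nonneg _) (Nat.cast_nonneg _))

end Vale.Agent.P067.Full
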