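import Vale.Agent.P067.Full.Orbit
import Vale.Agent.P067.Full.Step.Layer
import Vale.Agent.P067.Full.Step.Low

/-!
# P067 full answer: acyclicity for many colours

Induction on the degree. A cycle is a sum of translates of cycles avoiding one colour; such classes
are fixed by conjugates of one-colour elements, which meet every layer of the filtration outside any
hyperplane. So the group acts trivially on classes, and fixed classes bound as its order is odd.
-/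

open Finset

noncomputable section

namespace Vale.Agent.P067.Full.Step

open scoped Classical

variable {n M p m : ℕ}

/-- Every cycle is a sum of cycles whose classes are fixed by elements of the layer outside a given
hyperplane. -/
theorem decomp {S : Finset (Fin M)} {c x : ℕ} (hc : c < n)
    (hcover : ∀ z, Sup (XS n M p m S) c z → bd z = 0 →
      z ∈ Submodule.span (ZMod 2) {y | ∃ g ∈ GS n M p m S, ∃ j ∈ S, ∃ w,
        Sup (XS n M p m (S.erase j)) c w ∧ bd w = 0 ∧ y = xmul g w})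
    (hmove : ∀ j ∈ S, ∀ c, c < n → ∀ w, Sup (XS n M p m (S.erase j)) c w → bd w = 0 →
      ∀ y ∈ GS n M p m {j}, Bnd (XS n M p m S) c (xmul y w + w))
    (htheta : ∀ θ ∈ ThetaSet n M p m S, θ⁻¹ ∈ ThetaSet n M p m S ∧
      (∀ g ∈ GS n M p m S, θ * g * θ⁻¹ ∈ GS n M p m S) ∧
      ∀ v, ∀ g ∈ Kv n M p m v, θ * g * θ⁻¹ ∈ Kv n M p m v)
    (hconj : ∀ g ∈ GS n M p m univ, ∀ y ∈ Gx n M p m x,
      g * y * g⁻¹ ∈ Gx n M p m x ∧ g * y * g⁻¹ * y⁻¹ ∈ Gx n M p m (x + 1))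
    (htriv : Triv n M p m S c (x + 1))
    (φ : (Fin n → Fin M → Fin M → ZMod p) →+ ZMod p)
    {θ : Ga n M p m} (hθ : θ ∈ ThetaSet n M p m S)
    (hout : ∀ j ∈ S, ∃ y ∈ GS n M p m {j},
      θ * y * θ⁻¹ ∈ Gx n M p m x ∧ φ (lam n M p m x (θ * y * θ⁻¹)) ≠ 0)
    (z : Ch (Vx n M p m)) (hz : z ∈ cycles (n := n) (p := p) (m := m) S c) :
    z ∈ Submodule.span (ZMod 2) {u | u ∈ cycles (n := n) (p := p) (m := m) S c ∧
      ∃ y ∈ GS n M p m S, y ∈ Gx n M p m x ∧ φ (lam n M p m x y) ≠ 0 ∧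
        Bnd (XS n M p m S) c (xmul y u + u)} := by
  obtain ⟨hθi, hθS, hθK⟩ := htheta θ hθ
  obtain ⟨-, hθiS, hθiK⟩ := htheta θ⁻¹ hθi
  have h1 := hcover (cth θ⁻¹ z) (sup_cth hθiK hθiS hz.1)
    (by rw [cth, chMap_bd, hz.2, map_zero])
  have h2 : z ∈ (Submodule.span (ZMod 2) {y | ∃ g ∈ GS n M p m S, ∃ j ∈ S, ∃ w,
      Sup (XS n M p m (S.erase j)) c w ∧ bd w = 0 ∧ y = xmul g w}).map (cth θ) :=
    ⟨cth θ⁻¹ z, h1, cth_cth_inv hθK hθiK z⟩
  rw [Submodule.map_span] at h2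
  refine Submodule.span_mono ?_ h2
  rintro _ ⟨_, ⟨g, hg, j, hj, w, hw, hwb, rfl⟩, rfl⟩
  rw [cth_xmul hθK]
  obtain ⟨y, hy, hyx, hyφ⟩ := hout j hj
  set g' := θ * g * θ⁻¹ with hg'def
  set y' := θ * y * θ⁻¹ with hy'def
  have hg' : g' ∈ GS n M p m S := hθS g hg
  have hy' : y' ∈ GS n M p m S := hθS y (Move.GS_mono (singleton_subset_iff.2 hj) hy)
  have hwS : Sup (XS n M p m S) c w := hw.mono fun s hs _ => Move.XS_mono (erase_subset _ _) hs
  have hu : cth θ w ∈ cycles (n := n) (p := p) (m := m) S c :=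
    ⟨sup_cth hθK hθS hwS, by rw [cth, chMap_bd, hwb, map_zero]⟩
  have hfix : Bnd (XS n M p m S) c (xmul y' (cth θ w) + cth θ w) := by
    have h := bnd_cth hθK hθS (hmove j hj c hc w hw hwb y hy)
    rwa [map_add, cth_xmul hθK] at h
  refine ⟨xmul_mem_cycles hg' hu, y', hy', hyx, hyφ, ?_⟩
  -- `y'` commutes with `g'` up to the next layer
  set k := g'⁻¹ * y' * g' * y'⁻¹ with hk
  have hkx : k ∈ Gx n M p m (x + 1) := by
    have h := (hconj g'⁻¹ (inv_mem (Move.GS_mono (subset_univ S) hg')) y' hyx).2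
    rwa [inv_inv] at h
  have hkS : k ∈ GS n M p m S :=
    mul_mem (mul_mem (mul_mem (inv_mem hg') hy') hg') (inv_mem hy')
  have hk' : Bnd (XS n M p m S) c (xmul k (xmul y' (cth θ w)) + xmul y' (cth θ w)) :=
    htriv k hkS hkx _ (xmul_mem_cycles hy' hu)
  have h := Move.bnd_xmul hg' (hk'.add hfix)
  have e : ∀ A B C : Ch (Vx n M p m), A + B + (B + C) = A + C := fun A B C => by
    rw [add_assoc, ← add_assoc B B C, ch_add_self, zero_add]
  rw [e, map_add, Move.xmul_xmul, Move.xmul_xmul] at h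
  rwa [Move.xmul_xmul, show y' * g' = g' * k * y' by rw [hk]; group]

/-- The group acts trivially on classes. -/
theorem fixed (hn : 3 ≤ n) [Fact p.Prime] (hp : Odd p) {S : Finset (Fin M)} {c : ℕ} (hc : c < n)
    (hm : 2 ≤ m) (hL : LayerSpec)
    (hcover : ∀ z, Sup (XS n M p m S) c z → bd z = 0 →
      z ∈ Submodule.span (ZMod 2) {y | ∃ g ∈ GS n M p m S, ∃ j ∈ S, ∃ w,
        Sup (XS n M p m (S.erase j)) c w ∧ bd w = 0 ∧ y = xmul g w})
    (hmove : ∀ j ∈ S, ∀ c, c < n → ∀ w, Sup (XS n M p m (S.erase j)) c w → bd w = 0 →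
      ∀ y ∈ GS n M p m {j}, Bnd (XS n M p m S) c (xmul y w + w))
    (htheta : (∀ θ ∈ ThetaSet n M p m S, θ⁻¹ ∈ ThetaSet n M p m S ∧
      (∀ g ∈ GS n M p m S, θ * g * θ⁻¹ ∈ GS n M p m S) ∧
      ∀ v, ∀ g ∈ Kv n M p m v, θ * g * θ⁻¹ ∈ Kv n M p m v) ∧
      ∀ x, 1 ≤ x → ∀ φ : (Fin n → Fin M → Fin M → ZMod p) →+ ZMod p,
        (∃ y ∈ GS n M p m S, y ∈ Gx n M p m x ∧ φ (lam n M p m x y) ≠ 0) →
        ∃ θ ∈ ThetaSet n M p m S, ∀ j ∈ S, ∃ y ∈ GS n M p m {j},
          θ * y * θ⁻¹ ∈ Gx n M p m x ∧ φ (lam n M p m x (θ * y * θ⁻¹)) ≠ 0)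
    {z : Ch (Vx n M p m)} (hz : Sup (XS n M p m S) c z) (hzb : bd z = 0) :
    ∀ g ∈ GS n M p m S, Bnd (XS n M p m S) c (xmul g z + z) := by
  obtain ⟨hmul, h1, ⟨X₀, hX₀⟩, hconj, hlam⟩ := hL n M p m hn Fact.out hm
  have key : ∀ i x, 1 ≤ x → X₀ ≤ x + i → Triv n M p m S c x := by
    intro i
    induction i with
    | zero =>
      intro x _ hx y _ hyx z _
      rw [hX₀ x (by omega) y hyx, Move.xmul_one, ch_add_self]
      exact Bnd.zero
    | succ i ih =>
      intro x hx hxi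
      have htriv := ih (x + 1) (by omega) (by omega)
      refine triv_step hp (hmul x) (hlam x hx) htriv fun φ hφ => ?_
      obtain ⟨θ, hθ, hout⟩ := htheta.2 x hx φ hφ
      exact fun z hz =>
        decomp hc hcover hmove htheta.1 (hconj x hx) htriv φ hθ hout z hz
  exact fun g hg => key X₀ 1 le_rfl (by omega) g hg (GS_le_Gx_one h1 hg) z ⟨hz, hzb⟩

/-- Acyclicity below the top dimension for many colours. -/
theorem vanish (hG : GroupSpec) (hC : CoverSpec) (hM : MoveSpec) (hL : LayerSpec)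
    (hT : ThetaSpec) : VanishSpec := by
  intro n c hn
  induction c using Nat.strong_induction_on with
  | _ c ih =>
    intro hc
    rcases Nat.lt_or_ge c 2 with hc2 | hc2
    · refine ⟨0, fun M => ⟨0, fun p _ hp m hm S _ => ?_⟩⟩
      exact fills_low (by omega) ((hG n M p m hn hp hm).2.2.2.2.1 S) (by omega)
    obtain ⟨r, hr⟩ := hC n c hn hc2 hc
    choose N hN using fun i : Fin c => ih i i.2 (by omega)
    refine ⟨r + univ.sup N + (c + 1), fun M => ?_⟩
    choose P hP using fun i : Fin c => hN i M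
    obtain ⟨p₁, hp₁⟩ := hM n M hn
    obtain ⟨p₂, hp₂⟩ := hT n M hn
    refine ⟨p₁ + p₂ + univ.sup P + 3, fun p hp hpp m hm S hS z hz hzb => ?_⟩
    have : Fact p.Prime := ⟨hpp⟩
    refine Orbit.orbit_fills hG hn hpp (by omega) hm S hz hzb
      (fixed hn (hpp.odd_of_ne_two (by omega)) hc hm hL ?_ ?_
        (hp₂ p (by omega) hpp m hm S) hz hzb)
    · refine hr M p m hpp hm S S (Finset.Subset.refl S) (by omega) fun c' hc' S' _ hS' => ?_
      have h1 : N ⟨c', hc'⟩ ≤ univ.sup N := le_sup (f := N) (mem_univ _)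
      have h2 : P ⟨c', hc'⟩ ≤ univ.sup P := le_sup (f := P) (mem_univ _)
      exact hP ⟨c', hc'⟩ p (by omega) hpp m hm S' (by omega)
    · exact hp₁ p (by omega) hpp m hm S

end Vale.Agent.P067.Full.Step

end
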