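import Vale.Agent.P067.Full.ThetaBasic

/-!
# P067 full answer: changes of colours bring one-colour elements outside any hyperplane of a layer
-/

open Finset

noncomputable section

namespace Vale.Agent.P067.Full.ThetaAux

variable {n M p m : ℕ}

/-! One-colour elements -/

theorem tt_pow_zero {k : ℕ} (hk : 1 ≤ k) : (tt p m ^ k) ^ m = 0 := by
  rw [← pow_mul, tt_pow, Ideal.Quotient.eq_zero_iff_mem, Ideal.mem_span_singleton]
  exact pow_dvd_pow _ (Nat.le_mul_of_pos_left m hk)

theorem tt_pow_mem {i k : ℕ} (h : i ≤ k) : tt p m ^ k ∈ Ideal.span {tt p m ^ i} :=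
  Ideal.mem_span_singleton.2 (pow_dvd_pow _ h)

/-- `1` plus one block at the colour `j`. -/
def colMat (j : Fin M) (X : Mn n p m) : BM n M p m := 1 + Matrix.single j j X

theorem colMat_mul (j : Fin M) (X Y : Mn n p m) :
    colMat j X * colMat j Y = colMat j (X + Y + X * Y) := by
  simp only [colMat, add_mul, mul_add, one_mul, mul_one, Matrix.single_mul_single_same,
    Matrix.single_add]
  abel

theorem colMat_zero (j : Fin M) : colMat j (0 : Mn n p m) = 1 := by simp [colMat]

/-- A one-colour unit. -/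
def colUnit (j : Fin M) (X Y : Mn n p m) (h1 : X + Y + X * Y = 0) (h2 : Y + X + Y * X = 0) :
    Ga n M p m :=
  ⟨colMat j X, colMat j Y, by rw [colMat_mul, h1, colMat_zero], by rw [colMat_mul, h2, colMat_zero]⟩

theorem colUnit_sub_one (j : Fin M) (X Y : Mn n p m) (h1 : X + Y + X * Y = 0)
    (h2 : Y + X + Y * X = 0) :
    ((colUnit j X Y h1 h2 : Ga n M p m) : BM n M p m) - 1 = Matrix.single j j X := by
  simp [colUnit, colMat]

theorem colUnit_mem {x : ℕ} (j : Fin M) (X Y : Mn n p m) (h1 : X + Y + X * Y = 0)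
    (h2 : Y + X + Y * X = 0) (hnf : X ∈ nf n p m)
    (hdet : (Matrix.comp (Fin M) (Fin M) (Fin n) (Fin n) (Rm p m) (colMat j X)).det = 1)
    (hw : ∀ a b : Fin n, ∀ k : ℕ, k * n + b.1 < x + a.1 →
      X a b ∈ Ideal.span {tt p m ^ (k + 1)}) :
    colUnit j X Y h1 h2 ∈ GS n M p m {j} ∧ colUnit j X Y h1 h2 ∈ Gx n M p m x := by
  have key : ∀ S : Finset (Fin M), j ∈ S → colUnit j X Y h1 h2 ∈ GSet n M p m S := by
    intro S hj
    refine ⟨fun i l a b hba => ?_, fun i l h => ?_, hdet⟩ <;> rw [colUnit_sub_one]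
    · by_cases h : j = i ∧ j = l
      · rw [← h.1, ← h.2, Matrix.single_apply_same]; exact hnf a b hba
      · rw [Matrix.single_apply_of_ne _ _ _ _ _ h]; exact zero_mem _
    · rw [Matrix.single_apply_of_ne _ _ _ _ _ fun e => ?_]
      rcases h with h | h
      · exact h (e.1 ▸ hj)
      · exact h (e.2 ▸ hj)
  refine ⟨Subgroup.subset_closure (key _ (Finset.mem_singleton_self j)),
    key _ (Finset.mem_univ j), fun i l a b k hk => ?_⟩
  rw [colUnit_sub_one]
  by_cases h : j = i ∧ j = l
  · rw [← h.1, ← h.2, Matrix.single_apply_same]; exact hw a b k hk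
  · rw [Matrix.single_apply_of_ne _ _ _ _ _ h]; exact zero_mem _

theorem lam_colUnit {x : ℕ} (j : Fin M) (X Y : Mn n p m) (h1 : X + Y + X * Y = 0)
    (h2 : Y + X + Y * X = 0) (a : Fin n) (i l : Fin M) :
    lam n M p m x (colUnit j X Y h1 h2) a i l =
      if j = i ∧ j = l then cf p m ((a.1 + x) / n) (X a (tgt x a)) else 0 := by
  simp only [lam, colUnit_sub_one]
  by_cases h : j = i ∧ j = l
  · rw [if_pos h, ← h.1, ← h.2, Matrix.single_apply_same]
    rfl
  · rw [if_neg h, Matrix.single_apply_of_ne _ _ _ _ _ h, Matrix.zero_apply, cf_zero]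

theorem one_entry (i l : Fin M) (c d : Fin n) :
    (1 : BM n M p m) i l c d = if i = l ∧ c = d then 1 else 0 := by
  by_cases h : i = l
  · subst h; simp [Matrix.one_apply]
  · simp [h]

theorem single_entry (j i l : Fin M) (X : Mn n p m) (c d : Fin n) :
    (Matrix.single j j X : BM n M p m) i l c d = if j = i ∧ j = l then X c d else 0 := by
  by_cases h : j = i ∧ j = l
  · rw [if_pos h, ← h.1, ← h.2, Matrix.single_apply_same]
  · rw [if_neg h, Matrix.single_apply_of_ne _ _ _ _ _ h, Matrix.zero_apply]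

theorem tgt_ne {x : ℕ} (hx : ¬ n ∣ x) (a : Fin n) : tgt x a ≠ a := by
  intro h
  have h1 := congrArg Fin.val h
  simp only [tgt] at h1
  have h2 := Nat.div_add_mod (a.1 + x) n
  exact hx ⟨(a.1 + x) / n, by omega⟩

/-- The transvection of weight `x` from `a` in the colour `j`. -/
theorem exists_root {x : ℕ} (hx1 : 1 ≤ x) (hx : ¬ n ∣ x) (a : Fin n) (j : Fin M)
    (hk : (a.1 + x) / n < m) :
    ∃ y ∈ GS n M p m {j}, y ∈ Gx n M p m x ∧
      ∀ a' i l, lam n M p m x y a' i l = if a' = a ∧ j = i ∧ j = l then 1 else 0 := by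
  set k := (a.1 + x) / n
  set b := tgt x a with hbdef
  have hab : a ≠ b := fun h => tgt_ne hx a h.symm
  have hkb : k * n + b.1 = a.1 + x := by
    simp only [k, hbdef, tgt]
    rw [mul_comm]; exact Nat.div_add_mod _ _
  let X : Mn n p m := Matrix.single a b (tt p m ^ k)
  have hXX : X * X = 0 := Matrix.single_mul_single_of_ne _ _ _ _ hab.symm _
  have happ : ∀ a' b', ¬(a = a' ∧ b = b') → X a' b' = 0 := fun a' b' h =>
    Matrix.single_apply_of_ne _ _ _ _ _ h
  have hsame : X a b = tt p m ^ k := Matrix.single_apply_same _ _ _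
  refine (fun h => ⟨_, h.1, h.2, fun a' i l => ?_⟩)
    (colUnit_mem (x := x) j X (-X) (by simp [hXX]) (by simp [hXX]) ?_ ?_ ?_)
  rotate_left 3
  · rw [lam_colUnit]
    by_cases hjl : j = i ∧ j = l
    · by_cases ha : a' = a
      · subst ha
        rw [if_pos hjl, if_pos ⟨rfl, hjl⟩, hsame, cf_tt_pow hk]
      · rw [if_pos hjl, if_neg fun h => ha h.1, happ _ _ fun h => ha h.1.symm, cf_zero]
    · rw [if_neg hjl, if_neg fun h => hjl h.2]
  · intro a' b' hba
    by_cases h : a = a' ∧ b = b'
    · obtain ⟨rfl, rfl⟩ := h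
      rw [hsame]
      have hk1 : 1 ≤ k := by
        rcases Nat.eq_zero_or_pos k with h0 | h0
        · have : b.1 ≤ a.1 := hba
          rw [h0] at hkb
          omega
        · exact h0
      simpa using tt_pow_mem (p := p) (m := m) hk1
    · rw [happ _ _ h]; exact zero_mem _
  · have e : Matrix.comp (Fin M) (Fin M) (Fin n) (Fin n) (Rm p m) (colMat j X) =
        Matrix.transvection (j, a) (j, b) (tt p m ^ k) := by
      refine Matrix.ext fun u v => ?_
      obtain ⟨i, c⟩ := u
      obtain ⟨l, d⟩ := v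
      simp only [Matrix.comp_apply, colMat, Matrix.add_apply, one_entry, single_entry,
        Matrix.transvection]
      rw [Matrix.one_apply]
      simp only [Prod.mk.injEq]
      congr 1
      rw [Matrix.single_apply]
      simp only [Prod.mk.injEq, X, Matrix.single_apply]
      by_cases h1 : j = i
      · subst h1
        by_cases h2 : j = l
        · subst h2; simp
        · simp [h2]
      · simp [h1]
    rw [e, Matrix.det_transvection_of_ne _ _ fun h => hab (congrArg Prod.snd h)]
  · intro a' b' k' hk'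
    by_cases h : a = a' ∧ b = b'
    · obtain ⟨rfl, rfl⟩ := h
      rw [hsame]
      refine tt_pow_mem ?_
      by_contra hlt
      have : k * n ≤ k' * n := Nat.mul_le_mul_right n (by omega)
      omega
    · rw [happ _ _ h]; exact zero_mem _

/-- The diagonal element of weight `x = k n` on the types `a, b` in the colour `j`. -/
theorem exists_diag {x k : ℕ} (hx : x = k * n) (hk1 : 1 ≤ k) (hk : k < m) {a b : Fin n}
    (hab : a ≠ b) (j : Fin M) :
    ∃ y ∈ GS n M p m {j}, y ∈ Gx n M p m x ∧ ∀ a' i l, lam n M p m x y a' i l =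
      (if a' = a ∧ j = i ∧ j = l then 1 else 0) - (if a' = b ∧ j = i ∧ j = l then 1 else 0) := by
  set t := tt p m ^ k with ht
  let u : Rm p m := ∑ i ∈ range m, (-t) ^ i
  have hu : (1 + t) * u = 1 := by
    have h := mul_neg_geom_sum (-t) m
    have h0 : t ^ m = 0 := tt_pow_zero hk1
    rw [sub_neg_eq_add] at h
    have h3 : (-t) ^ m = 0 := (neg_pow t m).trans (by rw [h0, mul_zero])
    exact h.trans (by rw [h3, sub_zero])
  set e := u - 1 with he
  have het : e = -(t * u) := by rw [he]; linear_combination hu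
  let d : Fin n → Rm p m := fun c => if c = a then t else if c = b then e else 0
  let d' : Fin n → Rm p m := fun c => if c = a then e else if c = b then t else 0
  have hdd : ∀ c, d c + d' c + d c * d' c = 0 ∧ d' c + d c + d' c * d c = 0 := by
    intro c
    simp only [d, d']
    split_ifs with h1 h2
    · constructor <;> (rw [he]; linear_combination hu)
    · constructor <;> (rw [he]; linear_combination hu)
    · simp
  have hdmem : ∀ c, d c ∈ Ideal.span {tt p m ^ k} := by
    intro c
    simp only [d]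
    split_ifs
    · exact tt_pow_mem le_rfl
    · rw [het]; exact neg_mem (Ideal.mul_mem_right _ _ (tt_pow_mem le_rfl))
    · exact zero_mem _
  let X : Mn n p m := Matrix.diagonal d
  let Y : Mn n p m := Matrix.diagonal d'
  have hX0 : ∀ a' b', a' ≠ b' → X a' b' = 0 := fun a' b' h => Matrix.diagonal_apply_ne _ h
  have h1 : X + Y + X * Y = 0 := by
    simp only [X, Y, Matrix.diagonal_mul_diagonal, Matrix.diagonal_add]
    rw [Matrix.diagonal_eq_zero]
    exact funext fun c => (hdd c).1
  have h2 : Y + X + Y * X = 0 := by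
    simp only [X, Y, Matrix.diagonal_mul_diagonal, Matrix.diagonal_add]
    rw [Matrix.diagonal_eq_zero]
    exact funext fun c => (hdd c).2
  refine (fun h => ⟨_, h.1, h.2, fun a' i l => ?_⟩) (colUnit_mem (x := x) j X Y h1 h2 ?_ ?_ ?_)
  rotate_left 3
  · have hdiv : (a'.1 + x) / n = k := by
      rw [hx, Nat.add_mul_div_right _ _ a'.pos, Nat.div_eq_of_lt a'.2, zero_add]
    have htgt : tgt x a' = a' := by
      refine Fin.ext ?_
      simp only [tgt, hx, Nat.add_mul_mod_self_right]
      exact Nat.mod_eq_of_lt a'.2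
    rw [lam_colUnit, hdiv, htgt]
    by_cases hjl : j = i ∧ j = l
    · rw [if_pos hjl, show X a' a' = d a' from Matrix.diagonal_apply_eq _ _]
      simp only [d]
      by_cases ha : a' = a
      · subst ha
        rw [if_pos rfl, if_pos ⟨rfl, hjl⟩, if_neg fun h => hab h.1, cf_tt_pow hk, sub_zero]
      · by_cases hb : a' = b
        · subst hb
          rw [if_neg ha, if_pos rfl, if_neg fun h => ha h.1, if_pos ⟨rfl, hjl⟩, zero_sub]
          have : e + t ∈ Ideal.span {tt p m ^ (k + 1)} := by
            have hmem : t * t * u ∈ Ideal.span {tt p m ^ (k + 1)} :=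
              Ideal.mul_mem_right _ _ (by rw [ht, ← pow_add]; exact tt_pow_mem (by omega))
            convert hmem using 1
            rw [het]
            linear_combination (-t) * hu
          have h3 := cf_of_mem this
          rw [cf_add, cf_tt_pow hk] at h3
          exact eq_neg_of_add_eq_zero_left h3
        · rw [if_neg ha, if_neg hb, if_neg fun h => ha h.1, if_neg fun h => hb h.1, cf_zero,
            sub_zero]
    · rw [if_neg hjl, if_neg fun h => hjl h.2, if_neg fun h => hjl h.2, sub_zero]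
  · intro a' b' hba
    by_cases h : a' = b'
    · subst h
      rw [show X a' a' = d a' from Matrix.diagonal_apply_eq _ _]
      obtain ⟨w, hw⟩ := Ideal.mem_span_singleton.1 (hdmem a')
      rw [hw]
      exact Ideal.mul_mem_right _ _ (by simpa using tt_pow_mem (p := p) (m := m) hk1)
    · rw [hX0 _ _ h]; exact zero_mem _
  · have ecomp : Matrix.comp (Fin M) (Fin M) (Fin n) (Fin n) (Rm p m) (colMat j X) =
        Matrix.diagonal fun v : Fin M × Fin n => if v.1 = j then 1 + d v.2 else 1 := by
      refine Matrix.ext fun w v => ?_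
      obtain ⟨i, c⟩ := w
      obtain ⟨l, c'⟩ := v
      simp only [Matrix.comp_apply, colMat, Matrix.add_apply, one_entry, single_entry,
        Matrix.diagonal_apply, Prod.mk.injEq, X]
      by_cases h1 : c = c'
      · subst h1
        by_cases h2 : i = l
        · subst h2
          by_cases h3 : i = j
          · subst h3; simp
          · simp [h3, Ne.symm h3]
        · have h4 : ¬(j = i ∧ j = l) := fun h => h2 (h.1.symm.trans h.2)
          simp [h2, h4]
      · simp [h1]
    rw [ecomp, Matrix.det_diagonal, Fintype.prod_eq_mul (j, a) (j, b)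
      (fun h => hab (congrArg Prod.snd h))]
    · simp only [d, if_true, if_neg hab.symm, he]
      linear_combination hu
    · rintro ⟨i, c⟩ ⟨hca, hcb⟩
      by_cases hi : i = j
      · subst hi
        have ha : c ≠ a := fun h => hca (by rw [h])
        have hb : c ≠ b := fun h => hcb (by rw [h])
        simp [d, ha, hb]
      · simp [hi]
  · intro a' b' k' hk'
    by_cases h : a' = b'
    · subst h
      rw [show X a' a' = d a' from Matrix.diagonal_apply_eq _ _]
      have hlt : k' + 1 ≤ k := by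
        by_contra hlt
        have : k * n ≤ k' * n := Nat.mul_le_mul_right n (by omega)
        omega
      obtain ⟨w, hw⟩ := Ideal.mem_span_singleton.1 (hdmem a')
      rw [hw]
      exact Ideal.mul_mem_right _ _ (tt_pow_mem hlt)
    · rw [hX0 _ _ h]; exact zero_mem _

/-- The trace of a layer of weight `x = k n` vanishes. -/
theorem lam_trace {x k : ℕ} (hx : x = k * n) (hk1 : 1 ≤ k) (_hk : k < m) {g : Ga n M p m}
    (hg : g ∈ Gx n M p m x) : ∑ i, ∑ a, lam n M p m x g a i i = 0 := by
  let e := Matrix.compRingEquiv (Fin M) (Fin n) (Rm p m)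
  have hN : ∀ u v, ∃ w, (e ((g : BM n M p m) - 1)) u v = tt p m ^ k * w := fun u v => by
    refine Ideal.mem_span_singleton.1 ?_
    have := hg.2 u.1 v.1 u.2 v.2 (k - 1) (by
      have h1 : (k - 1) * n + n = x := by rw [hx, ← Nat.succ_mul]; congr 1; omega
      have := v.2.2
      omega)
    rwa [Nat.sub_add_cancel hk1] at this
  choose N0 hN0 using hN
  have hdet : (1 + tt p m ^ k • Matrix.of N0).det = 1 := by
    have : (1 + tt p m ^ k • Matrix.of N0) = e (g : BM n M p m) := by
      have h1 : e ((g : BM n M p m) - 1) = tt p m ^ k • Matrix.of N0 :=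
        Matrix.ext fun u v => by rw [hN0 u v]; simp
      rw [← h1, map_sub, map_one]
      abel
    rw [this]
    exact hg.1.2.2
  rw [Matrix.det_one_add_smul, add_assoc] at hdet
  have hz := congrArg (cf p m k) (add_eq_left.1 hdet)
  have hmem : ∀ r : Rm p m, r * (tt p m ^ k) ^ 2 ∈ Ideal.span {tt p m ^ (k + 1)} := fun r =>
    Ideal.mul_mem_left _ r (by rw [← pow_mul]; exact tt_pow_mem (by omega))
  rw [cf_zero, cf_add, cf_of_mem (hmem _), add_zero] at hz
  simp only [Matrix.trace, Matrix.diag_apply, Matrix.of_apply, Finset.sum_mul,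
    Fintype.sum_prod_type, cf_sum] at hz
  refine Eq.trans ?_ hz
  refine Finset.sum_congr rfl fun i _ => Finset.sum_congr rfl fun a _ => ?_
  have hdiv : (a.1 + x) / n = k := by
    rw [hx, Nat.add_mul_div_right _ _ a.pos, Nat.div_eq_of_lt a.2, zero_add]
  have htgt : tgt x a = a := by
    refine Fin.ext ?_
    simp only [tgt, hx, Nat.add_mul_mod_self_right]
    exact Nat.mod_eq_of_lt a.2
  rw [mul_comm, ← hN0 (i, a) (i, a)]
  simp only [lam, hdiv]
  show cf p m k _ = cf p m k (((g : BM n M p m) - 1) i i a a)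
  exact congrArg (fun b => cf p m k (((g : BM n M p m) - 1) i i a b)) htgt

/-! Polynomials on a line -/

open Polynomial in
theorem natDegree_det_le {k : ℕ} (A : Matrix (Fin k) (Fin k) (ZMod p)[X])
    (h : ∀ i j, (A i j).natDegree ≤ 1) : A.det.natDegree ≤ k := by
  rw [Matrix.det_apply]
  refine natDegree_sum_le_of_forall_le _ _ fun σ _ => ?_
  refine (natDegree_smul_le _ _).trans ((natDegree_prod_le _ _).trans ?_)
  exact (Finset.sum_le_sum fun i _ => h (σ i) i).trans (by simp)

open Polynomial in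
theorem natDegree_adjugate_le {k : ℕ} (A : Matrix (Fin k) (Fin k) (ZMod p)[X])
    (h : ∀ i j, (A i j).natDegree ≤ 1) (i j : Fin k) : (A.adjugate i j).natDegree ≤ k := by
  rw [Matrix.adjugate_apply]
  refine natDegree_det_le _ fun u v => ?_
  rw [Matrix.updateRow_apply]
  split_ifs
  · rcases eq_or_ne v i with rfl | hv
    · simp
    · simp [Pi.single_eq_of_ne hv]
  · exact h u v

/-- A value of a conjugated functional, with the denominator cleared. -/
def num1 {R : Type} [CommRing R] (Φ : Fin M → Fin M → R)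
    (T : Fin n → Matrix (Fin M) (Fin M) R) (a b : Fin n) (j : Fin M) : R :=
  ∑ i, ∑ l, Φ i l * T a i j * (T b).adjugate j l

theorem num1_map {R R' : Type} [CommRing R] [CommRing R'] (f : R →+* R')
    (Φ : Fin M → Fin M → R) (T : Fin n → Matrix (Fin M) (Fin M) R) (a b : Fin n) (j : Fin M) :
    f (num1 Φ T a b j) = num1 (fun i l => f (Φ i l)) (fun c => (T c).map f) a b j := by
  simp only [num1, map_sum, map_mul]
  refine Finset.sum_congr rfl fun i _ => Finset.sum_congr rfl fun l _ => ?_
  congr 1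
  have := f.map_adjugate (T b)
  exact congrFun (congrFun this j) l

theorem num1_eq {Φ : Fin M → Fin M → ZMod p} {T U : Tup n M p} (h2 : U * T = 1) (a b : Fin n)
    (j : Fin M) :
    num1 Φ T a b j = (T b).det * ∑ i, ∑ l, Φ i l * T a i j * U b j l := by
  have hb : U b * T b = 1 := congrFun h2 b
  have h : (T b).adjugate = (T b).det • U b := by
    calc (T b).adjugate = (U b * T b) * (T b).adjugate := by rw [hb, one_mul]
      _ = U b * ((T b).det • 1) := by rw [mul_assoc, Matrix.mul_adjugate]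
      _ = _ := by rw [Matrix.mul_smul, mul_one]
  simp only [num1, h, Matrix.smul_apply, smul_eq_mul, Finset.mul_sum]
  exact Finset.sum_congr rfl fun i _ => Finset.sum_congr rfl fun l _ => by ring

open Polynomial in
/-- The line through two tuples. -/
def linePoly (T0 T1 : Tup n M p) (a : Fin n) : Matrix (Fin M) (Fin M) (ZMod p)[X] :=
  Matrix.of fun i j => C (T0 a i j) + X * C (T1 a i j - T0 a i j)

/-- A point of the line through two tuples. -/
def line (T0 T1 : Tup n M p) (s : ZMod p) : Tup n M p := fun a => T0 a + s • (T1 a - T0 a)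

theorem linePoly_eval (T0 T1 : Tup n M p) (s : ZMod p) (a : Fin n) :
    (linePoly T0 T1 a).map (Polynomial.evalRingHom s) = line T0 T1 s a := by
  refine Matrix.ext fun i j => ?_
  simp [linePoly, line]

open Polynomial in
theorem linePoly_deg (T0 T1 : Tup n M p) (a : Fin n) (i j : Fin M) :
    (linePoly T0 T1 a i j).natDegree ≤ 1 := by
  simp only [linePoly, Matrix.of_apply]
  compute_degree

theorem det_line (T0 T1 : Tup n M p) (s : ZMod p) (a : Fin n) :
    ((linePoly T0 T1 a).det).eval s = (line T0 T1 s a).det := by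
  rw [← linePoly_eval]
  exact RingHom.map_det (Polynomial.evalRingHom s) _

open Polynomial in
theorem num1_line (Φ : Fin M → Fin M → ZMod p) (a b : Fin n) (j : Fin M) (T0 T1 : Tup n M p) :
    ∃ P : (ZMod p)[X], P.natDegree ≤ M + 1 ∧ ∀ s, P.eval s = num1 Φ (line T0 T1 s) a b j := by
  refine ⟨num1 (fun i l => C (Φ i l)) (linePoly T0 T1) a b j, ?_, fun s => ?_⟩
  · refine natDegree_sum_le_of_forall_le _ _ fun i _ =>
      natDegree_sum_le_of_forall_le _ _ fun l _ => ?_
    refine natDegree_mul_le.trans ?_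
    beta_reduce
    have h1 := natDegree_adjugate_le _ (linePoly_deg T0 T1 b) j l
    have h2 := natDegree_C_mul_le (Φ i l) (linePoly T0 T1 a i j)
    have h3 := linePoly_deg T0 T1 a i j
    omega
  · refine (num1_map (evalRingHom s) _ _ a b j).trans ?_
    simp only [coe_evalRingHom, eval_C]
    congr 1
    exact funext (linePoly_eval T0 T1 s)

/-- An invertible tuple which is the identity outside the colours of `S`. -/
def Fine (S : Finset (Fin M)) (T : Tup n M p) : Prop := Supp S T ∧ ∀ a, (T a).det ≠ 0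

open Polynomial in
/-- One tuple for all colours at once. -/
theorem exists_common [Fact p.Prime] (S : Finset (Fin M)) (num : Fin M → Tup n M p → ZMod p)
    (D : ℕ) (hp : n * M + M * D < p)
    (hline : ∀ j T0 T1, ∃ P : (ZMod p)[X], P.natDegree ≤ D ∧
      ∀ s, P.eval s = num j (line T0 T1 s))
    (hone : ∀ j ∈ S, ∃ T, Fine S T ∧ num j T ≠ 0) :
    ∃ T, Fine S T ∧ ∀ j ∈ S, num j T ≠ 0 := by
  suffices h : ∀ J ⊆ S, ∃ T, Fine S T ∧ ∀ j ∈ J, num j T ≠ 0 from h S subset_rfl
  intro J
  induction J using Finset.induction_on with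
  | empty => exact fun _ => ⟨1, ⟨fun _ _ _ _ => rfl, fun a => by simp⟩, by simp⟩
  | insert j J hj ih =>
    intro hJS
    obtain ⟨T0, hT0, h0⟩ := ih fun x hx => hJS (Finset.mem_insert_of_mem hx)
    obtain ⟨T1, hT1, h1⟩ := hone j (hJS (Finset.mem_insert_self _ _))
    choose P hPd hPe using fun i => hline i T0 T1
    let Q : (ZMod p)[X] := (∏ a, (linePoly T0 T1 a).det) * ∏ i ∈ insert j J, P i
    have e0 : line T0 T1 0 = T0 := funext fun a => by simp [line]
    have e1 : line T0 T1 1 = T1 := funext fun a => by simp [line]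
    have hQ0 : Q ≠ 0 := by
      refine mul_ne_zero (Finset.prod_ne_zero_iff.2 fun a _ h => hT0.2 a ?_)
        (Finset.prod_ne_zero_iff.2 fun i hi h => ?_)
      · rw [← e0, ← det_line, h, eval_zero]
      · rcases Finset.mem_insert.1 hi with rfl | hi'
        · exact h1 (by rw [← e1, ← hPe, h, eval_zero])
        · exact h0 i hi' (by rw [← e0, ← hPe, h, eval_zero])
    have hQd : Q.natDegree < Fintype.card (ZMod p) := by
      rw [ZMod.card]
      refine lt_of_le_of_lt (natDegree_mul_le.trans (Nat.add_le_add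
        ((natDegree_prod_le _ _).trans (Finset.sum_le_card_nsmul _ _ M fun a _ =>
          natDegree_det_le _ (linePoly_deg T0 T1 a)))
        ((natDegree_prod_le _ _).trans (Finset.sum_le_card_nsmul _ _ D fun i _ => hPd i)))) ?_
      simp only [smul_eq_mul, Finset.card_univ, Fintype.card_fin]
      have : (insert j J).card ≤ M := by simpa using (insert j J).card_le_univ
      have := Nat.mul_le_mul_right D this
      omega
    obtain ⟨s, hs⟩ : ∃ s : ZMod p, Q.eval s ≠ 0 := by
      by_contra hc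
      push Not at hc
      exact hQ0 (eq_zero_of_natDegree_lt_card_of_eval_eq_zero Q Function.injective_id hc hQd)
    simp only [Q, eval_mul, eval_prod, mul_ne_zero_iff, Finset.prod_ne_zero_iff, Finset.mem_univ,
      true_implies, det_line, hPe] at hs
    refine ⟨line T0 T1 s, ⟨fun a u v huv => ?_, hs.1⟩, hs.2⟩
    simp [line, hT0.1 a u v huv, hT1.1 a u v huv]

/-! Permutations of colours -/

/-- The matrix of a transposition. -/
def sw (i j : Fin M) : Matrix (Fin M) (Fin M) (ZMod p) :=
  (Equiv.swap i j).permMatrix (ZMod p)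

theorem sw_apply (i j u v : Fin M) :
    (sw i j : Matrix (Fin M) (Fin M) (ZMod p)) u v = if Equiv.swap i j u = v then 1 else 0 := by
  simp [sw, Equiv.Perm.permMatrix, PEquiv.toMatrix_apply]

theorem sw_sq (i j : Fin M) : (sw i j : Matrix (Fin M) (Fin M) (ZMod p)) * sw i j = 1 := by
  rw [sw, ← Matrix.permMatrix_mul, Equiv.swap_mul_self, Matrix.permMatrix_one]

theorem sw_supp {S : Finset (Fin M)} {i j : Fin M} (hi : i ∈ S) (hj : j ∈ S) (u v : Fin M)
    (h : u ∉ S ∨ v ∉ S) :
    (sw i j : Matrix (Fin M) (Fin M) (ZMod p)) u v =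
      (1 : Matrix (Fin M) (Fin M) (ZMod p)) u v := by
  rw [sw_apply, Matrix.one_apply]
  have key : ∀ w, w ∉ S → Equiv.swap i j w = w := fun w hw =>
    Equiv.swap_apply_of_ne_of_ne (fun e => hw (e ▸ hi)) fun e => hw (e ▸ hj)
  rcases h with h | h
  · rw [key u h]
  · have : Equiv.swap i j u = v ↔ u = v := by
      rw [Equiv.swap_apply_eq_iff, key v h]
    simp only [this]

/-- A change of colours in one type. -/
structure OneType (n M p : ℕ) (S : Finset (Fin M)) where
  t : Matrix (Fin M) (Fin M) (ZMod p)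
  u : Matrix (Fin M) (Fin M) (ZMod p)
  mul_u : t * u = 1
  supp : ∀ i j, (i ∉ S ∨ j ∉ S) → t i j = (1 : Matrix (Fin M) (Fin M) (ZMod p)) i j

theorem fine_tuple {S : Finset (Fin M)} (o : Fin n → OneType n M p S) [Fact p.Prime] :
    Fine S (fun a => (o a).t) ∧ (fun a => (o a).u) * (fun a => (o a).t) = (1 : Tup n M p) := by
  refine ⟨⟨fun a => (o a).supp, fun a h => ?_⟩, funext fun a => mul_eq_one_comm.1 (o a).mul_u⟩
  have := congrArg Matrix.det (o a).mul_u
  rw [Matrix.det_mul, h, zero_mul, Matrix.det_one] at this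
  exact zero_ne_one this

/-- A transposition. -/
def swT {S : Finset (Fin M)} {i j : Fin M} (hi : i ∈ S) (hj : j ∈ S) : OneType n M p S :=
  ⟨sw i j, sw i j, sw_sq i j, sw_supp hi hj⟩

theorem swT_value {S : Finset (Fin M)} {i j l : Fin M} (hi : i ∈ S) (hj : j ∈ S) (hl : l ∈ S)
    (Φ : Fin M → Fin M → ZMod p) :
    ∑ u, ∑ v, Φ u v * (swT (n := n) hi hj : OneType n M p S).t u j *
      (swT (n := n) hl hj : OneType n M p S).u j v = Φ i l := by
  simp [swT, sw_apply, Equiv.swap_apply_eq_iff]

/-- A transvection followed by a transposition. -/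
def mixT {S : Finset (Fin M)} {i j l : Fin M} (hi : i ∈ S) (hj : j ∈ S) (hl : l ∈ S)
    (hli : l ≠ i) : OneType n M p S :=
  ⟨Matrix.transvection l i 1 * sw i j, sw i j * Matrix.transvection l i (-1), by
    rw [mul_assoc, ← mul_assoc (sw i j), sw_sq, one_mul,
      Matrix.transvection_mul_transvection_same l i hli, add_neg_cancel,
      Matrix.transvection_zero], fun u v h => by
    simp only [Matrix.transvection, add_mul, one_mul, Matrix.add_apply, sw_supp hi hj u v h]
    rcases h with hu | hv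
    · rw [Matrix.single_mul_apply_of_ne _ _ _ _ _ (fun e : u = l => hu (e ▸ hl)), add_zero]
    · rcases eq_or_ne u l with rfl | hul
      · rw [Matrix.single_mul_apply_same, one_mul, sw_apply, if_neg, add_zero]
        rw [Equiv.swap_apply_left]
        exact fun e => hv (e ▸ hj)
      · rw [Matrix.single_mul_apply_of_ne _ _ _ _ _ hul, add_zero]⟩

theorem mixT_value {S : Finset (Fin M)} {i j l : Fin M} (hi : i ∈ S) (hj : j ∈ S) (hl : l ∈ S)
    (hli : l ≠ i) (Φ : Fin M → Fin M → ZMod p) :
    ∑ u, ∑ v, Φ u v * (mixT (n := n) hi hj hl hli : OneType n M p S).t u j *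
      (mixT (n := n) hi hj hl hli : OneType n M p S).u j v = Φ i i + Φ l i := by
  have hu : ∀ v, (mixT (n := n) hi hj hl hli : OneType n M p S).u j v =
      if i = v then 1 else 0 := fun v => by
    simp [mixT, Matrix.mul_apply, sw_apply, Matrix.transvection, Matrix.one_apply, 
      Matrix.single_apply, hli]
  have ht : ∀ u, (mixT (n := n) hi hj hl hli : OneType n M p S).t u j =
      (if u = i then 1 else 0) + if u = l then 1 else 0 := fun u => by
    show (Matrix.transvection l i 1 * sw i j : Matrix (Fin M) (Fin M) (ZMod p)) u j = _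
    rw [Matrix.mul_apply, Finset.sum_eq_single i]
    · simp [sw_apply, Matrix.transvection, Matrix.one_apply, Matrix.single_apply, eq_comm]
    · intro v _ hv
      rw [sw_apply, if_neg, mul_zero]
      exact fun e => hv ((Equiv.swap i j).injective (e.trans (Equiv.swap_apply_left i j).symm))
    · simp
  simp [hu, ht, mul_add, Finset.sum_add_distrib]

/-! The statement -/

theorem phi_expand (φ : (Fin n → Fin M → Fin M → ZMod p) →+ ZMod p)
    (L : Fin n → Fin M → Fin M → ZMod p) :
    φ L = ∑ a, ∑ i, ∑ l, L a i l * φ (Pi.single a (Pi.single i (Pi.single l 1))) := by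
  have hL : L = ∑ a, ∑ i, ∑ l, L a i l • Pi.single a (Pi.single i (Pi.single l (1 : ZMod p))) := by
    funext a i l
    simp [Finset.sum_apply, Pi.single_apply, apply_ite (fun f : Fin M → Fin M → ZMod p => f i),
      apply_ite (fun f : Fin M → ZMod p => f l)]
  conv_lhs => rw [hL]
  simp [map_sum, ZMod.map_smul]

theorem phi_conj {x : ℕ} (φ : (Fin n → Fin M → Fin M → ZMod p) →+ ZMod p)
    {T U : Tup n M p} (h1 : T * U = 1) (h2 : U * T = 1) {y : Ga n M p m} (j : Fin M)
    (c : Fin n → ZMod p)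
    (hy : ∀ a i l, lam n M p m x y a i l = if j = i ∧ j = l then c a else 0) :
    φ (lam n M p m x (thetaUnit n M p m T U h1 h2 * y * (thetaUnit n M p m T U h1 h2)⁻¹)) =
      ∑ a, c a * ∑ i, ∑ l, φ (Pi.single a (Pi.single i (Pi.single l 1))) * T a i j *
        U (tgt x a) j l := by
  rw [phi_expand]
  simp only [Finset.mul_sum]
  refine Finset.sum_congr rfl fun a _ => Finset.sum_congr rfl fun i _ =>
    Finset.sum_congr rfl fun l _ => ?_
  rw [lam_conj]
  simp only [hy, ite_and, mul_ite, mul_zero, ite_mul, zero_mul]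
  simp
  ring

/-- The value at the colour `j` of a functional moved by a change of colours. -/
theorem phi_val {x : ℕ} (φ : (Fin n → Fin M → Fin M → ZMod p) →+ ZMod p)
    {T U : Tup n M p} (h1 : T * U = 1) (h2 : U * T = 1) {y : Ga n M p m} (j : Fin M) (a : Fin n)
    (hy : ∀ a' i l, lam n M p m x y a' i l = if a' = a ∧ j = i ∧ j = l then 1 else 0) :
    φ (lam n M p m x (thetaUnit n M p m T U h1 h2 * y * (thetaUnit n M p m T U h1 h2)⁻¹)) =
      ∑ i, ∑ l, φ (Pi.single a (Pi.single i (Pi.single l 1))) * T a i j * U (tgt x a) j l := by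
  rw [phi_conj φ h1 h2 j (fun a' => if a' = a then 1 else 0) fun a' i l => by
    rw [hy]; by_cases h : a' = a <;> simp [h]]
  simp

/-- The same for a difference of two types. -/
theorem phi_val_sub {x : ℕ} (φ : (Fin n → Fin M → Fin M → ZMod p) →+ ZMod p)
    {T U : Tup n M p} (h1 : T * U = 1) (h2 : U * T = 1) {y : Ga n M p m} (j : Fin M) (a b : Fin n)
    (hy : ∀ a' i l, lam n M p m x y a' i l =
      (if a' = a ∧ j = i ∧ j = l then 1 else 0) - (if a' = b ∧ j = i ∧ j = l then 1 else 0)) :
    φ (lam n M p m x (thetaUnit n M p m T U h1 h2 * y * (thetaUnit n M p m T U h1 h2)⁻¹)) =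
      (∑ i, ∑ l, φ (Pi.single a (Pi.single i (Pi.single l 1))) * T a i j * U (tgt x a) j l) -
        ∑ i, ∑ l, φ (Pi.single b (Pi.single i (Pi.single l 1))) * T b i j * U (tgt x b) j l := by
  rw [phi_conj φ h1 h2 j (fun a' => (if a' = a then 1 else 0) - if a' = b then 1 else 0)
    fun a' i l => by
      rw [hy]
      by_cases h : j = i ∧ j = l
      · obtain ⟨rfl, rfl⟩ := h; simp
      · simp [h]]
  simp [sub_mul, Finset.sum_sub_distrib]

theorem finish (S : Finset (Fin M)) [Fact p.Prime] (T : Tup n M p) (hT : Fine S T) :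
    ∃ U : Tup n M p, ∃ h1 : T * U = 1, ∃ h2 : U * T = 1,
      Supp S U ∧ thetaUnit n M p m T U h1 h2 ∈ ThetaSet n M p m S := by
  have h1 : T * (fun a => (T a)⁻¹) = 1 :=
    funext fun a => Matrix.mul_nonsing_inv _ (isUnit_iff_ne_zero.2 (hT.2 a))
  have h2 : (fun a => (T a)⁻¹) * T = 1 := funext fun a => mul_eq_one_comm.1 (congrFun h1 a)
  exact ⟨_, h1, h2, supp_inv hT.1 h1 h2, thetaUnit_mem hT.1 h1 h2⟩

/-- Weights divisible by `n`. -/
theorem case_dvd [Fact p.Prime] (hn : 3 ≤ n) (hp : n * M + M * (2 * M + 1) < p)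
    (S : Finset (Fin M)) {k : ℕ} (hk1 : 1 ≤ k) (hkm : k < m)
    (φ : (Fin n → Fin M → Fin M → ZMod p) →+ ZMod p) {y₀ : Ga n M p m}
    (hy₀x : y₀ ∈ Gx n M p m (n * k)) (hφ : φ (lam n M p m (n * k) y₀) ≠ 0)
    (hLS : ∀ a i l, (i ∉ S ∨ l ∉ S) → lam n M p m (n * k) y₀ a i l = 0) (a₀ : Fin n) :
    ∃ θ ∈ ThetaSet n M p m S, ∀ j ∈ S, ∃ y ∈ GS n M p m {j},
      θ * y * θ⁻¹ ∈ Gx n M p m (n * k) ∧ φ (lam n M p m (n * k) (θ * y * θ⁻¹)) ≠ 0 := by
  set L := lam n M p m (n * k) y₀ with hLdef
  let Φ : Fin n → Fin M → Fin M → ZMod p :=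
    fun a i l => φ (Pi.single a (Pi.single i (Pi.single l 1)))
  have hxk : n * k = k * n := Nat.mul_comm _ _
  have htgt : ∀ a : Fin n, tgt (n * k) a = a := fun a => Fin.ext (by
    simp only [tgt, Nat.add_mul_mod_self_left]
    exact Nat.mod_eq_of_lt a.2)
  let val : Fin n → Fin M → Tup n M p → Tup n M p → ZMod p := fun a j T U =>
    ∑ i, ∑ l, Φ a i l * T a i j * U a j l
  have hone : ∀ j ∈ S, ∃ q : Fin n × Fin n, q.1 ≠ q.2 ∧ ∃ T U : Tup n M p,
      Fine S T ∧ U * T = 1 ∧ val q.1 j T U - val q.2 j T U ≠ 0 := by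
    intro j hj
    by_contra hcon
    push Not at hcon
    -- all values agree, so the functional is a multiple of the trace
    have key : ∀ a b, a ≠ b → ∀ oa ob : OneType n M p S,
        (∑ i, ∑ l, Φ a i l * oa.t i j * oa.u j l) =
          ∑ i, ∑ l, Φ b i l * ob.t i j * ob.u j l := by
      intro a b hab oa ob
      let o : Fin n → OneType n M p S := fun c => if c = a then oa else ob
      obtain ⟨hf, hUT⟩ := fine_tuple o
      have := hcon (a, b) hab _ _ hf hUT
      rw [sub_eq_zero] at this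
      simpa [val, o, hab.symm] using this
    have diag : ∀ a b, a ≠ b → ∀ i ∈ S, ∀ i' ∈ S, Φ a i i = Φ b i' i' := by
      intro a b hab i hi i' hi'
      have := key a b hab (swT hi hj) (swT hi' hj)
      rwa [swT_value hi hj hi, swT_value hi' hj hi'] at this
    have other : ∀ a : Fin n, ∃ b, a ≠ b := fun a => by
      by_cases h : a.1 = 0
      · exact ⟨⟨1, by omega⟩, fun e => by simp [e] at h⟩
      · exact ⟨⟨0, by omega⟩, fun e => h (by simp [e])⟩
    have off : ∀ a, ∀ i ∈ S, ∀ l ∈ S, l ≠ i → Φ a l i = 0 := by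
      intro a i hi l hl hli
      obtain ⟨b, hab⟩ := other a
      have := key a b hab (mixT hi hj hl hli) (swT hj hj)
      rw [mixT_value hi hj hl hli, swT_value hj hj hj, ← diag a b hab i hi j hj] at this
      simpa using this
    obtain ⟨b₀, hab₀⟩ := other a₀
    have const : ∀ a, ∀ i ∈ S, Φ a i i = Φ b₀ j j := by
      intro a i hi
      by_cases hab : a = b₀
      · subst hab
        rw [← diag a₀ a hab₀ j hj i hi, diag a₀ a hab₀ j hj j hj]
      · exact diag a b₀ hab i hi j hj
    refine hφ ((phi_expand φ L).trans ?_)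
    calc ∑ a, ∑ i, ∑ l, L a i l * Φ a i l = ∑ a, ∑ i, L a i i * Φ b₀ j j := by
          refine Finset.sum_congr rfl fun a _ => Finset.sum_congr rfl fun i _ => ?_
          rw [Finset.sum_eq_single i]
          · by_cases hi : i ∈ S
            · rw [const a i hi]
            · simp [hLS a i i (Or.inl hi)]
          · intro l _ hl
            by_cases hi : i ∈ S
            · by_cases hl' : l ∈ S
              · rw [off a l hl' i hi hl.symm, mul_zero]
              · simp [hLS a i l (Or.inr hl')]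
            · simp [hLS a i l (Or.inl hi)]
          · simp
      _ = 0 := by
          simp only [← Finset.sum_mul]
          rw [Finset.sum_comm, hLdef, lam_trace hxk hk1 hkm hy₀x, zero_mul]
  classical
  let q : Fin M → Fin n × Fin n := fun j => if hj : j ∈ S then (hone j hj).choose else (a₀, a₀)
  let num : Fin M → Tup n M p → ZMod p := fun j T =>
    (T (q j).2).det * num1 (Φ (q j).1) T (q j).1 (q j).1 j -
      (T (q j).1).det * num1 (Φ (q j).2) T (q j).2 (q j).2 j
  have hnum : ∀ j T U, U * T = 1 → num j T =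
      (T (q j).1).det * (T (q j).2).det * (val (q j).1 j T U - val (q j).2 j T U) := by
    intro j T U h2
    simp only [num, num1_eq h2, val]
    ring
  obtain ⟨T, hT, hgood⟩ := exists_common S num (2 * M + 1) (by omega) (fun j T0 T1 => by
    obtain ⟨P1, hd1, he1⟩ := num1_line (Φ (q j).1) (q j).1 (q j).1 j T0 T1
    obtain ⟨P2, hd2, he2⟩ := num1_line (Φ (q j).2) (q j).2 (q j).2 j T0 T1
    refine ⟨(linePoly T0 T1 (q j).2).det * P1 - (linePoly T0 T1 (q j).1).det * P2, ?_,
      fun s => ?_⟩
    · refine (Polynomial.natDegree_sub_le _ _).trans (max_le ?_ ?_)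
      · refine Polynomial.natDegree_mul_le.trans ?_
        have := natDegree_det_le _ (linePoly_deg T0 T1 (q j).2)
        omega
      · refine Polynomial.natDegree_mul_le.trans ?_
        have := natDegree_det_le _ (linePoly_deg T0 T1 (q j).1)
        omega
    · simp [num, Polynomial.eval_sub, Polynomial.eval_mul, det_line, he1, he2]) (fun j hj => by
    obtain ⟨-, T, U, hT, h2, hv⟩ := (hone j hj).choose_spec
    refine ⟨T, hT, ?_⟩
    rw [hnum j T U h2]
    simp only [q, dif_pos hj]
    exact mul_ne_zero (mul_ne_zero (hT.2 _) (hT.2 _)) hv)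
  obtain ⟨U, h1, h2, hU, hmem⟩ := finish (m := m) S T hT
  refine ⟨_, hmem, fun j hj => ?_⟩
  have hq : (q j).1 ≠ (q j).2 := by
    simp only [q, dif_pos hj]; exact (hone j hj).choose_spec.1
  obtain ⟨y, hyj, hyx, hyl⟩ := exists_diag (p := p) hxk hk1 hkm hq j
  refine ⟨y, hyj, conj_gx h1 h2 hT.1 hU hyx, ?_⟩
  rw [phi_val_sub φ h1 h2 j _ _ hyl, htgt, htgt]
  have := hgood j hj
  rw [hnum j T U h2] at this
  exact (mul_ne_zero_iff.1 this).2

/-- Weights not divisible by `n`. -/
theorem case_ndvd [Fact p.Prime] (hp : n * M + M * (2 * M + 1) < p) (S : Finset (Fin M))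
    {x : ℕ} (hx : 1 ≤ x) (hdvd : ¬ n ∣ x) (φ : (Fin n → Fin M → Fin M → ZMod p) →+ ZMod p)
    (a₀ : Fin n) {i₀ l₀ : Fin M} (hi₀ : i₀ ∈ S) (hl₀ : l₀ ∈ S)
    (hΦ0 : φ (Pi.single a₀ (Pi.single i₀ (Pi.single l₀ 1))) ≠ 0) (hk : (a₀.1 + x) / n < m) :
    ∃ θ ∈ ThetaSet n M p m S, ∀ j ∈ S, ∃ y ∈ GS n M p m {j},
      θ * y * θ⁻¹ ∈ Gx n M p m x ∧ φ (lam n M p m x (θ * y * θ⁻¹)) ≠ 0 := by
  let Φ : Fin n → Fin M → Fin M → ZMod p :=
    fun a i l => φ (Pi.single a (Pi.single i (Pi.single l 1)))
  set b₀ := tgt x a₀ with hb₀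
  have hab : b₀ ≠ a₀ := tgt_ne hdvd a₀
  obtain ⟨T, hT, hgood⟩ := exists_common S (fun j T => num1 (Φ a₀) T a₀ b₀ j) (2 * M + 1)
    (by omega) (fun j T0 T1 => by
      obtain ⟨P, hd, he⟩ := num1_line (Φ a₀) a₀ b₀ j T0 T1
      exact ⟨P, by omega, he⟩) (fun j hj => by
      let o : Fin n → OneType n M p S := fun c => if c = a₀ then swT hi₀ hj else swT hl₀ hj
      obtain ⟨hf, hUT⟩ := fine_tuple o
      refine ⟨_, hf, ?_⟩
      rw [num1_eq hUT]
      refine mul_ne_zero (hf.2 _) ?_
      simp only [o, if_true, if_neg hab]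
      rwa [swT_value hi₀ hj hl₀])
  obtain ⟨U, h1, h2, hU, hmem⟩ := finish (m := m) S T hT
  refine ⟨_, hmem, fun j hj => ?_⟩
  obtain ⟨y, hyj, hyx, hyl⟩ := exists_root (p := p) hx hdvd a₀ j hk
  refine ⟨y, hyj, conj_gx h1 h2 hT.1 hU hyx, ?_⟩
  rw [phi_val φ h1 h2 j _ hyl]
  have := hgood j hj
  rw [num1_eq h2] at this
  exact (mul_ne_zero_iff.1 this).2

/-- Module Theta. -/
theorem thetaSpec (hG : GroupSpec) : ThetaSpec := by
  intro n M hn
  refine ⟨n * M + M * (2 * M + 1) + 1, fun p hp hpp m hm S => ⟨theta_closure (by omega) S, ?_⟩⟩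
  intro x hx φ ⟨y₀, hy₀S, hy₀x, hφ⟩
  have : Fact p.Prime := ⟨hpp⟩
  obtain ⟨-, hy₀supp, -⟩ := ((hG n M p m hn hpp hm).2.1 S y₀).1 hy₀S
  set L := lam n M p m x y₀ with hLdef
  have hLS : ∀ a i l, (i ∉ S ∨ l ∉ S) → L a i l = 0 := fun a i l h => by
    simp only [hLdef, lam]
    rw [hy₀supp i l h, Matrix.zero_apply, cf_zero]
  let Φ : Fin n → Fin M → Fin M → ZMod p :=
    fun a i l => φ (Pi.single a (Pi.single i (Pi.single l 1)))
  -- some entry of the given layer is seen by the functional
  obtain ⟨a₀, i₀, l₀, hne⟩ : ∃ a i l, L a i l * Φ a i l ≠ 0 := by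
    by_contra h
    push Not at h
    exact hφ ((phi_expand φ L).trans (Finset.sum_eq_zero fun a _ => Finset.sum_eq_zero fun i _ =>
      Finset.sum_eq_zero fun l _ => h a i l))
  obtain ⟨hL0, hΦ0⟩ := mul_ne_zero_iff.1 hne
  have hi₀ : i₀ ∈ S := by by_contra h; exact hL0 (hLS a₀ i₀ l₀ (Or.inl h))
  have hl₀ : l₀ ∈ S := by by_contra h; exact hL0 (hLS a₀ i₀ l₀ (Or.inr h))
  have hk : (a₀.1 + x) / n < m := by
    by_contra h
    exact hL0 (cf_of_le (by omega) _)
  by_cases hdvd : n ∣ x
  · obtain ⟨k, rfl⟩ := hdvd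
    have hk1 : 1 ≤ k := by
      rcases Nat.eq_zero_or_pos k with h | h
      · subst h; simp at hx
      · exact h
    have hkm : k < m := by
      rw [Nat.add_mul_div_left _ _ (by omega : 0 < n), Nat.div_eq_of_lt a₀.2, zero_add] at hk
      exact hk
    exact case_dvd hn (by omega) S hk1 hkm φ hy₀x hφ hLS a₀
  · exact case_ndvd (by omega) S hx hdvd φ a₀ hi₀ hl₀ hΦ0 hk

end Vale.Agent.P067.Full.ThetaAux

end
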