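import Vale.Agent.P067.Full.Reduction
import Vale.Agent.P067.Full.EK
import Vale.Agent.P067.Full.Group
import Vale.Agent.P067.Full.Layer
import Vale.Agent.P067.Full.Theta
import Vale.Agent.P067.Full.Move
import Vale.Agent.P067.Full.Cover
import Vale.Agent.P067.Full.Step
import Vale.Agent.P067.Full.LinkExpand
import Vale.Agent.P067.Full.Mix

/-!
# P067 full answer: bounded-degree coboundary expanders in every dimension
-/

namespace Vale.Agent.P067.Full

/-- Bounded-degree coboundary expanders exist in every dimension. -/
theorem fullSpec : FullSpec :=
  reduction ek mixSpec (LinkExpand.expand groupSpec) groupSpec sizeSpec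
    (Step.vanish groupSpec Cover.cover (Move.move groupSpec (LinkExpand.linkFill groupSpec))
      Layer.layer (ThetaAux.thetaSpec groupSpec))

end Vale.Agent.P067.Full
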