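import Vale.Agent.P067.Full.Chains

/-!
# P067 full answer: orthogonal frames near the standard ones are acyclic

`Λ` is a ring and `𝔞` a non-unital subring all of whose products of some fixed length vanish. A
frame of colour `j` is a vector and a covector congruent to the standard ones modulo `𝔞`, with
pairing one. Frames of distinct colours always admit an orthogonal frame of any further colour,
so orthogonal families are acyclic once there are enough colours.
-/

open Finset

noncomputable section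

namespace Vale.Agent.P067.Full.Nilframe

variable {κ Λ : Type} [Fintype κ] [Ring Λ] (𝔞 : NonUnitalSubring Λ)

/-- Products of `k` elements of `𝔞` vanish. -/
def Nilp (k : ℕ) : Prop := ∀ l : List Λ, (∀ x ∈ l, x ∈ 𝔞) → k ≤ l.length → l.prod = 0

/-- A colour, a vector and a covector. -/
structure Fr (κ Λ : Type) where
  /-- the colour -/
  j : κ
  /-- the vector -/
  v : κ → Λ
  /-- the covector -/
  f : κ → Λ

instance : DecidableEq (Fr κ Λ) := Classical.decEq _

/-- The pairing of a covector and a vector. -/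
def dot (f v : κ → Λ) : Λ := ∑ i, f i * v i

/-- A vector congruent to the standard one of colour `j`. -/
def Std [DecidableEq κ] (j : κ) (v : κ → Λ) : Prop :=
  ∀ i, v i - (Pi.single j 1 : κ → Λ) i ∈ 𝔞

/-- A frame vanishing on the colours of `Z`. -/
structure IsFr [DecidableEq κ] (Z : Finset κ) (a : Fr κ Λ) : Prop where
  v_std : Std 𝔞 a.j a.v
  f_std : Std 𝔞 a.j a.f
  pair : dot a.f a.v = 1
  notMem : a.j ∉ Z
  v_zero : ∀ z ∈ Z, a.v z = 0
  f_zero : ∀ z ∈ Z, a.f z = 0

/-- Orthogonal frames. -/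
def Orth (a b : Fr κ Λ) : Prop := a.j ≠ b.j ∧ dot a.f b.v = 0 ∧ dot b.f a.v = 0

omit [Ring Λ] [Fintype κ] in
theorem Orth.symm [Fintype κ] [Ring Λ] {a b : Fr κ Λ} (h : Orth a b) : Orth b a :=
  ⟨h.1.symm, h.2.2, h.2.1⟩

/-- Orthogonal families with colours in `R`, vanishing on `Z`. -/
def FrC [DecidableEq κ] (R Z : Finset κ) : Set (Finset (Fr κ Λ)) :=
  {U | (∀ a ∈ U, IsFr 𝔞 Z a ∧ a.j ∈ R) ∧ ∀ a ∈ U, ∀ b ∈ U, a ≠ b → Orth a b}

section

variable {𝔞} [DecidableEq κ] {R R' Z : Finset κ}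

theorem frC_down : ∀ s ∈ FrC 𝔞 R Z, ∀ t ⊆ s, t ∈ FrC 𝔞 R Z :=
  fun _ hs _ ht => ⟨fun a ha => hs.1 a (ht ha), fun a ha b hb => hs.2 a (ht ha) b (ht hb)⟩

theorem frC_mono (h : R ⊆ R') : FrC 𝔞 R Z ⊆ FrC 𝔞 R' Z :=
  fun _ hs => ⟨fun a ha => ⟨(hs.1 a ha).1, h (hs.1 a ha).2⟩, hs.2⟩

theorem injOn_colour {s : Finset (Fr κ Λ)} (hs : s ∈ FrC 𝔞 R Z) :
    Set.InjOn Fr.j (s : Set (Fr κ Λ)) :=
  fun a ha b hb h => by_contra fun hne => (hs.2 a ha b hb hne).1 h

theorem insert_mem {s : Finset (Fr κ Λ)} {y : Fr κ Λ} (hs : s ∈ FrC 𝔞 R Z) (hy : IsFr 𝔞 Z y)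
    (hyR : y.j ∈ R) (h : ∀ a ∈ s, Orth a y) : insert y s ∈ FrC 𝔞 R Z := by
  refine ⟨fun a ha => ?_, fun a ha b hb hne => ?_⟩
  · rcases mem_insert.1 ha with rfl | ha
    · exact ⟨hy, hyR⟩
    · exact hs.1 a ha
  · by_cases hay : a = y
    · subst hay
      exact (h b ((mem_insert.1 hb).resolve_left (Ne.symm hne))).symm
    · have ha' := (mem_insert.1 ha).resolve_left hay
      by_cases hby : b = y
      · subst hby; exact h a ha'
      · exact hs.2 a ha' b ((mem_insert.1 hb).resolve_left hby) hne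

/-- The standard frame. -/
def stdFr (j : κ) : Fr κ Λ := ⟨j, Pi.single j 1, Pi.single j 1⟩

theorem isFr_stdFr {j : κ} (hj : j ∉ Z) : IsFr 𝔞 Z (stdFr j) := by
  refine ⟨fun i => ?_, fun i => ?_, ?_, hj, fun z hz => ?_, fun z hz => ?_⟩
  · simp [stdFr]
  · simp [stdFr]
  · simp [stdFr, dot, Pi.single_apply]
  · exact Pi.single_eq_of_ne (fun h : z = j => hj (h ▸ hz)) _
  · exact Pi.single_eq_of_ne (fun h : z = j => hj (h ▸ hz)) _

/-! ### Congruence to `0` or `1` -/

variable (𝔞) in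
/-- Congruent to `0` or `1`. -/
def Uni (x : Λ) : Prop := x ∈ 𝔞 ∨ x - 1 ∈ 𝔞

omit [Fintype κ] in
theorem Std.uni {j : κ} {v : κ → Λ} (h : Std 𝔞 j v) (i : κ) : Uni 𝔞 (v i) := by
  by_cases hij : i = j
  · subst hij; exact Or.inr (by simpa using h i)
  · exact Or.inl (by simpa [hij] using h i)

omit [Fintype κ] in
theorem Std.mem {j i : κ} {v : κ → Λ} (h : Std 𝔞 j v) (hij : i ≠ j) : v i ∈ 𝔞 := by
  simpa [hij] using h i

omit [Fintype κ] in
theorem Std.sub_one {j : κ} {v : κ → Λ} (h : Std 𝔞 j v) : v j - 1 ∈ 𝔞 := by simpa using h j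

theorem uni_mul_mem {x a : Λ} (hx : Uni 𝔞 x) (ha : a ∈ 𝔞) : x * a ∈ 𝔞 := by
  rcases hx with hx | hx
  · exact mul_mem hx ha
  · simpa [sub_mul] using add_mem (mul_mem hx ha) ha

theorem mem_mul_uni {x a : Λ} (hx : Uni 𝔞 x) (ha : a ∈ 𝔞) : a * x ∈ 𝔞 := by
  rcases hx with hx | hx
  · exact mul_mem ha hx
  · simpa [mul_sub] using add_mem (mul_mem ha hx) ha

theorem dot_sub_one {j : κ} {f v : κ → Λ} (hf : Std 𝔞 j f) (hv : Std 𝔞 j v) :
    dot f v - 1 ∈ 𝔞 := by
  rw [dot, ← add_sum_erase univ _ (mem_univ j), add_sub_right_comm]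
  refine add_mem ?_ (sum_mem fun i hi => uni_mul_mem (hf.uni i) (hv.mem (ne_of_mem_erase hi)))
  have h : f j * v j - 1 = (f j - 1) * v j + (v j - 1) := by rw [sub_mul, one_mul]; abel
  rw [h]
  exact add_mem (mem_mul_uni (hv.uni j) hf.sub_one) hv.sub_one

theorem dot_mem {j i : κ} {f v : κ → Λ} (hf : Std 𝔞 j f) (hv : Std 𝔞 i v) (h : j ≠ i) :
    dot f v ∈ 𝔞 := by
  refine sum_mem fun l _ => ?_
  by_cases hl : l = i
  · subst hl; exact mem_mul_uni (hv.uni l) (hf.mem (Ne.symm h))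
  · exact uni_mul_mem (hf.uni l) (hv.mem hl)

omit [DecidableEq κ] in
theorem dot_sub_right (f v v' : κ → Λ) : dot f (v - v') = dot f v - dot f v' := by
  simp [dot, mul_sub, sum_sub_distrib]

omit [DecidableEq κ] in
theorem dot_sub_left (f f' v : κ → Λ) : dot (f - f') v = dot f v - dot f' v := by
  simp [dot, sub_mul, sum_sub_distrib]

omit [DecidableEq κ] in
theorem dot_mul_right (f v : κ → Λ) (c : Λ) : dot f (fun i => v i * c) = dot f v * c := by
  simp [dot, sum_mul, mul_assoc]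

omit [DecidableEq κ] in
theorem dot_mul_left (f v : κ → Λ) (c : Λ) : dot (fun i => c * f i) v = c * dot f v := by
  simp [dot, mul_sum, mul_assoc]

theorem dot_single_left (a : κ) (c : Λ) (v : κ → Λ) : dot (Pi.single a c) v = c * v a := by
  simp [dot, Pi.single_apply, ite_mul]

/-! ### Inverses -/

variable {k : ℕ}

theorem nilp_pow (hk : Nilp 𝔞 k) {T : Type} [Fintype T] [DecidableEq T] {Y : Matrix T T Λ}
    (hY : ∀ a b, Y a b ∈ 𝔞) : Y ^ k = 0 := by
  suffices h : ∀ (i : ℕ) (r : List Λ), (∀ x ∈ r, x ∈ 𝔞) → k ≤ r.length + i → ∀ a b,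
      (Y ^ i) a b * r.prod = 0 by
    ext a b
    simpa using h k [] (by simp) (by simp) a b
  intro i
  induction i with
  | zero => intro r hr hk' a b; rw [hk r hr (by simpa using hk'), mul_zero]
  | succ i ih =>
    intro r hr hk' a b
    rw [pow_succ, Matrix.mul_apply, sum_mul]
    refine sum_eq_zero fun l _ => ?_
    rw [mul_assoc, ← List.prod_cons]
    refine ih _ (fun x hx => ?_) (by simp only [List.length_cons]; omega) a l
    rcases List.mem_cons.1 hx with rfl | hx
    · exact hY l b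
    · exact hr x hx

theorem exists_inv (hk : Nilp 𝔞 k) {x : Λ} (hx : x - 1 ∈ 𝔞) :
    ∃ c, c * x = 1 ∧ x * c = 1 ∧ c - 1 ∈ 𝔞 := by
  set α := 1 - x with hα
  have hα' : α ∈ 𝔞 := by rw [hα, ← neg_sub]; exact neg_mem hx
  have hpow : α ^ (k + 1) = 0 := by
    simpa using hk (List.replicate (k + 1) α) (fun y hy => (List.eq_of_mem_replicate hy) ▸ hα')
      (by simp)
  have hmem : ∀ i, α ^ (i + 1) ∈ 𝔞 := fun i => by
    induction i with
    | zero => simpa using hα'
    | succ i ih => rw [pow_succ]; exact mul_mem ih hα'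
  have e : x = 1 - α := by simp [hα]
  refine ⟨∑ i ∈ range (k + 1), α ^ i, ?_, ?_, ?_⟩
  · rw [e, geom_sum_mul_neg, hpow, sub_zero]
  · rw [e, mul_neg_geom_sum, hpow, sub_zero]
  · rw [sum_range_succ', pow_zero, add_sub_cancel_right]
    exact sum_mem fun i _ => hmem i

/-- A system congruent to the identity has a solution in `𝔞`, in both forms. -/
theorem exists_solve (hk : Nilp 𝔞 k) {T : Type} [Fintype T] [DecidableEq T] {Y : Matrix T T Λ}
    (hY : ∀ a b, Y a b ∈ 𝔞) {y : T → Λ} (hy : ∀ a, y a ∈ 𝔞) :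
    (∃ x : T → Λ, (∀ a, x a ∈ 𝔞) ∧ (1 + Y).mulVec x = -y) ∧
    ∃ x : T → Λ, (∀ a, x a ∈ 𝔞) ∧ Matrix.vecMul x (1 + Y) = -y := by
  have h0 : (-Y) ^ k = 0 := nilp_pow hk fun a b => neg_mem (hY a b)
  have e : 1 + Y = 1 - -Y := by abel
  constructor
  · refine ⟨-(∑ i ∈ range k, (-Y) ^ i).mulVec y, fun a => ?_, ?_⟩
    · refine neg_mem ?_
      rw [Matrix.sum_mulVec, Finset.sum_apply]
      refine sum_mem fun i _ => ?_
      suffices h : ∀ (i : ℕ) a, ((-Y) ^ i).mulVec y a ∈ 𝔞 from h i a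
      intro i
      induction i with
      | zero => simpa using hy
      | succ i ih =>
        intro a
        rw [pow_succ', ← Matrix.mulVec_mulVec]
        exact sum_mem fun b _ => mul_mem (neg_mem (hY a b)) (ih b)
    · rw [Matrix.mulVec_neg, Matrix.mulVec_mulVec, e, mul_neg_geom_sum, h0, sub_zero,
        Matrix.one_mulVec]
  · refine ⟨-Matrix.vecMul y (∑ i ∈ range k, (-Y) ^ i), fun a => ?_, ?_⟩
    · refine neg_mem ?_
      rw [Matrix.vecMul_sum, Finset.sum_apply]
      refine sum_mem fun i _ => ?_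
      suffices h : ∀ (i : ℕ) a, Matrix.vecMul y ((-Y) ^ i) a ∈ 𝔞 from h i a
      intro i
      induction i with
      | zero => simpa using hy
      | succ i ih =>
        intro a
        rw [pow_succ, ← Matrix.vecMul_vecMul]
        exact sum_mem fun b _ => mul_mem (ih b) (neg_mem (hY b a))
    · rw [Matrix.neg_vecMul, Matrix.vecMul_vecMul, e, geom_sum_mul_neg, h0, sub_zero,
        Matrix.vecMul_one]

/-- Frames of distinct colours admit an orthogonal frame of any other colour. -/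
theorem exists_orth (hk : Nilp 𝔞 k) {U : Finset (Fr κ Λ)} (hU : ∀ a ∈ U, IsFr 𝔞 Z a)
    (hinj : Set.InjOn Fr.j (U : Set (Fr κ Λ))) {j : κ} (hj : j ∉ Z) (hjU : ∀ a ∈ U, a.j ≠ j) :
    ∃ b, IsFr 𝔞 Z b ∧ b.j = j ∧ ∀ a ∈ U, Orth a b := by
  classical
  have hne : ∀ a b : U, a ≠ b → a.1.j ≠ b.1.j := fun a b h e => h (Subtype.ext (hinj a.2 b.2 e))
  let Yf : Matrix U U Λ := Matrix.of (fun a b => a.1.f b.1.j) - 1
  let Yv : Matrix U U Λ := Matrix.of (fun b a => a.1.v b.1.j) - 1
  have hYf : ∀ a b, Yf a b ∈ 𝔞 := fun a b => by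
    simp only [Yf, Matrix.sub_apply, Matrix.of_apply, Matrix.one_apply]
    by_cases h : a = b
    · subst h; simpa using (hU a.1 a.2).f_std.sub_one
    · simpa [h] using (hU a.1 a.2).f_std.mem (Ne.symm (hne a b h))
  have hYv : ∀ a b, Yv a b ∈ 𝔞 := fun b a => by
    simp only [Yv, Matrix.sub_apply, Matrix.of_apply, Matrix.one_apply]
    by_cases h : b = a
    · subst h; simpa using (hU b.1 b.2).v_std.sub_one
    · simpa [h] using (hU a.1 a.2).v_std.mem (hne b a h)
  obtain ⟨ξ, hξ, hξe⟩ := (exists_solve hk hYf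
    (y := fun a : U => a.1.f j) fun a => (hU a.1 a.2).f_std.mem (Ne.symm (hjU a.1 a.2))).1
  obtain ⟨η, hη, hηe⟩ := (exists_solve hk hYv
    (y := fun a : U => a.1.v j) fun a => (hU a.1 a.2).v_std.mem (Ne.symm (hjU a.1 a.2))).2
  simp only [Yf, Yv, add_sub_cancel] at hξe hηe
  let put : (U → Λ) → κ → Λ := fun ξ => Pi.single j 1 + ∑ b : U, Pi.single b.1.j (ξ b)
  have hstd : ∀ ξ : U → Λ, (∀ b, ξ b ∈ 𝔞) → Std 𝔞 j (put ξ) := fun ξ hξ i => by
    simp only [put, Pi.add_apply, add_sub_cancel_left, Finset.sum_apply]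
    refine sum_mem fun b _ => ?_
    rw [Pi.single_apply]
    split_ifs
    exacts [hξ b, zero_mem _]
  have hzero : ∀ ξ : U → Λ, ∀ z ∈ Z, put ξ z = 0 := fun ξ z hz => by
    simp only [put, Pi.add_apply, Finset.sum_apply]
    rw [Pi.single_eq_of_ne (fun h : z = j => hj (h ▸ hz)), zero_add]
    exact sum_eq_zero fun b _ =>
      Pi.single_eq_of_ne (fun h : z = b.1.j => (hU b.1 b.2).notMem (h ▸ hz)) _
  have hpf : ∀ a : U, dot a.1.f (put ξ) = 0 := fun a => by
    simp only [put, dot, Pi.add_apply, Finset.sum_apply, mul_add, mul_sum, sum_add_distrib]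
    rw [sum_comm]
    simp only [Pi.single_apply, mul_ite, mul_one, mul_zero, sum_ite_eq', mem_univ, if_true]
    have := congrFun hξe a
    simp only [Matrix.mulVec, dotProduct, Matrix.of_apply, Pi.neg_apply] at this
    rw [this, add_neg_cancel]
  have hpv : ∀ a : U, dot (put η) a.1.v = 0 := fun a => by
    simp only [put, dot, Pi.add_apply, Finset.sum_apply, add_mul, sum_mul, sum_add_distrib]
    rw [sum_comm]
    simp only [Pi.single_apply, ite_mul, one_mul, zero_mul, sum_ite_eq', mem_univ, if_true]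
    have := congrFun hηe a
    simp only [Matrix.vecMul, dotProduct, Matrix.of_apply, Pi.neg_apply] at this
    rw [this, add_neg_cancel]
  obtain ⟨c, hc, -, hc1⟩ := exists_inv hk (dot_sub_one (hstd η hη) (hstd ξ hξ))
  refine ⟨⟨j, put ξ, fun i => c * put η i⟩, ⟨hstd ξ hξ, fun i => ?_, ?_, hj, hzero ξ,
    fun z hz => by simp [hzero η z hz]⟩, rfl,
    fun a ha => ⟨hjU a ha, hpf ⟨a, ha⟩, ?_⟩⟩
  · have h1 : c * put η i - (Pi.single j 1 : κ → Λ) i =
        (c - 1) * put η i + (put η i - (Pi.single j 1 : κ → Λ) i) := by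
      rw [sub_mul, one_mul]; abel
    show c * put η i - (Pi.single j 1 : κ → Λ) i ∈ 𝔞
    rw [h1]
    exact add_mem (mem_mul_uni ((hstd η hη).uni i) hc1) (hstd η hη i)
  · show dot (fun i => c * put η i) (put ξ) = 1
    rw [dot_mul_left, hc]
  · show dot (fun i => c * put η i) a.v = 0
    rw [dot_mul_left, hpv ⟨a, ha⟩, mul_zero]

/-! ### The link of a frame -/

section Link

variable (u : Fr κ Λ) (c : Λ)

/-- A frame orthogonal to `u` as a frame vanishing at the colour of `u`. -/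
def down (w : Fr κ Λ) : Fr κ Λ :=
  ⟨w.j, w.v - fun i => u.v i * (c * w.v u.j), w.f - Pi.single u.j (w.f u.j)⟩

/-- The inverse of `down`. -/
def up (w : Fr κ Λ) : Fr κ Λ :=
  ⟨w.j, w.v - fun i => u.v i * dot u.f w.v, w.f - Pi.single u.j (dot w.f u.v * c)⟩

variable {u c}

theorem down_dot (hc : u.v u.j * c = 1) {a b : Fr κ Λ} (ha : dot a.f u.v = 0) :
    dot (down u c a).f (down u c b).v = dot a.f b.v := by
  simp only [down, dot_sub_left, dot_sub_right, dot_mul_right, dot_single_left, ha]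
  rw [zero_sub, neg_mul, sub_neg_eq_add, mul_assoc (a.f u.j), ← mul_assoc (u.v u.j), hc, one_mul,
    sub_add_cancel]

theorem up_dot {a b : Fr κ Λ} (hc : c * u.v u.j = 1) (hb : b.v u.j = 0) :
    dot (up u c a).f (up u c b).v = dot a.f b.v := by
  simp only [up, dot_sub_left, dot_sub_right, dot_mul_right, dot_single_left, hb, mul_zero,
    sub_zero]
  simp only [mul_assoc, hc, mul_one, sub_self, zero_mul, sub_zero]

theorem up_down {a : Fr κ Λ} (hu : dot u.f u.v = 1) (hc : u.v u.j * c = 1)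
    (ha : Orth u a) : up u c (down u c a) = a := by
  obtain ⟨j, v, f⟩ := a
  obtain ⟨-, h1, h2⟩ := ha
  simp only [up, down, dot_sub_left, dot_sub_right, dot_mul_right, dot_single_left,
    Fr.mk.injEq, true_and] at h1 h2 ⊢
  constructor
  · funext i
    simp only [Pi.sub_apply, h1, hu, one_mul, zero_sub, mul_neg, sub_neg_eq_add, sub_add_cancel]
  · rw [h2, zero_sub, neg_mul, mul_assoc, hc, mul_one, Pi.single_neg, sub_neg_eq_add,
      sub_add_cancel]

theorem isFr_down (hu : IsFr 𝔞 Z u) (hc : u.v u.j * c = 1) (hc1 : c - 1 ∈ 𝔞) {a : Fr κ Λ}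
    (ha : IsFr 𝔞 Z a) (h : Orth u a) : IsFr 𝔞 (insert u.j Z) (down u c a) := by
  have hcv : c * a.v u.j ∈ 𝔞 := uni_mul_mem (Or.inr hc1) (ha.v_std.mem h.1)
  refine ⟨fun i => ?_, fun i => ?_, ?_, ?_, fun z hz => ?_, fun z hz => ?_⟩
  · show a.v i - u.v i * (c * a.v u.j) - (Pi.single a.j 1 : κ → Λ) i ∈ 𝔞
    rw [sub_right_comm]
    exact sub_mem (ha.v_std i) (uni_mul_mem (hu.v_std.uni i) hcv)
  · show a.f i - (Pi.single u.j (a.f u.j) : κ → Λ) i - (Pi.single a.j 1 : κ → Λ) i ∈ 𝔞
    rw [sub_right_comm]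
    refine sub_mem (ha.f_std i) ?_
    rw [Pi.single_apply]
    split_ifs
    exacts [ha.f_std.mem h.1, zero_mem _]
  · rw [down_dot hc h.2.2, ha.pair]
  · simp only [down, mem_insert, not_or]
    exact ⟨h.1.symm, ha.notMem⟩
  · simp only [down, Pi.sub_apply]
    rcases mem_insert.1 hz with rfl | hz
    · rw [← mul_assoc, hc, one_mul, sub_self]
    · simp [ha.v_zero z hz, hu.v_zero z hz]
  · simp only [down, Pi.sub_apply]
    rcases mem_insert.1 hz with rfl | hz
    · simp
    · rw [Pi.single_eq_of_ne (fun e : z = u.j => hu.notMem (e ▸ hz)), ha.f_zero z hz, sub_zero]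

theorem isFr_up (hu : IsFr 𝔞 Z u) (hc : c * u.v u.j = 1) (hc1 : c - 1 ∈ 𝔞) {a : Fr κ Λ}
    (ha : IsFr 𝔞 (insert u.j Z) a) : IsFr 𝔞 Z (up u c a) ∧ Orth u (up u c a) := by
  have hne : u.j ≠ a.j := fun e => ha.notMem (e ▸ mem_insert_self _ _)
  refine ⟨⟨fun i => ?_, fun i => ?_, ?_, fun h => ha.notMem (mem_insert_of_mem h), fun z hz => ?_,
    fun z hz => ?_⟩, hne, ?_, ?_⟩
  · show a.v i - u.v i * dot u.f a.v - (Pi.single a.j 1 : κ → Λ) i ∈ 𝔞
    rw [sub_right_comm]
    exact sub_mem (ha.v_std i) (uni_mul_mem (hu.v_std.uni i) (dot_mem hu.f_std ha.v_std hne))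
  · show a.f i - (Pi.single u.j (dot a.f u.v * c) : κ → Λ) i - (Pi.single a.j 1 : κ → Λ) i ∈ 𝔞
    rw [sub_right_comm]
    refine sub_mem (ha.f_std i) ?_
    rw [Pi.single_apply]
    split_ifs
    exacts [mem_mul_uni (Or.inr hc1) (dot_mem ha.f_std hu.v_std hne.symm), zero_mem _]
  · rw [up_dot hc (ha.v_zero _ (mem_insert_self _ _)), ha.pair]
  · simp [up, ha.v_zero z (mem_insert_of_mem hz), hu.v_zero z hz]
  · simp only [up, Pi.sub_apply]
    rw [Pi.single_eq_of_ne (fun e : z = u.j => hu.notMem (e ▸ hz)),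
      ha.f_zero z (mem_insert_of_mem hz), sub_zero]
  · simp only [up, dot_sub_right, dot_mul_right, hu.pair, one_mul, sub_self]
  · simp only [up, dot_sub_left, dot_single_left, mul_assoc, hc, mul_one, sub_self]

end Link

/-- The part of a chain containing `u`, with `u` removed. -/
def linkPart (u : Fr κ Λ) : Ch (Fr κ Λ) →ₗ[ZMod 2] Ch (Fr κ Λ) :=
  Finsupp.linearCombination (ZMod 2) fun s => if u ∈ s then Finsupp.single (s.erase u) 1 else 0

omit [Fintype κ] [Ring Λ] [DecidableEq κ] in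
theorem linkPart_single (u : Fr κ Λ) (s : Finset (Fr κ Λ)) (a : ZMod 2) :
    linkPart u (Finsupp.single s a) = if u ∈ s then Finsupp.single (s.erase u) a else 0 := by
  simp only [linkPart, Finsupp.linearCombination_single]
  split_ifs <;> simp

omit [Fintype κ] [Ring Λ] [DecidableEq κ] in
theorem bd_linkPart (u : Fr κ Λ) (z : Ch (Fr κ Λ)) : bd (linkPart u z) = linkPart u (bd z) := by
  induction z using Finsupp.induction_linear with
  | zero => simp
  | add f g hf hg => simp [hf, hg]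
  | single s a =>
    rw [linkPart_single, bd_single, map_sum]
    simp only [linkPart_single]
    by_cases hu : u ∈ s
    · rw [if_pos hu, bd_single, ← add_sum_erase s (fun x =>
        if u ∈ s.erase x then Finsupp.single ((s.erase x).erase u) a else 0) hu,
        if_neg (notMem_erase u s), zero_add]
      refine sum_congr rfl fun x hx => ?_
      rw [if_pos (mem_erase.2 ⟨(ne_of_mem_erase hx).symm, hu⟩), erase_right_comm]
    · rw [if_neg hu, map_zero, sum_eq_zero]
      exact fun x _ => if_neg fun h => hu (mem_of_mem_erase h)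

/-! ### Acyclicity -/

/-- Colours needed to fill cycles of families of size `c`. -/
def colBound : ℕ → ℕ
  | 0 => 1
  | c + 1 => colBound c + 2 ^ colBound c + 1

variable (𝔞) in
/-- The colours of one set can be removed from a cycle. -/
theorem remove_colours {c k : ℕ} (hk : Nilp 𝔞 k) {R₀ : Finset κ}
    (hR₀ : colBound c ≤ R₀.card)
    (ih : ∀ (Z' R' : Finset κ), Disjoint R' Z' → colBound c ≤ R'.card →
      Fills (FrC 𝔞 R' Z') (FrC 𝔞 R' Z') c)
    (hR : R₀ ⊆ R) (hRZ : Disjoint R Z) :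
    ∀ A : Finset κ, A ⊆ R \ R₀ → ∀ z, Sup (FrC 𝔞 (R₀ ∪ A) Z) (c + 1) z → bd z = 0 →
      ∃ z', Sup (FrC 𝔞 R₀ Z) (c + 1) z' ∧ bd z' = 0 ∧ Bnd (FrC 𝔞 R Z) (c + 1) (z + z') := by
  intro A
  induction A using Finset.induction_on with
  | empty =>
    intro _ z hz hbd
    exact ⟨z, by simpa using hz, hbd, by rw [ch_add_self]; exact Bnd.zero⟩
  | @insert a A haA ihA =>
    intro hA z hz hbd
    obtain ⟨haR, haR₀⟩ := mem_sdiff.1 (hA (mem_insert_self a A))
    have hRA : R₀ ∪ A ⊆ R := union_subset hR fun x hx => (mem_sdiff.1 (hA (mem_insert_of_mem hx))).1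
    have haRA : a ∉ R₀ ∪ A := by simp [haR₀, haA]
    set us := (z.support.biUnion id).filter fun w => w.j = a with hus
    have hufr : ∀ u ∈ us, IsFr 𝔞 Z u ∧ u.j = a := by
      intro u hu
      obtain ⟨hu1, hu2⟩ := mem_filter.1 hu
      obtain ⟨s, hs, hus'⟩ := mem_biUnion.1 hu1
      exact ⟨((hz s hs).1.1 u hus').1, hu2⟩
    have hkey : ∀ u ∈ us, ∃ M : Ch (Fr κ Λ),
        Sup {t | insert u t ∈ FrC 𝔞 (insert a (R₀ ∪ A)) Z ∧ u ∉ t} (c + 1) M ∧
          bd M = linkPart u z := by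
      intro u hu
      obtain ⟨hu1, hu2⟩ := hufr u hu
      obtain ⟨g, hg, hg', hg1⟩ := exists_inv hk hu1.v_std.sub_one
      have hl : Sup {t | insert u t ∈ FrC 𝔞 (R₀ ∪ insert a A) Z ∧ u ∉ t} c (linkPart u z) := by
        refine hz.map (linkPart u) fun s hs hsc => ?_
        rw [linkPart_single]
        split_ifs with hus'
        · refine Sup.single 1 ⟨?_, notMem_erase u s⟩ (by rw [card_erase_of_mem hus', hsc]; omega)
          rwa [insert_erase hus']
        · exact Sup.zero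
      have horth : ∀ s ∈ {t | insert u t ∈ FrC 𝔞 (R₀ ∪ insert a A) Z ∧ u ∉ t}, ∀ w ∈ s,
          Orth u w := fun s hs w hw => hs.1.2 u (mem_insert_self u s) w (mem_insert_of_mem hw)
            fun e => hs.2 (e ▸ hw)
      have hdown : Sup (FrC 𝔞 (R₀ ∪ A) (insert a Z)) c (chMap (down u g) (linkPart u z)) := by
        refine hl.chMap _ fun s hs _ _ => ⟨fun w hw => ?_, fun w hw w' hw' hne => ?_⟩
        · obtain ⟨b, hb, rfl⟩ := mem_image.1 hw
          obtain ⟨hb1, hb2⟩ := hs.1.1 b (mem_insert_of_mem hb)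
          refine ⟨hu2 ▸ isFr_down hu1 hg' hg1 hb1 (horth s hs b hb), ?_⟩
          have : b.j ≠ a := fun e => (horth s hs b hb).1 (hu2.trans e.symm)
          show b.j ∈ R₀ ∪ A
          simp only [mem_union, mem_insert] at hb2 ⊢
          tauto
        · obtain ⟨b, hb, rfl⟩ := mem_image.1 hw
          obtain ⟨b', hb', rfl⟩ := mem_image.1 hw'
          have h1 := hs.1.2 b (mem_insert_of_mem hb) b' (mem_insert_of_mem hb')
            fun e => hne (e ▸ rfl)
          exact ⟨h1.1, by rw [down_dot hg' (horth s hs b hb).2.2, h1.2.1],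
            by rw [down_dot hg' (horth s hs b' hb').2.2, h1.2.2]⟩
      have hdisj : Disjoint (R₀ ∪ A) (insert a Z) := by
        rw [Finset.disjoint_left]
        intro x hx hxZ
        rcases mem_insert.1 hxZ with rfl | hxZ
        · exact haRA hx
        · exact Finset.disjoint_left.1 hRZ (hRA hx) hxZ
      obtain ⟨w, hw, hwbd⟩ := ih _ _ hdisj (hR₀.trans (card_le_card subset_union_left)) _ hdown
        (by rw [chMap_bd, bd_linkPart, hbd, map_zero, map_zero])
      refine ⟨chMap (up u g) w, hw.chMap _ fun s hs _ _ => ?_, ?_⟩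
      · have h2 : ∀ b ∈ s, IsFr 𝔞 Z (up u g b) ∧ Orth u (up u g b) := fun b hb =>
          isFr_up hu1 hg hg1 (by rw [hu2]; exact (hs.1 b hb).1)
        refine ⟨insert_mem ⟨fun x hx => ?_, fun x hx x' hx' hne => ?_⟩ hu1
          (hu2 ▸ mem_insert_self _ _) fun x hx => ?_, fun hux => ?_⟩
        · obtain ⟨b, hb, rfl⟩ := mem_image.1 hx
          exact ⟨(h2 b hb).1, mem_insert_of_mem (hs.1 b hb).2⟩
        · obtain ⟨b, hb, rfl⟩ := mem_image.1 hx
          obtain ⟨b', hb', rfl⟩ := mem_image.1 hx'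
          have h1 := hs.2 b hb b' hb' fun e => hne (e ▸ rfl)
          have hz' : ∀ b ∈ s, b.v u.j = 0 := fun b hb =>
            (hs.1 b hb).1.v_zero _ (hu2.symm ▸ mem_insert_self _ _)
          exact ⟨h1.1, by rw [up_dot hg (hz' b' hb'), h1.2.1],
            by rw [up_dot hg (hz' b hb), h1.2.2]⟩
        · obtain ⟨b, hb, rfl⟩ := mem_image.1 hx
          exact (h2 b hb).2.symm
        · obtain ⟨b, hb, e⟩ := mem_image.1 hux
          exact (h2 b hb).2.1 (congrArg Fr.j e.symm)
      · rw [chMap_bd, hwbd, chMap_chMap]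
        refine (chMap_congr (g := id) fun s hs x hx => ?_).trans (chMap_id _)
        exact up_down hu1.pair hg' (horth s (hl s hs).1 x hx)
    choose! M hM hMbd using hkey
    set z₁ := z + ∑ u ∈ us, bd (cone u (M u)) with hz₁
    have hz₁eq : z₁ = (z + ∑ u ∈ us, cone u (linkPart u z)) + ∑ u ∈ us, M u := by
      rw [hz₁, add_assoc, ← sum_add_distrib]
      exact congrArg _ (sum_congr rfl fun u hu => by rw [bd_cone, hMbd u hu, add_comm])
    have hrest : Sup (FrC 𝔞 (R₀ ∪ A) Z) (c + 1) (z + ∑ u ∈ us, cone u (linkPart u z)) := by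
      have hz' : Sup {s | s ∈ FrC 𝔞 (R₀ ∪ insert a A) Z ∧ s ⊆ z.support.biUnion id} (c + 1) z :=
        fun s hs => ⟨⟨(hz s hs).1, subset_biUnion_of_mem id hs⟩, (hz s hs).2⟩
      let F : Ch (Fr κ Λ) →ₗ[ZMod 2] Ch (Fr κ Λ) :=
        LinearMap.id + ∑ u ∈ us, (cone u).comp (linkPart u)
      have hF : F z = z + ∑ u ∈ us, cone u (linkPart u z) := by simp [F]
      rw [← hF]
      refine hz'.map F fun s hs hsc => ?_
      simp only [F, LinearMap.add_apply, LinearMap.id_apply, LinearMap.coe_sum, Finset.sum_apply,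
        LinearMap.comp_apply, linkPart_single]
      by_cases hsa : ∃ w ∈ s, w.j = a
      · obtain ⟨w, hw, hwa⟩ := hsa
        rw [sum_eq_single w, if_pos hw, cone_single, if_neg (notMem_erase w s), insert_erase hw,
          ch_add_self]
        · exact Sup.zero
        · intro u hu huw
          rw [if_neg fun h : u ∈ s => huw (injOn_colour hs.1 h hw ((hufr u hu).2.trans hwa.symm)),
            map_zero]
        · exact fun h => absurd (mem_filter.2 ⟨hs.2 hw, hwa⟩) h
      · rw [sum_eq_zero fun u hu => by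
          rw [if_neg fun h => hsa ⟨u, h, (hufr u hu).2⟩, map_zero], add_zero]
        refine Sup.single 1 ⟨fun w hw => ⟨(hs.1.1 w hw).1, ?_⟩, hs.1.2⟩ hsc
        have h1 := (hs.1.1 w hw).2
        have h2 : w.j ≠ a := fun e => hsa ⟨w, hw, e⟩
        simp only [mem_union, mem_insert] at h1 ⊢
        tauto
    have hz₁sup : Sup (FrC 𝔞 (R₀ ∪ A) Z) (c + 1) z₁ := by
      rw [hz₁eq]
      refine hrest.add (Sup.sum _ _ fun u hu => (hM u hu).mono fun t ht _ => ?_)
      refine ⟨fun w hw => ⟨(ht.1.1 w (mem_insert_of_mem hw)).1, ?_⟩,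
        (frC_down _ ht.1 t (subset_insert u t)).2⟩
      refine (mem_insert.1 (ht.1.1 w (mem_insert_of_mem hw)).2).resolve_left fun e => ?_
      exact (ht.1.2 u (mem_insert_self u t) w (mem_insert_of_mem hw) fun e' => ht.2 (e' ▸ hw)).1
        ((hufr u hu).2.trans e.symm)
    have hz₁bd : bd z₁ = 0 := by
      rw [hz₁, map_add, hbd, map_sum, zero_add]
      exact sum_eq_zero fun u _ => bd_bd _
    obtain ⟨z', h1, h2, h3⟩ := ihA (fun x hx => hA (mem_insert_of_mem hx)) z₁ hz₁sup hz₁bd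
    refine ⟨z', h1, h2, ?_⟩
    have hb : Bnd (FrC 𝔞 R Z) (c + 1) (∑ u ∈ us, bd (cone u (M u))) :=
      Bnd.sum _ _ fun u hu => ⟨cone u (M u), (hM u hu).cone u fun t ht _ _ =>
        frC_mono (insert_subset haR hRA) ht.1, rfl⟩
    have := hb.add h3
    rwa [hz₁, ← add_assoc, ← add_assoc, add_comm _ z, add_assoc z, ch_add_self, add_zero] at this

variable (𝔞) in
/-- Families with colours in a small set are filled by frames of fresh colours. -/
theorem fill_small {c k : ℕ} (hk : Nilp 𝔞 k) {R₀ : Finset κ} (hR : R₀ ⊆ R) (hRZ : Disjoint R Z)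
    (hcard : 2 ^ R₀.card + 1 ≤ (R \ R₀).card) {z : Ch (Fr κ Λ)} (hz : Sup (FrC 𝔞 R₀ Z) c z)
    (hbd : bd z = 0) : Bnd (FrC 𝔞 R Z) c z := by
  obtain ⟨col⟩ : Nonempty (Option ↥R₀.powerset ↪ ↥(R \ R₀)) := by
    refine Function.Embedding.nonempty_of_card_le ?_
    rw [Fintype.card_option, Fintype.card_coe, Fintype.card_coe, card_powerset]
    exact hcard
  set b : Fr κ Λ := stdFr (col none).1
  have hbR := mem_sdiff.1 (col none).2
  have hbfr : IsFr 𝔞 Z b := isFr_stdFr (Finset.disjoint_left.1 hRZ hbR.1)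
  let colour : Finset (Fr κ Λ) → κ := fun s =>
    if h : s.image Fr.j ∈ R₀.powerset then (col (some ⟨_, h⟩)).1 else b.j
  let Ok : Finset (Fr κ Λ) → Finset (Fr κ Λ) → Fr κ Λ → Prop := fun s old y =>
    IsFr 𝔞 Z y ∧ y.j = colour s ∧ ∀ a ∈ insert b (s ∪ old), Orth a y
  have : Nonempty (Fr κ Λ) := ⟨b⟩
  let x : Finset (Fr κ Λ) → Fr κ Λ := fun s => s.strongInduction fun s rec =>
    Classical.epsilon (Ok s ((s.ssubsets.filter Finset.Nonempty).attach.image fun t =>
      rec t.1 (mem_ssubsets.1 (mem_filter.1 t.2).1)))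
  let old : Finset (Fr κ Λ) → Finset (Fr κ Λ) := fun s =>
    (s.ssubsets.filter Finset.Nonempty).image x
  have hxdef : ∀ s, x s = Classical.epsilon (Ok s (old s)) := fun s => by
    conv_lhs => simp only [x]; rw [Finset.strongInduction_eq]
    congr 2
    ext w
    simp [old, x]
  have hcol : ∀ {s}, s ∈ FrC 𝔞 R₀ Z → ∃ h, colour s = (col (some ⟨s.image Fr.j, h⟩)).1 :=
    fun {s} hs => by
      have h : s.image Fr.j ∈ R₀.powerset := mem_powerset.2 fun j hj => by
        obtain ⟨a, ha, rfl⟩ := mem_image.1 hj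
        exact (hs.1 a ha).2
      exact ⟨h, dif_pos h⟩
  have hx : ∀ s, s ∈ FrC 𝔞 R₀ Z → s.Nonempty → Ok s (old s) (x s) := by
    intro s
    induction s using Finset.strongInduction with
    | _ s ihs =>
      intro hs _
      rw [hxdef]
      refine Classical.epsilon_spec ?_
      have hold : ∀ w ∈ old s, ∃ t, t ⊂ s ∧ w = x t ∧ IsFr 𝔞 Z w ∧ w.j = colour t := by
        intro w hw
        obtain ⟨t, ht, rfl⟩ := mem_image.1 hw
        obtain ⟨ht1, ht2⟩ := mem_filter.1 ht
        obtain ⟨h1, h2, -⟩ := ihs t (mem_ssubsets.1 ht1)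
          (frC_down _ hs t (mem_ssubsets.1 ht1).1) ht2
        exact ⟨t, mem_ssubsets.1 ht1, rfl, h1, h2⟩
      obtain ⟨hsT, hsc⟩ := hcol hs
      have hnew : ∀ a ∈ insert b (s ∪ old s), IsFr 𝔞 Z a ∧ a.j ≠ colour s := by
        intro a ha
        simp only [mem_insert, mem_union] at ha
        rw [hsc]
        rcases ha with rfl | ha | ha
        · exact ⟨hbfr, fun e => by simpa using col.injective (Subtype.ext e)⟩
        · exact ⟨(hs.1 a ha).1, fun e => (mem_sdiff.1 (col _).2).2 (e ▸ (hs.1 a ha).2)⟩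
        · obtain ⟨t, ht, rfl, h1, h2⟩ := hold a ha
          obtain ⟨htT, htc⟩ := hcol (frC_down _ hs t ht.1)
          refine ⟨h1, fun e => ?_⟩
          rw [h2, htc] at e
          have e' : t.image Fr.j = s.image Fr.j :=
            congrArg Subtype.val (Option.some_injective _ (col.injective (Subtype.ext e)))
          refine ht.2 fun w hw => ?_
          obtain ⟨w', hw', hww⟩ := mem_image.1
            (show w.j ∈ t.image Fr.j by rw [e']; exact mem_image_of_mem _ hw)
          rwa [injOn_colour hs hw (ht.1 hw') hww.symm]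
      refine (exists_orth hk (j := colour s) (fun a ha => (hnew a ha).1) ?_ ?_
        fun a ha => (hnew a ha).2).elim fun y hy => ⟨y, hy.1, hy.2.1, hy.2.2⟩
      · intro a ha a' ha' e
        simp only [coe_insert, coe_union, Set.mem_insert_iff, Set.mem_union, mem_coe] at ha ha'
        have key : ∀ p ∈ insert b (s ∪ old s),
            (p = b ∧ p.j = (col none).1) ∨ (p ∈ s ∧ p.j ∈ R₀) ∨ ∃ t h, t ⊂ s ∧ p = x t ∧
              p.j = (col (some ⟨t.image Fr.j, h⟩)).1 := by
          intro p hp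
          simp only [mem_insert, mem_union] at hp
          rcases hp with rfl | hp | hp
          · exact Or.inl ⟨rfl, rfl⟩
          · exact Or.inr (Or.inl ⟨hp, (hs.1 p hp).2⟩)
          · obtain ⟨t, ht, rfl, -, h2⟩ := hold p hp
            obtain ⟨htT, htc⟩ := hcol (frC_down _ hs t ht.1)
            exact Or.inr (Or.inr ⟨t, htT, ht, rfl, h2.trans htc⟩)
        have hfresh : ∀ o, (col o).1 ∉ R₀ := fun o => (mem_sdiff.1 (col o).2).2
        rcases key a (by simpa using ha) with ⟨rfl, h1⟩ | ⟨hs1, h1⟩ | ⟨t, hT, ht, rfl, h1⟩ <;>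
          rcases key a' (by simpa using ha') with ⟨rfl, h2⟩ | ⟨hs2, h2⟩ | ⟨t', hT', ht', rfl, h2⟩
        · rfl
        · exact absurd (by rw [← h1, e]; exact h2) (hfresh none)
        · simpa using col.injective (Subtype.ext (h1.symm.trans (e.trans h2)))
        · exact absurd (by rw [← h2, ← e]; exact h1) (hfresh none)
        · exact injOn_colour hs hs1 hs2 e
        · exact absurd (by rw [← h2, ← e]; exact h1) (hfresh _)
        · simpa using col.injective (Subtype.ext (h1.symm.trans (e.trans h2)))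
        · exact absurd (by rw [← h1, e]; exact h2) (hfresh _)
        · have e' : t.image Fr.j = t'.image Fr.j := congrArg Subtype.val
            (Option.some_injective _ (col.injective (Subtype.ext (h1.symm.trans (e.trans h2)))))
          have : t = t' := by
            refine Finset.Subset.antisymm (fun w hw => ?_) (fun w hw => ?_)
            · obtain ⟨w', hw', hww⟩ := mem_image.1
                (show w.j ∈ t'.image Fr.j by rw [← e']; exact mem_image_of_mem _ hw)
              rwa [injOn_colour hs (ht.1 hw) (ht'.1 hw') hww.symm]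
            · obtain ⟨w', hw', hww⟩ := mem_image.1
                (show w.j ∈ t.image Fr.j by rw [e']; exact mem_image_of_mem _ hw)
              rwa [injOn_colour hs (ht'.1 hw) (ht.1 hw') hww.symm]
          rw [this]
      · rw [hsc]
        exact Finset.disjoint_left.1 hRZ (mem_sdiff.1 (col _).2).1
  have hxR : ∀ s, s ∈ FrC 𝔞 R₀ Z → s.Nonempty → (x s).j ∈ R := fun s hs hne => by
    obtain ⟨h, hc⟩ := hcol hs
    rw [(hx s hs hne).2.1, hc]
    exact (mem_sdiff.1 (col _).2).1
  let all : Finset (Fr κ Λ) → Finset (Fr κ Λ) := fun s =>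
    (s.powerset.filter Finset.Nonempty).image x
  obtain ⟨F, hF⟩ := exists_extension (FrC 𝔞 R₀ Z) frC_down c LinearMap.id (fun _ _ _ => rfl)
    (fun j s w => Sup {t | t ∈ FrC 𝔞 R Z ∧ (t ⊆ s ∪ all s ∨ t ⊆ insert b (all s))} (j + 1) w)
    (by
      intro s hs _ d hd hcyc
      rcases s.eq_empty_or_nonempty with rfl | hne
      · refine ⟨Finsupp.single {b} 1, Sup.single 1 ⟨⟨?_, ?_⟩, Or.inr (by simp)⟩ (by simp), ?_⟩
        · intro a ha
          rw [mem_singleton.1 ha]
          exact ⟨hbfr, hbR.1⟩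
        · intro a ha a' ha' hne
          exact absurd ((mem_singleton.1 ha).trans (mem_singleton.1 ha').symm) hne
        · simp [bd_single]
      refine ⟨cone (x s) _, ?_, bd_cone_of_bd_eq_zero _ hcyc⟩
      have hsub : Sup {t | t ∈ FrC 𝔞 R Z ∧ (t ⊆ s ∪ old s ∨ t ⊆ insert b (old s))} s.card
          ((LinearMap.id : Ch (Fr κ Λ) →ₗ[ZMod 2] Ch (Fr κ Λ)) (Finsupp.single s 1) +
            ∑ a ∈ s, d a) := by
        refine Sup.add (Sup.single 1 ⟨frC_mono hR hs, Or.inl subset_union_left⟩ rfl)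
          (Sup.sum _ _ fun a ha => ?_)
        have h1 : s.card - 1 + 1 = s.card := by have := card_pos.2 ⟨a, ha⟩; omega
        have h3 : Sup {t | t ∈ FrC 𝔞 R Z ∧ (t ⊆ s.erase a ∪ all (s.erase a) ∨
            t ⊆ insert b (all (s.erase a)))} s.card (d a) := h1 ▸ hd a ha
        refine h3.mono fun t ht _ => (?_ : t ∈ {t | t ∈ FrC 𝔞 R Z ∧
          (t ⊆ s ∪ old s ∨ t ⊆ insert b (old s))})
        refine ⟨ht.1, ?_⟩
        have h2 : all (s.erase a) ⊆ old s := image_subset_image fun t ht => by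
          obtain ⟨ht1, ht2⟩ := mem_filter.1 ht
          exact mem_filter.2 ⟨mem_ssubsets.2
            ((mem_powerset.1 ht1).trans_ssubset (erase_ssubset ha)), ht2⟩
        rcases ht.2 with h | h
        · exact Or.inl (h.trans (union_subset_union (erase_subset a s) h2))
        · exact Or.inr (h.trans (insert_subset_insert _ h2))
      have hold' : insert (x s) (old s) ⊆ all s := by
        refine insert_subset (mem_image.2 ⟨s, mem_filter.2 ⟨mem_powerset_self s, hne⟩, rfl⟩)
          (image_subset_image fun t ht => ?_)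
        obtain ⟨ht1, ht2⟩ := mem_filter.1 ht
        exact mem_filter.2 ⟨mem_powerset.2 (mem_ssubsets.1 ht1).1, ht2⟩
      refine hsub.cone (x s) fun t ht _ _ => ⟨insert_mem ht.1 (hx s hs hne).1 (hxR s hs hne)
        fun a ha => (hx s hs hne).2.2 a ?_, ?_⟩
      · rcases ht.2 with h | h
        · exact mem_insert_of_mem (h ha)
        · exact (insert_subset_insert b subset_union_right) (h ha)
      · have h1 : x s ∈ all s := hold' (mem_insert_self _ _)
        have h2 : old s ⊆ all s := (subset_insert _ _).trans hold'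
        rcases ht.2 with h | h
        · exact Or.inl (insert_subset (mem_union_right _ h1)
            (h.trans (union_subset_union Subset.rfl h2)))
        · exact Or.inr (insert_subset (mem_insert_of_mem h1) (h.trans (insert_subset_insert _ h2))))
  refine ⟨F z, hz.map F fun s hs hsc => hsc ▸ ((hF s hs hsc.le).1.mono fun t ht _ => ht.1), ?_⟩
  rw [extension_apply (fun s hs hsc => (hF s hs hsc).2) le_rfl hz, hbd, map_zero, add_zero,
    LinearMap.id_apply]

variable (𝔞) in
/-- Orthogonal families of frames are acyclic once there are enough colours. -/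
theorem fills_frC {k : ℕ} (hk : Nilp 𝔞 k) : ∀ (c : ℕ) (Z R : Finset κ), Disjoint R Z →
    colBound c ≤ R.card → Fills (FrC 𝔞 R Z) (FrC 𝔞 R Z) c := by
  intro c
  induction c with
  | zero =>
    intro Z R hRZ hR z hz hbd
    obtain ⟨j, hj⟩ := card_pos.1 (lt_of_lt_of_le Nat.one_pos hR)
    refine ⟨cone (stdFr j) z, hz.cone _ fun s _ hs _ => ?_, bd_cone_of_bd_eq_zero _ hbd⟩
    rw [card_eq_zero.1 hs]
    exact insert_mem ⟨by simp, by simp⟩ (isFr_stdFr (Finset.disjoint_left.1 hRZ hj)) hj (by simp)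
  | succ c ih =>
    intro Z R hRZ hR z hz hbd
    rw [colBound] at hR
    have := Nat.two_pow_pos (colBound c)
    obtain ⟨R₀, hR₀, hc₀⟩ := exists_subset_card_eq (show colBound c ≤ R.card by omega)
    obtain ⟨z', h1, h2, h3⟩ := remove_colours 𝔞 hk hc₀.ge (fun Z' R' => ih Z' R') hR₀ hRZ (R \ R₀)
      Subset.rfl z (by rwa [union_sdiff_of_subset hR₀]) hbd
    have h4 := fill_small 𝔞 hk hR₀ hRZ
      (by rw [card_sdiff_of_subset hR₀, hc₀]; omega) h1 h2
    have := h3.add h4
    rwa [add_assoc, ch_add_self, add_zero] at this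

/-! ### Completion to an invertible matrix -/

variable (𝔞) in
/-- An orthogonal family is the image of standard frames under a matrix congruent to `1`. -/
theorem exists_matrix {k : ℕ} (hk : Nilp 𝔞 k) {U : Finset (Fr κ Λ)} (hU : U ∈ FrC 𝔞 R Z) :
    ∃ g g' : Matrix κ κ Λ, g * g' = 1 ∧ g' * g = 1 ∧ (∀ i l, (g - 1) i l ∈ 𝔞) ∧
      (∀ i l, (g' - 1) i l ∈ 𝔞) ∧
      (∀ a ∈ U, (fun i => g i a.j) = a.v ∧ Matrix.vecMul a.f g = Pi.single a.j 1) ∧
      ∀ z ∈ Z, ∀ i, (g - 1) i z = 0 ∧ (g - 1) z i = 0 := by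
  let g : Matrix κ κ Λ := Matrix.of fun i l =>
    if h : ∃ a ∈ U, a.j = l then h.choose.v i
    else (Pi.single l 1 : κ → Λ) i - ∑ a ∈ U, a.v i * a.f l
  have hj : ∀ a ∈ U, ∀ i, g i a.j = a.v i := fun a ha i => by
    have h : ∃ b ∈ U, b.j = a.j := ⟨a, ha, rfl⟩
    simp only [g, Matrix.of_apply, dif_pos h]
    rw [injOn_colour hU h.choose_spec.1 ha h.choose_spec.2]
  have hn : ∀ l, (∀ a ∈ U, a.j ≠ l) → ∀ i,
      g i l = (Pi.single l 1 : κ → Λ) i - ∑ a ∈ U, a.v i * a.f l := fun l h i => by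
    simp only [g, Matrix.of_apply, dif_neg (show ¬ ∃ a ∈ U, a.j = l by simpa using h)]
  have hgm : ∀ i l, (g - 1) i l ∈ 𝔞 := fun i l => by
    by_cases h : ∃ a ∈ U, a.j = l
    · obtain ⟨a, ha, rfl⟩ := h
      simpa [Matrix.one_apply, Pi.single_apply, hj a ha] using (hU.1 a ha).1.v_std i
    · have h' : ∀ a ∈ U, a.j ≠ l := fun a ha e => h ⟨a, ha, e⟩
      simpa [Matrix.one_apply, Pi.single_apply, hn l h'] using
        sum_mem (S := 𝔞) fun a ha => uni_mul_mem ((hU.1 a ha).1.v_std.uni i)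
          ((hU.1 a ha).1.f_std.mem (h' a ha).symm)
  have hY : (1 - g) ^ k = 0 := nilp_pow hk fun a b => by
    simpa [neg_sub] using neg_mem (hgm a b)
  refine ⟨g, ∑ i ∈ range k, (1 - g) ^ i, ?_, ?_, hgm, ?_, fun a ha => ⟨funext (hj a ha), ?_⟩,
    fun z hz i => ⟨?_, ?_⟩⟩
  · simpa [hY] using mul_neg_geom_sum (1 - g) k
  · simpa [hY] using geom_sum_mul_neg (1 - g) k
  · intro i l
    cases k with
    | zero =>
      have h1 : (1 : Λ) = 0 := by simpa using hk [] (by simp) le_rfl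
      rw [eq_zero_of_zero_eq_one h1.symm ((∑ i ∈ range 0, (1 - g) ^ i - 1 : Matrix κ κ Λ) i l)]
      exact zero_mem _
    | succ k =>
      rw [sum_range_succ', pow_zero, add_sub_cancel_right, Matrix.sum_apply]
      refine sum_mem fun e he => ?_
      clear he
      induction e generalizing i l with
      | zero => simpa [neg_sub] using neg_mem (hgm i l)
      | succ e ih =>
        rw [pow_succ, Matrix.mul_apply]
        exact sum_mem fun m _ => mul_mem (ih i m) (by simpa [neg_sub] using neg_mem (hgm m l))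
  · funext l
    change dot a.f (fun i => g i l) = _
    by_cases h : ∃ b ∈ U, b.j = l
    · obtain ⟨b, hb, rfl⟩ := h
      rw [funext (hj b hb)]
      by_cases e : a = b
      · subst e; rw [(hU.1 a ha).1.pair, Pi.single_eq_same]
      · rw [(hU.2 a ha b hb e).2.1, Pi.single_eq_of_ne (hU.2 a ha b hb e).1.symm]
    · have h' : ∀ b ∈ U, b.j ≠ l := fun b hb e => h ⟨b, hb, e⟩
      rw [funext (hn l h'), Pi.single_eq_of_ne (h' a ha).symm]
      simp only [dot, mul_sub, mul_sum, sum_sub_distrib, ← mul_assoc]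
      rw [sum_comm]
      simp only [← sum_mul]
      rw [sum_eq_single a (fun b hb hne => ?_) (absurd ha)]
      · rw [show ∑ i, a.f i * a.v i = 1 from (hU.1 a ha).1.pair]
        simp [Pi.single_apply]
      · rw [show ∑ i, a.f i * b.v i = 0 from (hU.2 a ha b hb hne.symm).2.1, zero_mul]
  · have h' : ∀ a ∈ U, a.j ≠ z := fun a ha e => (hU.1 a ha).1.notMem (e ▸ hz)
    have h0 : ∑ a ∈ U, a.v i * a.f z = 0 :=
      sum_eq_zero fun a ha => by rw [(hU.1 a ha).1.f_zero z hz, mul_zero]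
    simp [hn z h', h0, Matrix.one_apply, Pi.single_apply]
  · by_cases h : ∃ a ∈ U, a.j = i
    · obtain ⟨a, ha, rfl⟩ := h
      have : z ≠ a.j := fun e => (hU.1 a ha).1.notMem (e ▸ hz)
      simp [hj a ha, (hU.1 a ha).1.v_zero z hz, this]
    · have h' : ∀ a ∈ U, a.j ≠ i := fun a ha e => h ⟨a, ha, e⟩
      have h0 : ∑ a ∈ U, a.v z * a.f i = 0 :=
        sum_eq_zero fun a ha => by rw [(hU.1 a ha).1.v_zero z hz, zero_mul]
      simp [hn i h', h0, Matrix.one_apply, Pi.single_apply]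

end

end Vale.Agent.P067.Full.Nilframe

end
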