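import Vale.Agent.P067.Full.OppFlag
import Vale.Agent.P067.Full.Spec
import Vale.Agent.P067.Full.Group.Basic

/-!
# P067 full answer: links are complexes of opposite flags

The link, in the subcomplex of the colours `S`, of the face of types `J` of a chamber is the join
over the intervals between consecutive types of `J` of complexes of subspaces opposite to a flag.
-/

open Finset Module

noncomputable section

namespace Vale.Agent.P067.Full.LinkModel

set_option linter.unusedSectionVars false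

/-! ## The intervals between the types of `J` -/

section Blocks

variable {n : ℕ} {J : Finset (Fin n)} {s : Fin n}

/-- The rank in the cyclic order in which `s` is last. -/
abbrev rk (s a : Fin n) : ℕ := Grp.pos s a

theorem rk_inj {s a b : Fin n} (h : rk s a = rk s b) : a = b := by
  unfold rk Grp.pos at h
  have := a.2
  have := b.2
  simp only [Fin.lt_def] at h
  apply Fin.ext
  split_ifs at h <;> omega

theorem rk_le (s a : Fin n) : rk s a ≤ rk s s := by
  unfold rk Grp.pos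
  have := a.2
  have := s.2
  simp only [Fin.lt_def]
  split_ifs <;> omega

theorem crosses_rk (s v a b : Fin n) (hab : a ≠ b) :
    crosses v a b ↔ if rk s a < rk s b then rk s a ≤ rk s v ∧ rk s v < rk s b
      else rk s a ≤ rk s v ∨ rk s v < rk s b := by
  rw [ne_eq, Fin.ext_iff] at hab
  unfold rk Grp.pos crosses
  have := a.2
  have := b.2
  have := s.2
  have := v.2
  simp only [Fin.lt_def]
  split_ifs <;> omega

theorem lt_of_not_crosses {s a b : Fin n} (hab : a ≠ b) (h : ¬ crosses s a b) :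
    rk s a < rk s b := Grp.pos_lt_pos hab h

theorem exists_bk (hs : s ∈ J) (a : Fin n) :
    ∃ σ : J, rk s a ≤ rk s σ.1 ∧ ∀ τ ∈ J, rk s a ≤ rk s τ → rk s σ.1 ≤ rk s τ := by
  obtain ⟨σ, hσ, hmin⟩ := Finset.exists_min_image (J.filter fun τ => rk s a ≤ rk s τ) (rk s)
    ⟨s, Finset.mem_filter.2 ⟨hs, rk_le s a⟩⟩
  obtain ⟨h1, h2⟩ := Finset.mem_filter.1 hσ
  exact ⟨⟨σ, h1⟩, h2, fun τ hτ h => hmin τ (Finset.mem_filter.2 ⟨hτ, h⟩)⟩

/-- The type of `J` ending the interval of `a`. -/
def bk (hs : s ∈ J) (a : Fin n) : J := Classical.choose (exists_bk hs a)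

theorem le_bk (hs : s ∈ J) (a : Fin n) : rk s a ≤ rk s (bk hs a).1 :=
  (Classical.choose_spec (exists_bk hs a)).1

theorem bk_le (hs : s ∈ J) {a τ : Fin n} (hτ : τ ∈ J) (h : rk s a ≤ rk s τ) :
    rk s (bk hs a).1 ≤ rk s τ :=
  (Classical.choose_spec (exists_bk hs a)).2 τ hτ h

theorem bk_self (hs : s ∈ J) (σ : J) : bk hs σ.1 = σ :=
  Subtype.ext (rk_inj (le_antisymm (bk_le hs σ.2 le_rfl) (le_bk hs σ.1)))

theorem bk_eq_of_le (hs : s ∈ J) {a v : Fin n} (h1 : rk s a ≤ rk s v)
    (h2 : rk s v ≤ rk s (bk hs a).1) : bk hs v = bk hs a := by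
  refine Subtype.ext (rk_inj (le_antisymm (bk_le hs (bk hs a).2 h2) ?_))
  exact bk_le hs (bk hs v).2 (h1.trans (le_bk hs v))

theorem not_crosses_iff (hs : s ∈ J) {a b : Fin n} :
    (a ≠ b ∧ ∀ σ ∈ J, ¬ crosses σ a b) ↔ bk hs a = bk hs b ∧ rk s a < rk s b := by
  constructor
  · rintro ⟨hab, h⟩
    have hlt := lt_of_not_crosses hab (h s hs)
    refine ⟨(bk_eq_of_le hs hlt.le ?_).symm, hlt⟩
    have := h _ (bk hs a).2
    rw [crosses_rk s _ a b hab, if_pos hlt] at this
    by_contra hc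
    exact this ⟨le_bk hs a, not_le.1 hc⟩
  · rintro ⟨he, hlt⟩
    have hab : a ≠ b := fun h => hlt.ne (by rw [h])
    refine ⟨hab, fun σ hσ hc => ?_⟩
    rw [crosses_rk s _ a b hab, if_pos hlt] at hc
    have h1 := bk_le hs hσ hc.1
    have h2 := le_bk hs b
    rw [he] at h1
    omega

/-- The types of an interval. -/
def fib (hs : s ∈ J) (i : J) : Finset (Fin n) := univ.filter fun a => bk hs a = i

/-- The place of a type in its interval. -/
def pl (hs : s ∈ J) (b : Fin n) : ℕ := ((fib hs (bk hs b)).filter fun a => rk s a < rk s b).card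

theorem mem_fib (hs : s ∈ J) {i : J} {a : Fin n} : a ∈ fib hs i ↔ bk hs a = i := by simp [fib]

theorem pl_lt_pl_iff (hs : s ∈ J) {a b : Fin n} (h : bk hs a = bk hs b) :
    pl hs a < pl hs b ↔ rk s a < rk s b := by
  have key : ∀ a b : Fin n, bk hs a = bk hs b → rk s a < rk s b → pl hs a < pl hs b := by
    intro a b h hlt
    refine Finset.card_lt_card ⟨fun x hx => ?_, fun hsub => ?_⟩
    · obtain ⟨h1, h2⟩ := Finset.mem_filter.1 hx
      exact Finset.mem_filter.2 ⟨h ▸ h1, h2.trans hlt⟩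
    · have := hsub (Finset.mem_filter.2 ⟨(mem_fib hs).2 h, hlt⟩)
      exact lt_irrefl _ (Finset.mem_filter.1 this).2
  refine ⟨fun hlt => ?_, key a b h⟩
  rcases lt_trichotomy (rk s a) (rk s b) with h1 | h1 | h1
  · exact h1
  · rw [rk_inj h1] at hlt; exact absurd hlt (lt_irrefl _)
  · exact absurd (key b a h.symm h1) (not_lt.2 hlt.le)

theorem pl_inj (hs : s ∈ J) {a b : Fin n} (h : bk hs a = bk hs b) (he : pl hs a = pl hs b) :
    a = b := by
  rcases lt_trichotomy (rk s a) (rk s b) with h1 | h1 | h1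
  · exact absurd ((pl_lt_pl_iff hs h).2 h1) (by omega)
  · exact rk_inj h1
  · exact absurd ((pl_lt_pl_iff hs h.symm).2 h1) (by omega)

theorem pl_lt (hs : s ∈ J) (b : Fin n) : pl hs b < (fib hs (bk hs b)).card := by
  refine Finset.card_lt_card ⟨Finset.filter_subset _ _, fun hsub => ?_⟩
  exact lt_irrefl _ (Finset.mem_filter.1 (hsub ((mem_fib hs).2 rfl))).2

theorem image_pl (hs : s ∈ J) (i : J) :
    (fib hs i).image (pl hs) = Finset.range (fib hs i).card := by
  refine Finset.eq_of_subset_of_card_le (fun x hx => ?_) ?_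
  · obtain ⟨a, ha, rfl⟩ := Finset.mem_image.1 hx
    rw [mem_fib] at ha
    exact Finset.mem_range.2 (ha ▸ pl_lt hs a)
  · rw [Finset.card_range, Finset.card_image_of_injOn]
    intro a ha b hb he
    rw [Finset.mem_coe, mem_fib] at ha hb
    exact pl_inj hs (ha.trans hb.symm) he

theorem card_filter_pl (hs : s ∈ J) (i : J) {j : ℕ} (hj : j ≤ (fib hs i).card) :
    ((fib hs i).filter fun a => pl hs a < j).card = j := by
  have h : ((fib hs i).filter fun a => pl hs a < j).image (pl hs) = Finset.range j := by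
    rw [← Finset.filter_image (p := fun x => x < j), image_pl]
    ext x
    simp only [Finset.mem_filter, Finset.mem_range]
    omega
  have h' := congrArg Finset.card h
  rw [Finset.card_range, Finset.card_image_of_injOn] at h'
  · exact h'
  intro a ha b hb he
  rw [Finset.mem_coe, Finset.mem_filter, mem_fib] at ha hb
  exact pl_inj hs (ha.1.trans hb.1.symm) he

theorem card_filter_pl_gt (hs : s ∈ J) (i : J) {j : ℕ} (hj : j < (fib hs i).card) :
    ((fib hs i).filter fun a => j < pl hs a).card = (fib hs i).card - j - 1 := by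
  have h1 := Finset.card_filter_add_card_filter_not (s := fib hs i) (fun a => pl hs a < j + 1)
  rw [card_filter_pl hs i hj] at h1
  have h2 : ((fib hs i).filter fun a => ¬ pl hs a < j + 1) =
      (fib hs i).filter fun a => j < pl hs a :=
    Finset.filter_congr fun a _ => by omega
  rw [h2] at h1
  omega

theorem exists_pl (hs : s ∈ J) (i : J) {j : ℕ} (hj : j < (fib hs i).card) :
    ∃ a, bk hs a = i ∧ pl hs a = j := by
  have : j ∈ (fib hs i).image (pl hs) := by rw [image_pl]; exact Finset.mem_range.2 hj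
  obtain ⟨a, ha, he⟩ := Finset.mem_image.1 this
  exact ⟨a, (mem_fib hs).1 ha, he⟩

theorem not_mem_iff (hs : s ∈ J) (v : Fin n) :
    v ∉ J ↔ pl hs v + 2 ≤ (fib hs (bk hs v)).card := by
  constructor
  · intro hv
    have hne : v ≠ (bk hs v).1 := fun h => hv (h ▸ (bk hs v).2)
    have he := bk_self hs (bk hs v)
    have h1 : rk s v < rk s (bk hs v).1 :=
      lt_of_le_of_ne (le_bk hs v) fun h => hne (rk_inj h)
    have h2 := (pl_lt_pl_iff hs he.symm).2 h1
    have h3 := pl_lt hs (bk hs v).1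
    rw [he] at h3
    omega
  · intro h hv
    obtain ⟨a, ha, hpa⟩ := exists_pl hs (bk hs v) (j := pl hs v + 1) (by omega)
    have h1 : rk s v < rk s a := (pl_lt_pl_iff hs ha.symm).1 (by omega)
    have h2 := le_bk hs a
    rw [ha, bk_self hs ⟨v, hv⟩] at h2
    exact absurd h2 (not_le.2 h1)

theorem sum_fib (hs : s ∈ J) : ∑ i, ((fib hs i).card - 1) + J.card = n := by
  have h : ∑ i, (fib hs i).card = n :=
    (Finset.card_eq_sum_card_fiberwise (f := bk hs) (s := univ) (t := univ) fun _ _ =>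
      Finset.mem_univ _).symm.trans (Finset.card_fin n)
  have h1 : ∀ i, (fib hs i).card - 1 + 1 = (fib hs i).card := fun i =>
    Nat.sub_add_cancel (Finset.card_pos.2 ⟨i.1, (mem_fib hs).2 (bk_self hs i)⟩)
  calc _ = ∑ i, ((fib hs i).card - 1 + 1) := by
        rw [Finset.sum_add_distrib, Finset.sum_const, Finset.card_univ, Fintype.card_coe]; simp
    _ = n := by rw [Finset.sum_congr rfl fun i _ => h1 i, h]

end Blocks

/-! ## Coordinate subspaces -/

section Crd

variable {κ 𝕜 : Type} [Fintype κ] [DecidableEq κ] [Field 𝕜]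

/-- The functions supported on `T`. -/
def crd (T : Finset κ) : Submodule 𝕜 (κ → 𝕜) where
  carrier := {u | ∀ x ∉ T, u x = 0}
  add_mem' hu hv x hx := by simp [hu x hx, hv x hx]
  zero_mem' _ _ := rfl
  smul_mem' c u hu x hx := by simp [hu x hx]

theorem mem_crd {T : Finset κ} {u : κ → 𝕜} : u ∈ crd T ↔ ∀ x ∉ T, u x = 0 := Iff.rfl

theorem single_mem_crd {T : Finset κ} {y : κ} (hy : y ∈ T) :
    (Pi.single y 1 : κ → 𝕜) ∈ crd T :=
  fun _ hx => Pi.single_eq_of_ne (by rintro rfl; exact hx hy) 1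

theorem finrank_crd (T : Finset κ) : finrank 𝕜 (crd (𝕜 := 𝕜) T) = T.card := by
  let e : crd (𝕜 := 𝕜) T ≃ₗ[𝕜] (T → 𝕜) :=
    { toFun := fun u x => u.1 x.1
      invFun := fun g => ⟨fun x => if h : x ∈ T then g ⟨x, h⟩ else 0, fun x hx => dif_neg hx⟩
      map_add' := fun _ _ => rfl
      map_smul' := fun _ _ => rfl
      left_inv := fun u => by
        ext x
        by_cases h : x ∈ T
        · simp [h]
        · simp [h, u.2 x h]
      right_inv := fun g => by ext x; simp }
  rw [e.finrank_eq, Module.finrank_pi, Fintype.card_coe]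

theorem map_crd_le {C : Matrix κ κ 𝕜} {T T' : Finset κ}
    (h : ∀ x ∉ T', ∀ y ∈ T, C x y = 0) : (crd T).map C.mulVecLin ≤ crd T' := by
  rintro _ ⟨u, hu, rfl⟩ x hx
  rw [Matrix.mulVecLin_apply]
  refine Finset.sum_eq_zero fun y _ => ?_
  show C x y * u y = 0
  by_cases hy : y ∈ T
  · rw [h x hx y hy, zero_mul]
  · rw [hu y hy, mul_zero]

theorem map_crd_le_of_col {C : Matrix κ κ 𝕜} {T : Finset κ} {W : Submodule 𝕜 (κ → 𝕜)}
    (h : ∀ y ∈ T, (fun x => C x y) ∈ W) : (crd T).map C.mulVecLin ≤ W := by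
  rintro _ ⟨u, hu, rfl⟩
  have he : C.mulVecLin u = ∑ y ∈ T, u y • fun x => C x y := by
    ext x
    rw [Matrix.mulVecLin_apply, Finset.sum_apply]
    simp only [Pi.smul_apply, smul_eq_mul]
    rw [Matrix.mulVec, dotProduct, ← Finset.sum_subset (Finset.subset_univ T)
      (fun y _ hy => by rw [hu y hy, mul_zero])]
    exact Finset.sum_congr rfl fun y _ => mul_comm _ _
  rw [he]
  exact Submodule.sum_mem _ fun y hy => Submodule.smul_mem _ _ (h y hy)

end Crd

/-! ## Coefficients -/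

section Coeff

variable {n M p m : ℕ}

/-- Indices. -/
abbrev Idx (n M : ℕ) : Type := Fin n × Fin M

/-- An entry of an element. -/
def kc (k : BM n M p m) (x y : Idx n M) : Rm p m := k x.2 y.2 x.1 y.1

theorem kc_mul (k l : BM n M p m) (x y : Idx n M) :
    kc (k * l) x y = ∑ z, kc k x z * kc l z y := by
  simp only [kc, Matrix.mul_apply, Matrix.sum_apply, Fintype.sum_prod_type]
  exact Finset.sum_comm

theorem kc_one (x y : Idx n M) :
    kc (1 : BM n M p m) x y = (1 : Matrix (Idx n M) (Idx n M) (Rm p m)) x y := by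
  obtain ⟨a, i⟩ := x
  obtain ⟨b, j⟩ := y
  simp only [kc]
  by_cases h : i = j
  · subst h; simp [Matrix.one_apply]
  · simp [h]

/-- The weight of a type. -/
def wt (p m : ℕ) (s a : Fin n) : Rm p m := if a.1 ≤ s.1 then tt p m else 1

theorem te_wt {s a b : Fin n} (h : ¬ crosses s a b) :
    wt p m s a * te p m a b = wt p m s b := by
  unfold crosses at h
  unfold wt te
  simp only [Fin.lt_def]
  split_ifs <;> first | omega | simp

theorem sc_mul_pow_inj (hm : 2 ≤ m) {c d : ZMod p} {e : ℕ} (he : e ≤ 1)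
    (h : sc p m c * tt p m ^ e = sc p m d * tt p m ^ e) : c = d := by
  simp only [sc, tt, ← map_pow, ← map_mul, Ideal.Quotient.eq, Ideal.mem_span_singleton,
    Polynomial.X_pow_dvd_iff] at h
  have := h e (by omega)
  rw [Polynomial.coeff_sub, Polynomial.coeff_C_mul_X_pow, Polynomial.coeff_C_mul_X_pow,
    if_pos rfl, if_pos rfl, sub_eq_zero] at this
  exact this

theorem sc_mul_te_inj (hm : 2 ≤ m) {c d : ZMod p} {a b : Fin n}
    (h : sc p m c * te p m a b = sc p m d * te p m a b) : c = d := by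
  unfold te at h
  split_ifs at h
  · exact sc_mul_pow_inj hm le_rfl (by simpa using h)
  · exact sc_mul_pow_inj (e := 0) hm (by omega) (by simpa using h)

theorem sc_mul_wt_inj (hm : 2 ≤ m) {c d : ZMod p} {s a : Fin n}
    (h : sc p m c * wt p m s a = sc p m d * wt p m s a) : c = d := by
  unfold wt at h
  split_ifs at h
  · exact sc_mul_pow_inj hm le_rfl (by simpa using h)
  · exact sc_mul_pow_inj (e := 0) hm (by omega) (by simpa using h)

open Classical in
/-- The coefficient at the forced power. -/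
def cf2 (a b : Fin n) (r : Rm p m) : ZMod p :=
  if h : ∃ c, r = sc p m c * te p m a b then h.choose else 0

theorem cf2_eq (hm : 2 ≤ m) (a b : Fin n) (c : ZMod p) :
    cf2 a b (sc p m c * te p m a b) = c := by
  have h : ∃ d, sc p m c * te p m a b = sc p m d * te p m a b := ⟨c, rfl⟩
  rw [cf2, dif_pos h]
  exact (sc_mul_te_inj hm h.choose_spec).symm

/-- The coefficient matrix of an element. -/
def co (k : Ga n M p m) : Matrix (Idx n M) (Idx n M) (ZMod p) := fun x y =>
  if x.1 = y.1 then (1 : Matrix (Idx n M) (Idx n M) (ZMod p)) x y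
  else cf2 x.1 y.1 (kc (k : BM n M p m) x y)

theorem mem_KSet_iff (hm : 2 ≤ m) (k : Ga n M p m) (v : Fin n) :
    k ∈ KSet n M p m {v} ↔ ∀ x y : Idx n M,
      (kc (k : BM n M p m) x y = if x.1 = y.1 then (1 : Matrix (Idx n M) (Idx n M) (Rm p m)) x y
        else sc p m (co k x y) * te p m x.1 y.1) ∧
      (x.1 ≠ y.1 → crosses v x.1 y.1 → co k x y = 0) := by
  have hsub : ∀ (i j : Fin M) (a b : Fin n), ((k : BM n M p m) - 1) i j a b =
      kc (k : BM n M p m) (a, i) (b, j) -
        (1 : Matrix (Idx n M) (Idx n M) (Rm p m)) (a, i) (b, j) := fun i j a b => by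
    rw [← kc_one]
    simp [kc]
  constructor
  · intro hk x y
    obtain ⟨a, i⟩ := x
    obtain ⟨b, j⟩ := y
    obtain ⟨c, hc, hx⟩ := hk i j
    have h := hx a b
    rw [hsub, sub_eq_iff_eq_add] at h
    by_cases hab : a = b
    · rw [if_pos hab, zero_add] at h
      exact ⟨by rw [if_pos hab]; exact h, fun h' => absurd hab h'⟩
    · rw [if_neg hab, Matrix.one_apply_ne (by simp [hab]), add_zero] at h
      have hco : co k (a, i) (b, j) = c a b := by
        unfold co
        rw [if_neg hab, h, cf2_eq hm]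
      refine ⟨by rw [if_neg hab, hco, h], fun _ hcr => ?_⟩
      rw [hco]
      exact hc v (Finset.mem_singleton_self v) a b hcr
  · intro h i j
    refine ⟨fun a b => if a = b then 0 else co k (a, i) (b, j), fun w hw a b hcr => ?_,
      fun a b => ?_⟩
    · rw [Finset.mem_singleton] at hw
      subst hw
      dsimp only
      split_ifs with hab
      · rfl
      · exact (h (a, i) (b, j)).2 hab hcr
    · rw [hsub, (h (a, i) (b, j)).1]
      by_cases hab : a = b
      · simp [hab]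
      · simp [hab]

/-- `C` represents `k` after conjugation by the weights. -/
def Rep (s : Fin n) (k : BM n M p m) (C : Matrix (Idx n M) (Idx n M) (ZMod p)) : Prop :=
  ∀ x y, wt p m s x.1 * kc k x y = sc p m (C x y) * wt p m s y.1

theorem Rep.mul {s : Fin n} {k l : BM n M p m} {C D : Matrix (Idx n M) (Idx n M) (ZMod p)}
    (hk : Rep s k C) (hl : Rep s l D) : Rep s (k * l) (C * D) := by
  intro x y
  rw [kc_mul, Finset.mul_sum, Matrix.mul_apply, Grp.sc_eq, map_sum, Finset.sum_mul]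
  refine Finset.sum_congr rfl fun z _ => ?_
  rw [map_mul, ← Grp.sc_eq, ← Grp.sc_eq, ← mul_assoc, hk, mul_assoc, hl, mul_assoc]

theorem Rep.unique (hm : 2 ≤ m) {s : Fin n} {k : BM n M p m}
    {C D : Matrix (Idx n M) (Idx n M) (ZMod p)} (hC : Rep s k C) (hD : Rep s k D) : C = D := by
  ext x y
  exact sc_mul_wt_inj hm ((hC x y).symm.trans (hD x y))

theorem rep_co (hm : 2 ≤ m) {s : Fin n} {k : Ga n M p m} (hk : k ∈ KSet n M p m {s}) :
    Rep s (k : BM n M p m) (co k) := by
  intro x y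
  obtain ⟨h1, h2⟩ := (mem_KSet_iff hm k s).1 hk x y
  rw [h1]
  split_ifs with hab
  · unfold co
    rw [if_pos hab, hab]
    by_cases hxy : x = y
    · subst hxy; simp [Grp.sc_one]
    · simp [hxy, Grp.sc_zero]
  · by_cases hc : crosses s x.1 y.1
    · simp [h2 hab hc, Grp.sc_zero]
    · rw [mul_left_comm, te_wt hc]

theorem co_mul (hG : GroupSpec) (hn : 3 ≤ n) (hp : p.Prime) (hm : 2 ≤ m) {s : Fin n}
    {k l : Ga n M p m} (hk : k ∈ Kv n M p m s) (hl : l ∈ Kv n M p m s) :
    co (k * l) = co k * co l := by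
  have hK := (hG n M p m hn hp hm).2.2.1 s
  exact Rep.unique hm (rep_co hm ((hK _).1 (mul_mem hk hl)))
    ((rep_co hm ((hK _).1 hk)).mul (rep_co hm ((hK _).1 hl)))

theorem co_one (hm : 2 ≤ m) : co (1 : Ga n M p m) = 1 := by
  ext x y
  unfold co
  split_ifs with h
  · rfl
  · have hne : x ≠ y := fun e => h (by rw [e])
    rw [Units.val_one, kc_one, Matrix.one_apply_ne hne, Matrix.one_apply_ne hne]
    simpa [Grp.sc_zero] using cf2_eq hm x.1 y.1 (0 : ZMod p)

end Coeff

/-! ## The model -/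

theorem vert_eq_iff {n M p m : ℕ} (g h : Ga n M p m) (v : Fin n) :
    vert g v = vert h v ↔ g⁻¹ * h ∈ Kv n M p m v := by
  unfold vert
  rw [Sigma.mk.injEq]
  simp [QuotientGroup.eq]

/-- The elements of the colours `S` fixing the vertices of types `J` of the base chamber. -/
def KJ (n M p m : ℕ) (J : Finset (Fin n)) (S : Finset (Fin M)) : Subgroup (Ga n M p m) :=
  GS n M p m S ⊓ ⨅ v ∈ J, Kv n M p m v

theorem mem_KJ {n M p m : ℕ} {J : Finset (Fin n)} {S : Finset (Fin M)} {k : Ga n M p m} :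
    k ∈ KJ n M p m J S ↔ k ∈ GS n M p m S ∧ ∀ v ∈ J, k ∈ Kv n M p m v := by
  simp [KJ, Subgroup.mem_iInf]

/-- The faces, other than those of types `J`, of the chambers around the face of types `J`. -/
def Lk {n M p m : ℕ} (J : Finset (Fin n)) (S : Finset (Fin M)) (q₀ : Ga n M p m) :
    Set (Finset (Vx n M p m)) :=
  {t | ∃ k ∈ KJ n M p m J S, ∀ x ∈ t, ∃ v, v ∉ J ∧ x = vert (q₀ * k) v}

/-- Decidable equality of subspaces. -/
scoped instance decEqSub {p : ℕ} {κ : Type} [Fact p.Prime] :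
    DecidableEq (Submodule (ZMod p) (κ → ZMod p)) := Classical.decEq _

section Model

variable {n M p m : ℕ} [hpr : Fact p.Prime] {J : Finset (Fin n)} {s : Fin n}

/-- The shape of the coefficient matrices. -/
def Good (hs : s ∈ J) (S : Finset (Fin M)) (C : Matrix (Idx n M) (Idx n M) (ZMod p)) : Prop :=
  (∀ x, C x x = 1) ∧ ∀ x y, x ≠ y → C x y ≠ 0 →
    x.2 ∈ S ∧ y.2 ∈ S ∧ bk hs x.1 = bk hs y.1 ∧ rk s x.1 < rk s y.1

/-- The coordinates above a type in its interval. -/
def wset (hs : s ∈ J) (S : Finset (Fin M)) (v : Fin n) : Finset (Idx n M) :=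
  ((fib hs (bk hs v)).filter fun a => pl hs v < pl hs a) ×ˢ S

/-- The coordinates of a step of the flag. -/
def eset (hs : s ∈ J) (S : Finset (Fin M)) (i : J) (j : ℕ) : Finset (Idx n M) :=
  ((fib hs i).filter fun a => pl hs a < j) ×ˢ S

theorem mem_wset {hs : s ∈ J} {S : Finset (Fin M)} {v : Fin n} {x : Idx n M} :
    x ∈ wset hs S v ↔ bk hs x.1 = bk hs v ∧ pl hs v < pl hs x.1 ∧ x.2 ∈ S := by
  simp [wset, mem_fib, and_assoc]

theorem mem_eset {hs : s ∈ J} {S : Finset (Fin M)} {i : J} {j : ℕ} {x : Idx n M} :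
    x ∈ eset hs S i j ↔ bk hs x.1 = i ∧ pl hs x.1 < j ∧ x.2 ∈ S := by
  simp [eset, mem_fib, and_assoc]

/-- The flags of the intervals. -/
def flags (hs : s ∈ J) (S : Finset (Fin M)) (hS : S.Nonempty) :
    OppFlag.Flags (ZMod p) (Idx n M → ZMod p) J where
  b := S.card
  b_pos := hS.card_pos
  a i := (fib hs i).card
  E i j := crd (eset hs S i j)
  mono i j k hjk _ := fun _ hu x hx => hu x fun h => hx (by
    obtain ⟨h1, h2, h3⟩ := mem_eset.1 h
    exact mem_eset.2 ⟨h1, lt_of_lt_of_le h2 hjk, h3⟩)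
  rank i j hj := by
    rw [finrank_crd, eset, Finset.card_product, card_filter_pl hs i hj]

/-- The subspace of a vertex. -/
def sub (hs : s ∈ J) (S : Finset (Fin M)) (k : Ga n M p m) (v : Fin n) :
    Submodule (ZMod p) (Idx n M → ZMod p) :=
  (crd (wset hs S v)).map (co k).mulVecLin

variable (hG : GroupSpec) (hn : 3 ≤ n) (hm : 2 ≤ m) (hs : s ∈ J) {S : Finset (Fin M)}

include hG hn hm hs

omit hs in
theorem mem_Kv_iff (k : Ga n M p m) (v : Fin n) :
    k ∈ Kv n M p m v ↔ ∀ x y : Idx n M,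
      (kc (k : BM n M p m) x y = if x.1 = y.1 then (1 : Matrix (Idx n M) (Idx n M) (Rm p m)) x y
        else sc p m (co k x y) * te p m x.1 y.1) ∧
      (x.1 ≠ y.1 → crosses v x.1 y.1 → co k x y = 0) :=
  ((hG n M p m hn hpr.out hm).2.2.1 v k).trans (mem_KSet_iff hm k v)

theorem good_co {k : Ga n M p m} (hk : k ∈ KJ n M p m J S) : Good hs S (co k) := by
  obtain ⟨hkS, hkJ⟩ := mem_KJ.1 hk
  refine ⟨fun x => by unfold co; rw [if_pos rfl, Matrix.one_apply_eq], fun x y hxy hne => ?_⟩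
  have hab : x.1 ≠ y.1 := fun h => hne (by
    unfold co; rw [if_pos h, Matrix.one_apply_ne hxy])
  have hcr : ∀ σ ∈ J, ¬ crosses σ x.1 y.1 := fun σ hσ hc =>
    hne (((mem_Kv_iff hG hn hm k σ).1 (hkJ σ hσ) x y).2 hab hc)
  obtain ⟨h1, h2⟩ := (not_crosses_iff hs).1 ⟨hab, hcr⟩
  have hz : (x.2 ∉ S ∨ y.2 ∉ S) → co k x y = 0 := fun h => by
    have h0 := (((hG n M p m hn hpr.out hm).2.1 S k).1 hkS).2.1 x.2 y.2 h
    have h3 : kc (k : BM n M p m) x y = 0 := by
      have := congrFun (congrFun h0 x.1) y.1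
      rw [Matrix.sub_apply, Matrix.sub_apply, Matrix.zero_apply, sub_eq_zero] at this
      show (k : BM n M p m) x.2 y.2 x.1 y.1 = 0
      rw [this]
      show kc (1 : BM n M p m) x y = 0
      rw [kc_one, Matrix.one_apply_ne hxy]
    have h4 := ((mem_Kv_iff hG hn hm k s).1 (hkJ s hs) x y).1
    rw [if_neg hab, h3] at h4
    exact sc_mul_te_inj hm (h4.symm.trans (by simp [Grp.sc_zero]))
  exact ⟨by_contra fun h => hne (hz (Or.inl h)), by_contra fun h => hne (hz (Or.inr h)), h1, h2⟩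

theorem exists_of_good {C : Matrix (Idx n M) (Idx n M) (ZMod p)} (hC : Good hs S C) :
    ∃ k ∈ KJ n M p m J S, co k = C := by
  classical
  set N : BM n M p m := fun i j => fun a b =>
    if a = b then (1 : Matrix (Idx n M) (Idx n M) (Rm p m)) (a, i) (b, j)
    else sc p m (C (a, i) (b, j)) * te p m a b with hN
  set G := Matrix.compRingEquiv (Fin M) (Fin n) (Rm p m) N with hGN
  have hent : ∀ x y : Fin M × Fin n, ¬ rk s x.2 < rk s y.2 →
      G x y = (1 : Matrix (Fin M × Fin n) (Fin M × Fin n) (Rm p m)) x y := by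
    rintro ⟨i, a⟩ ⟨j, b⟩ h
    show N i j a b = _
    simp only [hN]
    by_cases hab : a = b
    · subst hab
      rw [if_pos rfl]
      simp [Matrix.one_apply]
    · rw [if_neg hab, Matrix.one_apply_ne (by simp [hab])]
      have : C (a, i) (b, j) = 0 := by_contra fun hne => h (hC.2 _ _ (by simp [hab]) hne).2.2.2
      rw [this, Grp.sc_zero, zero_mul]
  have htri : G.BlockTriangular fun x => rk s x.2 := fun x y hxy => by
    rw [hent x y (not_lt.2 (le_of_lt hxy)), Matrix.one_apply_ne]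
    rintro rfl
    exact lt_irrefl _ hxy
  have hdet : G.det = 1 := by
    rw [htri.det]
    refine Finset.prod_eq_one fun c _ => ?_
    rw [show G.toSquareBlock (fun x => rk s x.2) c = 1 from ?_, Matrix.det_one]
    ext x y
    show G x.1 y.1 = (1 : Matrix {x : Fin M × Fin n // rk s x.2 = c} _ (Rm p m)) x y
    rw [hent x.1 y.1 (by rw [x.2, y.2]; exact lt_irrefl c), Matrix.one_apply, Matrix.one_apply]
    simp [Subtype.ext_iff]
  have hU : IsUnit N := by
    rw [← MulEquiv.isUnit_map (Matrix.compRingEquiv (Fin M) (Fin n) (Rm p m)), ← hGN,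
      Matrix.isUnit_iff_isUnit_det, hdet]
    exact isUnit_one
  have hval : ∀ x y : Idx n M, kc ((hU.unit : Ga n M p m) : BM n M p m) x y =
      if x.1 = y.1 then (1 : Matrix (Idx n M) (Idx n M) (Rm p m)) x y
      else sc p m (C x y) * te p m x.1 y.1 := fun x y => by
    rw [IsUnit.unit_spec]
    rfl
  have hco : co (hU.unit : Ga n M p m) = C := by
    ext x y
    unfold co
    by_cases hxy : x = y
    · subst hxy; rw [if_pos rfl, Matrix.one_apply_eq, hC.1 x]
    by_cases hab : x.1 = y.1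
    · rw [if_pos hab, Matrix.one_apply_ne hxy]
      by_contra hne
      exact absurd (hC.2 x y hxy (Ne.symm hne)).2.2.2 (by rw [hab]; exact lt_irrefl _)
    · rw [if_neg hab, hval, if_neg hab, cf2_eq hm]
  have hKv : ∀ v ∈ J, (hU.unit : Ga n M p m) ∈ Kv n M p m v := fun v hv =>
    (mem_Kv_iff hG hn hm _ v).2 fun x y => ⟨by rw [hco, hval], fun hab hc => by
      rw [hco]
      by_contra hne
      obtain ⟨-, -, h1, h2⟩ := hC.2 x y (fun h => hab (by rw [h])) hne
      exact ((not_crosses_iff hs).2 ⟨h1, h2⟩).2 v hv hc⟩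
  refine ⟨hU.unit, mem_KJ.2 ⟨?_, hKv⟩, hco⟩
  obtain ⟨-, hGS, -, hle, -⟩ := hG n M p m hn hpr.out hm
  obtain ⟨h1, -, h3⟩ := (hGS univ _).1 (hle s (hKv s hs))
  refine (hGS S _).2 ⟨h1, fun i j hij => ?_, h3⟩
  ext a b
  rw [Matrix.sub_apply, Matrix.sub_apply, Matrix.zero_apply, sub_eq_zero]
  show kc _ (a, i) (b, j) = kc (1 : BM n M p m) (a, i) (b, j)
  rw [hval, kc_one]
  by_cases hab : a = b
  · rw [if_pos hab]
  · rw [if_neg hab, Matrix.one_apply_ne (by simp [hab])]
    have : C (a, i) (b, j) = 0 := by_contra fun hne => by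
      obtain ⟨h1, h2, -⟩ := hC.2 (a, i) (b, j) (by simp [hab]) hne
      rcases hij with h | h
      · exact h h1
      · exact h h2
    rw [this, Grp.sc_zero, zero_mul]

theorem co_mul' {k l : Ga n M p m} (hk : k ∈ KJ n M p m J S) (hl : l ∈ KJ n M p m J S) :
    co (k * l) = co k * co l :=
  co_mul hG hn hpr.out hm ((mem_KJ.1 hk).2 s hs) ((mem_KJ.1 hl).2 s hs)

theorem mulVec_injective {k : Ga n M p m} (hk : k ∈ KJ n M p m J S) :
    Function.Injective (co k).mulVecLin := by
  refine Function.LeftInverse.injective (g := (co k⁻¹).mulVecLin) fun u => ?_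
  rw [← LinearMap.comp_apply, ← Matrix.mulVecLin_mul, ← co_mul' hG hn hm hs (inv_mem hk) hk,
    inv_mul_cancel, co_one hm, Matrix.mulVecLin_one, LinearMap.id_apply]

theorem finrank_sub {k : Ga n M p m} (hk : k ∈ KJ n M p m J S) (v : Fin n) :
    finrank (ZMod p) (sub hs S k v) =
      ((fib hs (bk hs v)).card - pl hs v - 1) * S.card := by
  rw [sub, ← (Submodule.equivMapOfInjective _ (mulVec_injective hG hn hm hs hk) _).finrank_eq,
    finrank_crd, wset, Finset.card_product, card_filter_pl_gt hs _ (pl_lt hs v)]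

theorem sub_eq_iff {k l : Ga n M p m} (hk : k ∈ KJ n M p m J S) (hl : l ∈ KJ n M p m J S)
    (v : Fin n) : sub hs S k v = sub hs S l v ↔ k⁻¹ * l ∈ Kv n M p m v := by
  set d := k⁻¹ * l with hd
  have hdJ : d ∈ KJ n M p m J S := mul_mem (inv_mem hk) hl
  have hsub : sub hs S l v = (sub hs S d v).map (co k).mulVecLin := by
    rw [sub, sub, ← Submodule.map_comp, ← Matrix.mulVecLin_mul, ← co_mul' hG hn hm hs hk hdJ,
      hd, mul_inv_cancel_left]
  rw [hsub, sub, (Submodule.map_injective_of_injective (mulVec_injective hG hn hm hs hk)).eq_iff,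
    eq_comm]
  obtain ⟨hdiag, hoff⟩ := good_co hG hn hm hs hdJ
  constructor
  · intro h
    have h0 := (mem_Kv_iff hG hn hm d s).1 ((mem_KJ.1 hdJ).2 s hs)
    refine (mem_Kv_iff hG hn hm d v).2 fun x y => ⟨(h0 x y).1, fun hab hc => ?_⟩
    by_contra hne
    have hxy : x ≠ y := fun e => hab (by rw [e])
    obtain ⟨h1, h2, h3, h4⟩ := hoff x y hxy hne
    rw [crosses_rk s v _ _ hab, if_pos h4] at hc
    have h5 : bk hs v = bk hs x.1 :=
      bk_eq_of_le hs hc.1 (hc.2.le.trans (h3 ▸ le_bk hs y.1))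
    have hy : y ∈ wset hs S v := mem_wset.2 ⟨(h5.trans h3).symm,
      (pl_lt_pl_iff hs (h5.trans h3)).2 hc.2, h2⟩
    have hmem : (co d).mulVecLin (Pi.single y 1) ∈ crd (wset hs S v) :=
      h ▸ Submodule.mem_map_of_mem (single_mem_crd hy)
    have hx : x ∉ wset hs S v := fun hx => by
      obtain ⟨-, h6, -⟩ := mem_wset.1 hx
      exact absurd ((pl_lt_pl_iff hs h5).1 h6) (not_lt.2 hc.1)
    have := hmem x hx
    rw [Matrix.mulVecLin_apply, Matrix.mulVec_single_one, Matrix.col_apply] at this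
    exact hne this
  · intro h
    refine Submodule.eq_of_le_of_finrank_le (map_crd_le fun x hx y hy => ?_) ?_
    · by_contra hne
      obtain ⟨h1, h2, h3⟩ := mem_wset.1 hy
      have hxy : x ≠ y := fun e => hx (e ▸ hy)
      obtain ⟨h4, -, h6, h7⟩ := hoff x y hxy hne
      have hab : x.1 ≠ y.1 := fun e => h7.ne (by rw [e])
      refine hne (((mem_Kv_iff hG hn hm d v).1 h x y).2 hab ?_)
      rw [crosses_rk s v _ _ hab, if_pos h7]
      refine ⟨not_lt.1 fun hc => hx (mem_wset.2 ⟨h6.trans h1, ?_, h4⟩),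
        (pl_lt_pl_iff hs h1.symm).1 h2⟩
      exact (pl_lt_pl_iff hs (h6.trans h1).symm).2 hc
    · rw [sub,
        ← (Submodule.equivMapOfInjective _ (mulVec_injective hG hn hm hs hdJ) _).finrank_eq]

theorem isVtx_sub (hS : S.Nonempty) {k : Ga n M p m} (hk : k ∈ KJ n M p m J S) {v : Fin n}
    (hv : v ∉ J) : OppFlag.IsVtx (flags hs S hS) (bk hs v, sub hs S k v) := by
  obtain ⟨hdiag, hoff⟩ := good_co hG hn hm hs hk
  have hv' := (not_mem_iff hs v).1 hv
  refine ⟨(fib hs (bk hs v)).card - pl hs v - 1, by omega, ?_,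
    finrank_sub hG hn hm hs hk v, ?_, ?_⟩
  · show _ < (fib hs (bk hs v)).card
    omega
  · refine map_crd_le fun x hx y hy => ?_
    by_contra hne
    obtain ⟨h1, h2, h3⟩ := mem_wset.1 hy
    by_cases hxy : x = y
    · subst hxy
      exact hx (mem_eset.2 ⟨h1, h1 ▸ pl_lt hs x.1, h3⟩)
    · obtain ⟨h4, -, h6, -⟩ := hoff x y hxy hne
      exact hx (mem_eset.2 ⟨h6.trans h1, (h6.trans h1) ▸ pl_lt hs x.1, h4⟩)
  · show sub hs S k v ⊓ crd (eset hs S (bk hs v)
      ((fib hs (bk hs v)).card - ((fib hs (bk hs v)).card - pl hs v - 1))) = ⊥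
    rw [show (fib hs (bk hs v)).card - ((fib hs (bk hs v)).card - pl hs v - 1) = pl hs v + 1
      from by omega, Submodule.eq_bot_iff]
    rintro w ⟨⟨u, hu, rfl⟩, hw⟩
    suffices hu0 : u = 0 by rw [hu0, map_zero]
    by_contra hne
    obtain ⟨x, hx, hmax⟩ := Finset.exists_max_image (univ.filter fun x => u x ≠ 0)
      (fun x : Idx n M => rk s x.1) (by
        obtain ⟨x, hx⟩ := Function.ne_iff.1 hne
        exact ⟨x, Finset.mem_filter.2 ⟨Finset.mem_univ x, hx⟩⟩)
    have hx0 : u x ≠ 0 := (Finset.mem_filter.1 hx).2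
    have hxw : x ∈ wset hs S v := by_contra fun h => hx0 (hu x h)
    have he : (co k).mulVecLin u x = u x := by
      rw [Matrix.mulVecLin_apply, Matrix.mulVec, dotProduct, Finset.sum_eq_single x
        (fun y _ hy => by
          by_contra hc
          obtain ⟨-, -, -, h4⟩ := hoff x y hy.symm (left_ne_zero_of_mul hc)
          exact absurd h4 (not_lt.2 (hmax y (Finset.mem_filter.2
            ⟨Finset.mem_univ y, right_ne_zero_of_mul hc⟩))))
        (fun h => absurd (Finset.mem_univ x) h), hdiag, one_mul]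
    refine hx0 (he ▸ hw x fun h => ?_)
    have h1 := (mem_wset.1 hxw).2.1
    have h2 := (mem_eset.1 h).2.1
    omega

theorem realise (hS : S.Nonempty) {t : Finset (J × Submodule (ZMod p) (Idx n M → ZMod p))}
    (ht : t ∈ OppFlag.Opp (flags hs S hS)) :
    ∃ k ∈ KJ n M p m J S, ∀ z ∈ t, ∃ v, v ∉ J ∧ z = (bk hs v, sub hs S k v) := by
  have hcol : ∀ y : Idx n M, ∃ e : Idx n M → ZMod p,
      (∀ x, e x ≠ 0 → x.2 ∈ S ∧ y.2 ∈ S ∧ bk hs x.1 = bk hs y.1 ∧ pl hs x.1 < pl hs y.1) ∧
      (y.2 ∈ S → ∀ z ∈ t, z.1 = bk hs y.1 →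
        (fib hs z.1).card * S.card ≤ pl hs y.1 * S.card + finrank (ZMod p) z.2 →
        Pi.single y 1 - e ∈ z.2) := by
    intro y
    rcases (t.filter fun z : J × Submodule (ZMod p) (Idx n M → ZMod p) => y.2 ∈ S ∧ z.1 = bk hs y.1 ∧
      (fib hs z.1).card * S.card ≤ pl hs y.1 * S.card + finrank (ZMod p) z.2).eq_empty_or_nonempty
      with he | hne
    · refine ⟨0, fun x hx => absurd rfl hx, fun h1 z hz h2 h3 => ?_⟩
      have : z ∈ (∅ : Finset (J × Submodule (ZMod p) (Idx n M → ZMod p))) :=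
        he ▸ Finset.mem_filter.2 ⟨hz, h1, h2, h3⟩
      simp at this
    obtain ⟨W, hW, hmin⟩ := Finset.exists_min_image _
      (fun z : J × Submodule (ZMod p) (Idx n M → ZMod p) => finrank (ZMod p) z.2) hne
    obtain ⟨hWt, hy, hWi, hWc⟩ := Finset.mem_filter.1 hW
    obtain ⟨j, -, hja, hjW, hWle, hWd⟩ := ht.1 W hWt
    simp only [flags] at hja hjW hWle hWd
    rw [hWi] at hja hWle hWd hWc
    set a := (fib hs (bk hs y.1)).card with ha
    rw [hjW, ← Nat.add_mul] at hWc
    have hc : a ≤ pl hs y.1 + j := Nat.le_of_mul_le_mul_right hWc hS.card_pos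
    have htop : W.2 ⊔ crd (eset hs S (bk hs y.1) (a - j)) = crd (eset hs S (bk hs y.1) a) := by
      refine Submodule.eq_of_le_of_finrank_le (sup_le hWle fun u hu x hx => hu x fun h => hx ?_) ?_
      · obtain ⟨h1, h2, h3⟩ := mem_eset.1 h
        exact mem_eset.2 ⟨h1, by omega, h3⟩
      · have h := Submodule.finrank_sup_add_finrank_inf_eq W.2
          (crd (eset hs S (bk hs y.1) (a - j)))
        rw [hWd, finrank_bot, add_zero, hjW, finrank_crd (eset hs S (bk hs y.1) (a - j)),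
          show (eset hs S (bk hs y.1) (a - j)).card = (a - j) * S.card by
            rw [eset, Finset.card_product, card_filter_pl hs _ (by omega)],
          ← Nat.add_mul, show j + (a - j) = a from by omega] at h
        rw [finrank_crd, eset, Finset.card_product, card_filter_pl hs _ le_rfl, h]
    have hmem : (Pi.single y 1 : Idx n M → ZMod p) ∈ crd (eset hs S (bk hs y.1) a) :=
      single_mem_crd (mem_eset.2 ⟨rfl, pl_lt hs y.1, hy⟩)
    rw [← htop] at hmem
    obtain ⟨w, hw, e, he, hwe⟩ := Submodule.mem_sup.1 hmem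
    refine ⟨e, fun x hx => ?_, fun _ z hz hzi hzc => ?_⟩
    · obtain ⟨h1, h2, h3⟩ := mem_eset.1 (by_contra fun h => hx (he x h))
      exact ⟨h3, hy, h1, by omega⟩
    · have hW' : W.2 ≤ z.2 := by
        rcases ht.2 W hWt z hz (hWi.trans hzi.symm) with h | h
        · exact h
        · exact (Submodule.eq_of_le_of_finrank_le h
            (hmin z (Finset.mem_filter.2 ⟨hz, hy, hzi, hzc⟩))).ge
      rw [← hwe, add_sub_cancel_right]
      exact hW' hw
  choose e he1 he2 using hcol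
  set C : Matrix (Idx n M) (Idx n M) (ZMod p) := fun x y =>
    (Pi.single y 1 : Idx n M → ZMod p) x - e y x with hC
  have hC1 : Good hs S C := by
    refine ⟨fun x => ?_, fun x y hxy hne => ?_⟩
    · simp only [hC, Pi.single_eq_same]
      rw [by_contra fun h : e x x ≠ 0 => lt_irrefl _ (he1 x x h).2.2.2, sub_zero]
    · simp only [hC, Pi.single_eq_of_ne hxy, zero_sub, ne_eq, neg_eq_zero] at hne
      obtain ⟨h1, h2, h3, h4⟩ := he1 y x hne
      exact ⟨h1, h2, h3, (pl_lt_pl_iff hs h3).1 h4⟩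
  obtain ⟨k, hk, hkC⟩ := exists_of_good hG hn hm hs hC1
  refine ⟨k, hk, fun z hz => ?_⟩
  obtain ⟨j, hj0, hja, hjz, -, -⟩ := ht.1 z hz
  simp only [flags] at hja hjz
  obtain ⟨v, hv, hpv⟩ := exists_pl hs z.1 (j := (fib hs z.1).card - j - 1) (by omega)
  refine ⟨v, (not_mem_iff hs v).2 (by rw [hv]; omega), Prod.ext hv.symm ?_⟩
  refine (Submodule.eq_of_le_of_finrank_le (map_crd_le_of_col fun y hy => ?_) ?_).symm
  · obtain ⟨h1, h2, h3⟩ := mem_wset.1 hy
    rw [hkC]
    refine he2 y h3 z hz (hv.symm.trans h1.symm) ?_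
    rw [hjz, ← Nat.add_mul]
    exact Nat.mul_le_mul_right _ (by omega)
  · show _ ≤ finrank (ZMod p) (sub hs S k v)
    rw [hjz, finrank_sub hG hn hm hs hk, hv, hpv]
    exact Nat.mul_le_mul_right _ (by omega)

omit hs in
/-- The link is the complex of flags opposite to the flags of the intervals. -/
theorem model (hJ : J.Nonempty) (hS : S.Nonempty) (q₀ : Ga n M p m) :
    ∃ (F : OppFlag.Flags (ZMod p) (Idx n M → ZMod p) J)
      (ψ : Vx n M p m → J × Submodule (ZMod p) (Idx n M → ZMod p))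
      (φ : J × Submodule (ZMod p) (Idx n M → ZMod p) → Vx n M p m),
      ∑ i, (F.a i - 1) + J.card = n ∧
      (∀ t ∈ Lk J S q₀, t.image ψ ∈ OppFlag.Opp F ∧ ∀ x ∈ t, φ (ψ x) = x) ∧
      ∀ t ∈ OppFlag.Opp F, t.image φ ∈ Lk J S q₀ := by
  classical
  obtain ⟨s, hs⟩ := hJ
  let LV : Set (Vx n M p m) :=
    {x | ∃ kv : Ga n M p m × Fin n, kv.1 ∈ KJ n M p m J S ∧ kv.2 ∉ J ∧
      x = vert (q₀ * kv.1) kv.2}
  let ψ : Vx n M p m → J × Submodule (ZMod p) (Idx n M → ZMod p) := fun x =>
    if h : x ∈ LV then (bk hs h.choose.2, sub hs S h.choose.1 h.choose.2) else (⟨s, hs⟩, ⊥)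
  have hψ : ∀ k ∈ KJ n M p m J S, ∀ v ∉ J,
      ψ (vert (q₀ * k) v) = (bk hs v, sub hs S k v) := by
    intro k hk v hv
    have h : vert (q₀ * k) v ∈ LV := ⟨(k, v), hk, hv, rfl⟩
    simp only [ψ, dif_pos h]
    obtain ⟨h1, -, h3⟩ := h.choose_spec
    have hfst : v = h.choose.2 := congrArg Sigma.fst h3
    rw [← hfst] at h3 ⊢
    rw [vert_eq_iff, mul_inv_rev, mul_assoc, inv_mul_cancel_left] at h3
    rw [(sub_eq_iff hG hn hm hs hk h1 v).2 h3]
  have hinj : Set.InjOn ψ LV := by
    rintro _ ⟨⟨k, v⟩, hk, hv, rfl⟩ _ ⟨⟨l, w⟩, hl, hw, rfl⟩ he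
    rw [hψ k hk v hv, hψ l hl w hw, Prod.mk.injEq] at he
    obtain ⟨he1, he2⟩ := he
    have hvw : v = w := by
      refine pl_inj hs he1 ?_
      have h := congrArg (fun W : Submodule (ZMod p) (Idx n M → ZMod p) =>
        finrank (ZMod p) W) he2
      simp only [finrank_sub hG hn hm hs hk, finrank_sub hG hn hm hs hl, he1] at h
      have := Nat.eq_of_mul_eq_mul_right hS.card_pos h
      have h1 := pl_lt hs v
      have h2 := pl_lt hs w
      rw [he1] at h1
      omega
    subst hvw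
    rw [vert_eq_iff, mul_inv_rev, mul_assoc, inv_mul_cancel_left]
    exact (sub_eq_iff hG hn hm hs hk hl v).1 he2
  have : Nonempty (Vx n M p m) := ⟨vert 1 s⟩
  have hφ : ∀ x ∈ LV, Function.invFunOn ψ LV (ψ x) = x := fun x hx =>
    hinj.leftInvOn_invFunOn hx
  refine ⟨flags hs S hS, ψ, Function.invFunOn ψ LV, ?_, ?_, ?_⟩
  · exact sum_fib hs
  · rintro t ⟨k, hk, ht⟩
    refine ⟨⟨fun z hz => ?_, fun z hz z' hz' he => ?_⟩, fun x hx => ?_⟩
    · obtain ⟨x, hx, rfl⟩ := Finset.mem_image.1 hz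
      obtain ⟨v, hv, rfl⟩ := ht x hx
      rw [hψ k hk v hv]
      exact isVtx_sub hG hn hm hs hS hk hv
    · obtain ⟨x, hx, rfl⟩ := Finset.mem_image.1 hz
      obtain ⟨x', hx', rfl⟩ := Finset.mem_image.1 hz'
      obtain ⟨v, hv, rfl⟩ := ht x hx
      obtain ⟨w, hw, rfl⟩ := ht x' hx'
      rw [hψ k hk v hv, hψ k hk w hw] at he ⊢
      simp only at he ⊢
      have key : ∀ v w, bk hs v = bk hs w → pl hs w ≤ pl hs v → sub hs S k v ≤ sub hs S k w := by
        intro v w he h
        refine Submodule.map_mono fun u hu x hx => hu x fun hxv => hx ?_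
        obtain ⟨h1, h2, h3⟩ := mem_wset.1 hxv
        exact mem_wset.2 ⟨h1.trans he, by omega, h3⟩
      rcases le_total (pl hs w) (pl hs v) with h | h
      · exact Or.inl (key v w he h)
      · exact Or.inr (key w v he.symm h)
    · obtain ⟨v, hv, rfl⟩ := ht x hx
      exact hφ _ ⟨(k, v), hk, hv, rfl⟩
  · intro t ht
    obtain ⟨k, hk, h⟩ := realise hG hn hm hs hS ht
    refine ⟨k, hk, fun x hx => ?_⟩
    obtain ⟨z, hz, rfl⟩ := Finset.mem_image.1 hx
    obtain ⟨v, hv, rfl⟩ := h z hz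
    refine ⟨v, hv, ?_⟩
    rw [← hψ k hk v hv]
    exact hφ _ ⟨(k, v), hk, hv, rfl⟩

end Model

end Vale.Agent.P067.Full.LinkModel

end
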