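import Vale.Agent.P067.Full.Group

/-!
The stabilisers of faces and their generation by simple roots of the free types.
-/

open Matrix Finset

noncomputable section

namespace Vale.Agent.P067.Full.Grp

variable {n M p m : ℕ}

variable (n M p m) in
/-- The stabiliser of the standard face of types `J`. -/
def KJ (J : Finset (Fin n)) : Subgroup (Ga n M p m) :=
  GS n M p m univ ⊓ ⨅ v ∈ J, Kv n M p m v

lemma mem_KJ {J : Finset (Fin n)} {g : Ga n M p m} :
    g ∈ KJ n M p m J ↔ g ∈ GS n M p m univ ∧ ∀ v ∈ J, g ∈ Kv n M p m v := by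
  simp [KJ, Subgroup.mem_iInf]

lemma sc_injective (hm : 1 ≤ m) : Function.Injective (sc p m) := by
  intro c d h
  rw [sc, sc, Ideal.Quotient.eq, Ideal.mem_span_singleton, Polynomial.X_pow_dvd_iff] at h
  have := h 0 (by omega)
  rwa [Polynomial.coeff_sub, Polynomial.coeff_C_zero, Polynomial.coeff_C_zero, sub_eq_zero] at this

lemma sc_mul_te_injective (hm : 2 ≤ m) {a b : Fin n} {c d : ZMod p}
    (h : sc p m c * te p m a b = sc p m d * te p m a b) : c = d := by
  unfold te at h
  split_ifs at h with hab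
  · rw [sc, sc, tt, ← map_mul, ← map_mul, Ideal.Quotient.eq, Ideal.mem_span_singleton,
      Polynomial.X_pow_dvd_iff] at h
    have := h 1 (by omega)
    simpa [Polynomial.coeff_sub, Polynomial.coeff_C_mul, sub_eq_zero] using this
  · rw [mul_one, mul_one] at h
    exact sc_injective (by omega) h

theorem mem_KJ_iff_KSet [NeZero p] (hm : 2 ≤ m) {J : Finset (Fin n)} (hJ : J.Nonempty)
    {g : Ga n M p m} : g ∈ KJ n M p m J ↔ g ∈ KSet n M p m J := by
  rw [mem_KJ]
  refine ⟨fun h' i j => ?_, fun h => ⟨(mem_GS _ _).2 (KSet_subset_GSet hJ h), fun v hv =>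
    Subgroup.subset_closure fun i j => ?_⟩⟩
  · have h := h'.2
    obtain ⟨v₀, hv₀⟩ := hJ
    obtain ⟨c, hc, hx⟩ := (mem_Kv v₀ g).1 (h v₀ hv₀) i j
    refine ⟨fun a b => if a = b then 0 else c a b, fun v hv a b hcr => ?_, fun a b => ?_⟩
    · dsimp only
      split_ifs with hab
      · rfl
      · obtain ⟨d, hd, hy⟩ := (mem_Kv v g).1 (h v hv) i j
        have h1 := hx a b
        rw [hy, if_neg hab, if_neg hab] at h1
        rw [← sc_mul_te_injective hm h1]
        exact hd v (mem_singleton_self v) a b hcr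
    · rw [hx]
      dsimp only
      by_cases hab : a = b <;> simp [hab]
  · obtain ⟨c, hc, hx⟩ := h i j
    exact ⟨c, fun v' hv' a b hcr => hc v' ((mem_singleton.1 hv').symm ▸ hv) a b hcr, hx⟩

variable (n M p m) in
/-- The simple root elements of the types outside `J`. -/
def rootsJ (J : Finset (Fin n)) : Set (Ga n M p m) :=
  {g | ∃ (i j : Fin M) (a : Fin n) (c : ZMod p), a ∉ J ∧
    g = psi n M p m (tv (i, a) (j, nxt a) (sc p m c * te p m a (nxt a)))}

lemma root_mem_KJ (hn : 2 ≤ n) {J : Finset (Fin n)} (i j : Fin M) {a : Fin n} (ha : a ∉ J)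
    (c : ZMod p) :
    psi n M p m (tv (i, a) (j, nxt a) (sc p m c * te p m a (nxt a))) ∈ KJ n M p m J := by
  have h : ((i, a) : Fin M × Fin n) ≠ (j, nxt a) := fun h => nxt_ne hn a (congrArg Prod.snd h)
  refine mem_KJ.2 ⟨Subgroup.subset_closure (psi_mem_GSet.2 (sh_tv h (mem_univ _) (mem_univ _)
    fun hle => ?_)), fun v hv => Subgroup.subset_closure fun k l => ?_⟩
  · unfold te
    rw [if_pos (lt_of_le_of_ne hle (nxt_ne hn a).symm)]
    exact Ideal.mul_mem_left _ _ (Ideal.mem_span_singleton_self _)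
  refine ⟨fun x y => if k = i ∧ l = j ∧ x = a ∧ y = nxt a then c else 0,
    fun w hw x y hcr => if_neg ?_, fun x y => ?_⟩
  · rintro ⟨-, -, rfl, rfl⟩
    rw [mem_singleton] at hw
    subst hw
    have hav : x.1 ≠ w.1 := fun h => ha (Fin.ext h ▸ hv)
    have := x.2
    have := w.2
    rw [crosses_iff, nxt_val] at hcr
    split_ifs at hcr <;> omega
  · rw [coe_psi_tv h, add_sub_cancel_left]
    dsimp only
    by_cases h' : k = i ∧ l = j ∧ x = a ∧ y = nxt a
    · obtain ⟨rfl, rfl, rfl, rfl⟩ := h'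
      rw [if_neg (nxt_ne hn x), if_pos ⟨rfl, rfl, rfl, rfl⟩, Matrix.single_apply_same,
        Matrix.single_apply_same]
    · rw [if_neg h', sc_zero, zero_mul, ite_self]
      by_cases hkl : i = k ∧ j = l
      · obtain ⟨rfl, rfl⟩ := hkl
        rw [Matrix.single_apply_same, Matrix.single_apply, if_neg]
        rintro ⟨rfl, rfl⟩
        exact h' ⟨rfl, rfl, rfl, rfl⟩
      · rw [Matrix.single_apply, if_neg hkl]
        rfl

lemma step_next {v a b : Fin n} (hab : a ≠ b) (h : ¬ crosses v a b) :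
    a ≠ v ∧ ¬ crosses v a (nxt a) ∧ pos v (nxt a) = pos v a + 1 := by
  have := a.2
  have := b.2
  have := v.2
  simp only [ne_eq, Fin.ext_iff, crosses_iff] at *
  rw [nxt_val]
  unfold pos
  simp only [Fin.lt_def, nxt_val]
  refine ⟨by omega, ?_, ?_⟩ <;> split_ifs <;> omega

lemma crosses_sub {v a b : Fin n} (hab : a ≠ b) (hb : nxt a ≠ b) (hcr : crosses v (nxt a) b) :
    crosses v a b := by
  have := a.2
  have := b.2
  have := v.2
  simp only [ne_eq, Fin.ext_iff, crosses_iff, nxt_val] at *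
  split_ifs at * <;> omega

lemma not_mem_of_not_crosses {J : Finset (Fin n)} {a b : Fin n} (hab : a ≠ b)
    (h : ∀ v ∈ J, ¬ crosses v a b) : a ∉ J := fun ha => by
  have := h a ha
  simp only [ne_eq, Fin.ext_iff, crosses_iff] at *
  omega

lemma tv_mem_closure (hn : 2 ≤ n) {J : Finset (Fin n)} {v₀ : Fin n} (hv₀ : v₀ ∈ J) :
    ∀ (d : ℕ) (i j : Fin M) (a b : Fin n), a ≠ b → (∀ v ∈ J, ¬ crosses v a b) →
      pos v₀ b - pos v₀ a ≤ d → ∀ x : ZMod p,
      psi n M p m (tv (i, a) (j, b) (sc p m x * te p m a b)) ∈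
        Subgroup.closure (rootsJ n M p m J)
  | 0, i, j, a, b, hab, h, hd, _ => absurd (pos_lt_pos hab (h v₀ hv₀)) (by omega)
  | d + 1, i, j, a, b, hab, h, hd, x => by
    obtain ⟨-, h1, hpos⟩ := step_next hab (h v₀ hv₀)
    have haJ := not_mem_of_not_crosses hab h
    have hgen : ∀ j' y, psi n M p m (tv (i, a) (j', nxt a) (sc p m y * te p m a (nxt a))) ∈
        Subgroup.closure (rootsJ n M p m J) := fun j' y =>
      Subgroup.subset_closure ⟨i, j', a, y, haJ, rfl⟩
    by_cases hb : nxt a = b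
    · subst hb; exact hgen j x
    · have h' : ∀ v ∈ J, ¬ crosses v (nxt a) b := fun v hv hcr => h v hv (crosses_sub hab hb hcr)
      have h3 := tv_mem_closure hn hv₀ d i j (nxt a) b hb h' (by omega) x
      have h4 := comm_mem (H := (Subgroup.closure (rootsJ n M p m J)).comap (psi n M p m))
        (nxt_ne hn a) hb (fun h'' : ((i, a) : Fin M × Fin n) = (j, b) =>
          hab (congrArg Prod.snd h'')) (hgen i 1) h3
      rw [sc_one, one_mul, mul_left_comm,
        (not_crosses_trans (nxt_ne hn a) hb h1 (h' v₀ hv₀)).2.2] at h4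
      exact h4

lemma KSet_le_closure (hn : 2 ≤ n) {J : Finset (Fin n)} {v₀ : Fin n} (hv₀ : v₀ ∈ J) :
    ∀ (k : ℕ) (g : SLc n M p m) (c : Fin M → Fin M → Fin n → Fin n → ZMod p),
      (∀ i j, ∀ v ∈ J, ∀ a b, crosses v a b → c i j a b = 0) →
      (∀ i j a b, g.1 (i, a) (j, b) =
        (1 : Matrix (Fin M × Fin n) (Fin M × Fin n) (Rm p m)) (i, a) (j, b) +
          if a = b then 0 else sc p m (c i j a b) * te p m a b) →
      (univ.filter fun e : (Fin M × Fin n) × (Fin M × Fin n) =>
        e.1.2 ≠ e.2.2 ∧ c e.1.1 e.2.1 e.1.2 e.2.2 ≠ 0).card ≤ k →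
      psi n M p m g ∈ Subgroup.closure (rootsJ n M p m J) := by
  classical
  intro k
  induction k with
  | zero =>
    intro g c _ hg hk
    convert one_mem (Subgroup.closure (rootsJ n M p m J))
    rw [show g = 1 from ?_, map_one]
    refine Subtype.ext (Matrix.ext fun ⟨i, a⟩ ⟨j, b⟩ => ?_)
    show g.1 (i, a) (j, b) = (1 : Matrix (Fin M × Fin n) (Fin M × Fin n) (Rm p m)) (i, a) (j, b)
    rw [hg]
    split_ifs with hab
    · exact add_zero _
    · have : c i j a b = 0 := by
        by_contra hne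
        exact Finset.notMem_empty ((i, a), (j, b)) ((Finset.card_eq_zero.1 (Nat.le_zero.1 hk)) ▸
          Finset.mem_filter.2 ⟨Finset.mem_univ _, hab, hne⟩)
      rw [this, sc_zero, zero_mul, add_zero]
  | succ k ih =>
    intro g c hc hg hk
    rcases (univ.filter fun e : (Fin M × Fin n) × (Fin M × Fin n) =>
        e.1.2 ≠ e.2.2 ∧ c e.1.1 e.2.1 e.1.2 e.2.2 ≠ 0).eq_empty_or_nonempty with he | hne
    · exact ih g c hc hg (by simp [he])
    obtain ⟨⟨⟨i₀, a⟩, j₀, b⟩, hmem, hmin⟩ :=
      Finset.exists_min_image _ (fun e => pos v₀ e.1.2) hne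
    obtain ⟨-, hab, hne'⟩ := Finset.mem_filter.1 hmem
    simp only at hab hne'
    have hcr : ∀ v ∈ J, ¬ crosses v a b := fun v hv h => hne' (hc _ _ v hv a b h)
    have hcol : ∀ i a', a' ≠ a → c i i₀ a' a = 0 := fun i a' ha' => by
      by_contra hne''
      have h1 := hmin ((i, a'), (i₀, a)) (Finset.mem_filter.2 ⟨Finset.mem_univ _, ha', hne''⟩)
      have h2 := pos_lt_pos ha' fun h => hne'' (hc _ _ v₀ hv₀ _ _ h)
      simp only at h1
      omega
    let c' : Fin M → Fin M → Fin n → Fin n → ZMod p := fun i j a' b' =>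
      if i = i₀ ∧ j = j₀ ∧ a' = a ∧ b' = b then 0 else c i j a' b'
    have hPQ : ((i₀, a) : Fin M × Fin n) ≠ (j₀, b) := fun h => hab (congrArg Prod.snd h)
    have hg' : ∀ i j a' b', (g * tv (i₀, a) (j₀, b)
        (-(sc p m (c i₀ j₀ a b) * te p m a b))).1 (i, a') (j, b') =
        (1 : Matrix (Fin M × Fin n) (Fin M × Fin n) (Rm p m)) (i, a') (j, b') +
          if a' = b' then 0 else sc p m (c' i j a' b') * te p m a' b' := fun i j a' b' => by
      rw [mul_tv_apply hPQ, hg, hg]
      by_cases hjb : ((j, b') : Fin M × Fin n) = (j₀, b)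
      · obtain ⟨rfl, rfl⟩ := Prod.mk.inj hjb
        rw [if_pos rfl]
        by_cases hia : ((i, a') : Fin M × Fin n) = (i₀, a)
        · obtain ⟨rfl, rfl⟩ := Prod.mk.inj hia
          simp [c', hab, one_apply_ne hPQ, sc_zero]
        · have hc' : c' i j a' b' = c i j a' b' := by
            refine if_neg ?_
            rintro ⟨rfl, -, rfl, -⟩
            exact hia rfl
          rw [one_apply_ne hia, hc']
          by_cases haa : a' = a
          · subst haa; simp
          · simp [hcol i a' haa, sc_zero]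
      · rw [if_neg hjb, add_zero, show c' i j a' b' = c i j a' b' from if_neg ?_]
        rintro ⟨-, rfl, -, rfl⟩
        exact hjb rfl
    have hc' : ∀ i j, ∀ v ∈ J, ∀ a' b', crosses v a' b' → c' i j a' b' = 0 :=
      fun i j v hv a' b' h => by
      simp only [c', hc i j v hv a' b' h]
      split_ifs <;> rfl
    have hlt : (univ.filter fun e : (Fin M × Fin n) × (Fin M × Fin n) =>
        e.1.2 ≠ e.2.2 ∧ c' e.1.1 e.2.1 e.1.2 e.2.2 ≠ 0).card < k + 1 := by
      refine lt_of_lt_of_le (Finset.card_lt_card ⟨?_, fun hsub => ?_⟩) hk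
      · intro e he
        simp only [Finset.mem_filter, Finset.mem_univ, true_and, c'] at he ⊢
        refine ⟨he.1, fun h => he.2 ?_⟩
        split_ifs <;> first | rfl | exact h
      · have := hsub hmem
        simp [c'] at this
    have h1 := ih _ c' hc' hg' (Nat.le_of_lt_succ hlt)
    have h2 := tv_mem_closure (m := m) hn hv₀ n i₀ j₀ a b hab hcr
      (by unfold pos; have := a.2; have := b.2; split_ifs <;> omega) (c i₀ j₀ a b)
    have h3 := Subgroup.mul_mem _ h1 h2
    rwa [← map_mul, mul_assoc, ← tv_add, neg_add_cancel, tv_zero, mul_one] at h3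

/-- The stabiliser of a face is generated by the simple roots of the other types. -/
theorem closure_rootsJ [NeZero p] (hn : 3 ≤ n) (hm : 2 ≤ m) (J : Finset (Fin n)) :
    Subgroup.closure (rootsJ n M p m J) = KJ n M p m J := by
  classical
  refine le_antisymm (Subgroup.closure_le _ |>.2 ?_) fun g hg => ?_
  · rintro _ ⟨i, j, a, c, ha, rfl⟩
    exact root_mem_KJ (by omega) i j ha c
  rcases J.eq_empty_or_nonempty with rfl | hJ
  · have hmem := (mem_KJ.1 hg).1
    rw [← closure_roots hn univ] at hmem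
    refine Subgroup.closure_mono ?_ hmem
    rintro u ⟨-, a, c, i, -, j, -, hu⟩
    refine ⟨i, j, a, c, notMem_empty a, Units.ext ?_⟩
    have hne : ((i, a) : Fin M × Fin n) ≠ (j, nxt a) := fun h =>
      nxt_ne (by omega) a (congrArg Prod.snd h)
    rw [hu, coe_psi_tv hne]
  · obtain ⟨v₀, hv₀⟩ := hJ
    have hK := (mem_KJ_iff_KSet hm ⟨v₀, hv₀⟩).1 hg
    choose c hc hx using hK
    let G : SLc n M p m := ⟨_, det_of_mem_KSet hv₀ ((mem_KJ_iff_KSet hm ⟨v₀, hv₀⟩).1 hg)⟩
    have hG : psi n M p m G = g := Units.ext (Matrix.ext fun i j => Matrix.ext fun a b => rfl)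
    rw [← hG]
    refine KSet_le_closure (by omega) hv₀ _ G c hc (fun i j a b => ?_) le_rfl
    rw [← one_BM_apply, ← hx]
    show (g : BM n M p m) i j a b = _
    simp

end Vale.Agent.P067.Full.Grp
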