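import Vale.Agent.P067.Full.Chains

/-!
# P067 full answer: complexes of flags opposite to given flags of step `b`

`Opp F` is the join, over the blocks `i`, of the complexes of chains of subspaces of
`F.E i (F.a i)` of dimensions `j * F.b`, `0 < j < F.a i`, transversal to the flag `F.E i`.
Cycles of size `c` on at most `M` vertices are filled on boundedly many vertices as soon as the
field is large in terms of `c` and `M` (`opp_fill`); hence bounded cones exist (`opp_cones`) and
all cycles of size `c` bound (`opp_fills`).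
-/

open Finset Module

noncomputable section

namespace Vale.Agent.P067.Full.OppFlag

/-! ## Chains -/

section Chains

variable {α : Type} [DecidableEq α]

/-- The sets of `S` contained in `U`. -/
def On (S : Set (Finset α)) (U : Finset α) : Set (Finset α) := {s | s ∈ S ∧ s ⊆ U}

/-- The coefficient of a vertex. -/
def lk (x : α) : Ch α →ₗ[ZMod 2] Ch α :=
  Finsupp.linearCombination (ZMod 2) fun s =>
    if x ∈ s then Finsupp.single (s.erase x) 1 else 0

theorem lk_single (x : α) (s : Finset α) (a : ZMod 2) :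
    lk x (Finsupp.single s a) = if x ∈ s then Finsupp.single (s.erase x) a else 0 := by
  simp only [lk, Finsupp.linearCombination_single]
  split_ifs <;> simp

theorem bd_lk (x : α) (z : Ch α) : bd (lk x z) = lk x (bd z) := by
  induction z using Finsupp.induction_linear with
  | zero => simp
  | add u v hu hv => simp only [map_add, hu, hv]
  | single s a =>
    rw [lk_single, bd_single, map_sum]
    by_cases hx : x ∈ s
    · rw [if_pos hx, bd_single, ← Finset.add_sum_erase s _ hx, lk_single,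
        if_neg (Finset.notMem_erase x s), zero_add]
      refine Finset.sum_congr rfl fun y hy => ?_
      rw [lk_single, if_pos (Finset.mem_erase.2 ⟨(Finset.ne_of_mem_erase hy).symm, hx⟩),
        Finset.erase_right_comm]
    · rw [if_neg hx, map_zero]
      refine (Finset.sum_eq_zero fun y _ => ?_).symm
      rw [lk_single, if_neg fun h => hx (Finset.mem_of_mem_erase h)]

/-- In a cycle the vertex `x` can be replaced by `y` if `y` can be added to all its faces. -/
theorem replace {S : Set (Finset α)} (hS : ∀ s ∈ S, ∀ t ⊆ s, t ∈ S) {c : ℕ} {U : Finset α}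
    {z : Ch α} (hz : Sup (On S U) c z) (hcyc : bd z = 0) {x y : α} (hxy : x ≠ y)
    (hy : ∀ s ∈ On S U, x ∈ s → insert y s ∈ S) :
    ∃ w, Sup (On S (insert x (insert y U))) (c + 1) w ∧
      Sup (On S ((insert y U).erase x)) c (z + bd w) := by
  set L : Ch α := lk x z with hL
  have hLc : bd L = 0 := by rw [hL, bd_lk, hcyc, map_zero]
  refine ⟨cone x (cone y L), ?_, ?_⟩
  · refine hz.map (cone x ∘ₗ cone y ∘ₗ lk x) fun s hs hsc => ?_
    simp only [LinearMap.comp_apply, lk_single]
    by_cases hxs : x ∈ s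
    swap
    · simp only [if_neg hxs, map_zero]
      exact Sup.zero
    rw [if_pos hxs, cone_single]
    by_cases hys : y ∈ s.erase x
    · rw [if_pos hys, map_zero]
      exact Sup.zero
    rw [if_neg hys, cone_single, if_neg (by simp [hxy])]
    have hys' : y ∉ s := fun h => hys (Finset.mem_erase.2 ⟨hxy.symm, h⟩)
    have he : insert x (insert y (s.erase x)) = insert y s := by
      rw [Finset.insert_comm, Finset.insert_erase hxs]
    rw [he]
    exact Sup.single 1 ⟨hy s hs hxs,
      (Finset.insert_subset_insert y hs.2).trans (Finset.subset_insert x _)⟩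
      (by rw [Finset.card_insert_of_notMem hys', hsc])
  · have e : z + bd (cone x (cone y L)) =
        ((LinearMap.id : Ch α →ₗ[ZMod 2] Ch α) + cone x ∘ₗ lk x + cone y ∘ₗ lk x) z := by
      rw [bd_cone, bd_cone, hLc, map_zero, add_zero]
      simp only [LinearMap.add_apply, LinearMap.id_apply, LinearMap.comp_apply, ← hL]
      abel
    rw [e]
    refine hz.map _ fun s hs hsc => ?_
    simp only [LinearMap.add_apply, LinearMap.id_apply, LinearMap.comp_apply, lk_single]
    by_cases hxs : x ∈ s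
    · rw [if_pos hxs, cone_single, if_neg (Finset.notMem_erase x s), Finset.insert_erase hxs,
        ch_add_self, zero_add, cone_single]
      by_cases hys : y ∈ s.erase x
      · rw [if_pos hys]; exact Sup.zero
      rw [if_neg hys]
      refine Sup.single 1 ⟨hS _ (hy s hs hxs) _
        (Finset.insert_subset_insert y (Finset.erase_subset x s)), ?_⟩ ?_
      · intro u hu
        rcases Finset.mem_insert.1 hu with rfl | hu
        · exact Finset.mem_erase.2 ⟨hxy.symm, Finset.mem_insert_self _ _⟩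
        · exact Finset.mem_erase.2 ⟨Finset.ne_of_mem_erase hu,
            Finset.mem_insert_of_mem (hs.2 (Finset.mem_of_mem_erase hu))⟩
      · rw [Finset.card_insert_of_notMem hys, Finset.card_erase_of_mem hxs]
        have : 1 ≤ s.card := Finset.card_pos.2 ⟨x, hxs⟩
        omega
    · simp only [if_neg hxs, map_zero, add_zero]
      refine Sup.single 1 ⟨hs.1, fun u hu => ?_⟩ hsc
      exact Finset.mem_erase.2 ⟨fun h => hxs (h ▸ hu), Finset.mem_insert_of_mem (hs.2 hu)⟩

end Chains

/-! ## Flags and transversal subspaces -/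

variable {𝕜 V ι : Type} [Field 𝕜] [AddCommGroup V] [Module 𝕜 V]

/-- A family of flags of step `b`, one for each block. -/
structure Flags (𝕜 V ι : Type) [Field 𝕜] [AddCommGroup V] [Module 𝕜 V] where
  /-- The step. -/
  b : ℕ
  b_pos : 0 < b
  /-- The lengths of the blocks. -/
  a : ι → ℕ
  /-- The flags. -/
  E : ι → ℕ → Submodule 𝕜 V
  mono : ∀ i j k, j ≤ k → k ≤ a i → E i j ≤ E i k
  rank : ∀ i j, j ≤ a i → finrank 𝕜 (E i j) = j * b

/-- The vertices: proper subspaces of the blocks transversal to the flags. -/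
def IsVtx (F : Flags 𝕜 V ι) (x : ι × Submodule 𝕜 V) : Prop :=
  ∃ j, 0 < j ∧ j < F.a x.1 ∧ finrank 𝕜 x.2 = j * F.b ∧
    x.2 ≤ F.E x.1 (F.a x.1) ∧ x.2 ⊓ F.E x.1 (F.a x.1 - j) = ⊥

/-- The join over the blocks of the complexes of chains of transversal subspaces. -/
def Opp (F : Flags 𝕜 V ι) : Set (Finset (ι × Submodule 𝕜 V)) :=
  {s | (∀ x ∈ s, IsVtx F x) ∧ ∀ x ∈ s, ∀ y ∈ s, x.1 = y.1 → x.2 ≤ y.2 ∨ y.2 ≤ x.2}

theorem opp_mono {F : Flags 𝕜 V ι} {s : Finset (ι × Submodule 𝕜 V)} (hs : s ∈ Opp F)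
    {t : Finset (ι × Submodule 𝕜 V)} (ht : t ⊆ s) : t ∈ Opp F :=
  ⟨fun x hx => hs.1 x (ht hx), fun x hx y hy => hs.2 x (ht hx) y (ht hy)⟩

variable [DecidableEq (ι × Submodule 𝕜 V)]

theorem opp_insert {F : Flags 𝕜 V ι} {s : Finset (ι × Submodule 𝕜 V)} (hs : s ∈ Opp F)
    {y : ι × Submodule 𝕜 V} (hy : IsVtx F y)
    (h : ∀ x ∈ s, x.1 = y.1 → x.2 ≤ y.2 ∨ y.2 ≤ x.2) : insert y s ∈ Opp F := by
  refine ⟨(Finset.forall_mem_insert y s _).2 ⟨hy, hs.1⟩, fun u hu v hv e => ?_⟩
  rcases Finset.mem_insert.1 hu with rfl | hu'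
  · rcases Finset.mem_insert.1 hv with rfl | hv'
    · exact Or.inl le_rfl
    · exact (h v hv' e.symm).symm
  · rcases Finset.mem_insert.1 hv with rfl | hv'
    · exact h u hu' e
    · exact hs.2 u hu' v hv' e

variable [FiniteDimensional 𝕜 V]

/-- A vector of `T` outside finitely many proper subspaces. -/
theorem exists_avoid {κ : Type} (T : Submodule 𝕜 V) (I : Finset κ) (P : κ → Submodule 𝕜 V)
    (hI : ∀ k ∈ I, finrank 𝕜 (P k) < finrank 𝕜 T) (hK : (I.card : ℕ∞) < ENat.card 𝕜) :
    ∃ x ∈ T, ∀ k ∈ I, x ∉ P k := by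
  have h1 : ∀ k : {k // k ∈ I}, (P k.1).comap T.subtype ≠ ⊤ := by
    intro k h
    rw [Submodule.comap_subtype_eq_top] at h
    exact absurd (Submodule.finrank_mono h) (not_le.2 (hI k.1 k.2))
  have h2 := Submodule.iUnion_ssubset_of_forall_ne_top_of_card_lt I.attach
    (fun k => (P k.1).comap T.subtype) h1 (by rwa [Finset.card_attach])
  obtain ⟨x, -, hx⟩ := Set.exists_of_ssubset h2
  refine ⟨x.1, x.2, fun k hk hxk => hx ?_⟩
  simp only [Set.mem_iUnion]
  exact ⟨⟨k, hk⟩, Finset.mem_attach _ _, hxk⟩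

/-- A common complement in `T` of finitely many subspaces of codimension at least `b`, one of
them given. -/
theorem exists_complement {κ : Type} (T : Submodule 𝕜 V) (I : Finset κ)
    (P : κ → Submodule 𝕜 V) (hne : I.Nonempty) (b : ℕ)
    (hI : ∀ k ∈ I, finrank 𝕜 (P k) + b ≤ finrank 𝕜 T)
    (hK : (I.card : ℕ∞) < ENat.card 𝕜) :
    ∃ L ≤ T, finrank 𝕜 L = b ∧ ∀ k ∈ I, L ⊓ P k = ⊥ := by
  induction b with
  | zero =>
    exact ⟨⊥, bot_le, finrank_bot 𝕜 V, fun k _ => bot_inf_eq _⟩
  | succ b ih =>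
    obtain ⟨L, hLT, hL, hLP⟩ := ih fun k hk => by have := hI k hk; omega
    obtain ⟨v, hvT, hv⟩ := exists_avoid T I (fun k => L ⊔ P k) (fun k hk => by
      have h1 := Submodule.finrank_add_le_finrank_add_finrank L (P k)
      have := hI k hk
      omega) hK
    obtain ⟨k₀, hk₀⟩ := hne
    have hvL : v ∉ L := fun h => hv k₀ hk₀ (Submodule.mem_sup_left h)
    have hv0 : v ≠ 0 := fun h => hvL (h ▸ L.zero_mem)
    refine ⟨L ⊔ 𝕜 ∙ v, sup_le hLT ((Submodule.span_singleton_le_iff_mem _ _).2 hvT), ?_,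
      fun k hk => ?_⟩
    · have hd : L ⊓ 𝕜 ∙ v = ⊥ := by
        rw [← disjoint_iff, Submodule.disjoint_span_singleton]
        exact fun h => absurd h hvL
      have := Submodule.finrank_sup_add_finrank_inf_eq L (𝕜 ∙ v)
      rw [hd, finrank_bot, add_zero, finrank_span_singleton hv0, hL] at this
      exact this
    · rw [Submodule.eq_bot_iff]
      rintro u ⟨hu1, hu2⟩
      obtain ⟨l, hl, w, hw, rfl⟩ := Submodule.mem_sup.1 hu1
      obtain ⟨r, rfl⟩ := Submodule.mem_span_singleton.1 hw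
      by_cases hr : r = 0
      · subst hr
        simp only [zero_smul, add_zero] at hu2 ⊢
        have hmem : l ∈ L ⊓ P k := ⟨hl, hu2⟩
        rwa [hLP k hk, Submodule.mem_bot] at hmem
      · refine absurd ?_ (hv k hk)
        have hrv : r • v = (l + r • v) - l := by abel
        rw [← Submodule.smul_mem_iff _ hr, hrv]
        exact Submodule.sub_mem _ (Submodule.mem_sup_right hu2) (Submodule.mem_sup_left hl)

/-- The flags in which the block `i` is replaced by a transversal subspace `H` of corank `b`. -/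
def shrink [DecidableEq ι] (F : Flags 𝕜 V ι) (i : ι) (H : Submodule 𝕜 V)
    (hv : IsVtx F (i, H)) (hH : finrank 𝕜 H + F.b = F.a i * F.b) : Flags 𝕜 V ι where
  b := F.b
  b_pos := F.b_pos
  a := Function.update F.a i (F.a i - 1)
  E := Function.update F.E i fun j => F.E i (j + 1) ⊓ H
  mono := by
    intro k j l hjl hl
    rcases eq_or_ne k i with rfl | hk
    · simp only [Function.update_self] at hl ⊢
      obtain ⟨r, hr0, hra, -⟩ := hv
      dsimp only at hra
      exact inf_le_inf_right _ (F.mono k _ _ (by omega) (by omega))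
    · rw [Function.update_of_ne hk] at hl
      rw [Function.update_of_ne hk]
      exact F.mono k j l hjl hl
  rank := by
    intro k j hj
    rcases eq_or_ne k i with rfl | hk
    · rw [Function.update_self] at hj
      rw [show Function.update F.E k (fun j => F.E k (j + 1) ⊓ H) k j = F.E k (j + 1) ⊓ H from by
        simp]
      obtain ⟨r, hr0, hra, hr, hle, hdisj⟩ := hv
      dsimp only at hle hdisj hr hra
      have hr1 : r + 1 = F.a k := by
        refine Nat.eq_of_mul_eq_mul_right F.b_pos ?_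
        rw [Nat.add_mul, one_mul, ← hr, hH]
      rw [show F.a k - r = 1 from by omega] at hdisj
      have htop : H ⊔ F.E k 1 = F.E k (F.a k) := by
        refine Submodule.eq_of_le_of_finrank_le
          (sup_le hle (F.mono k 1 _ (by omega) le_rfl)) ?_
        have := Submodule.finrank_sup_add_finrank_inf_eq H (F.E k 1)
        rw [hdisj, finrank_bot, F.rank k 1 (by omega), one_mul] at this
        rw [F.rank k _ le_rfl]
        omega
      have hj1 : H ⊔ F.E k (j + 1) = F.E k (F.a k) := by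
        refine le_antisymm (sup_le hle (F.mono k _ _ (by omega) le_rfl)) ?_
        rw [← htop]
        exact sup_le_sup_left (F.mono k 1 _ (by omega) (by omega)) H
      have := Submodule.finrank_sup_add_finrank_inf_eq H (F.E k (j + 1))
      rw [hj1, F.rank k _ le_rfl, F.rank k (j + 1) (by omega), inf_comm, add_mul, one_mul] at this
      omega
    · rw [Function.update_of_ne hk] at hj
      rw [Function.update_of_ne hk]
      exact F.rank k j hj

section shrink

variable [DecidableEq ι] (F : Flags 𝕜 V ι) {i : ι} {H : Submodule 𝕜 V}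
  (hv : IsVtx F (i, H)) (hH : finrank 𝕜 H + F.b = F.a i * F.b)

omit [DecidableEq (ι × Submodule 𝕜 V)] in
theorem shrink_top : (shrink F i H hv hH).E i ((shrink F i H hv hH).a i) = H := by
  obtain ⟨r, hr0, hra, -, hle, -⟩ := hv
  dsimp only at hra hle
  simp only [shrink, Function.update_self]
  rw [Nat.sub_add_cancel (show 1 ≤ F.a i by omega)]
  exact inf_eq_right.2 hle

omit [DecidableEq (ι × Submodule 𝕜 V)] in
theorem isVtx_shrink {x : ι × Submodule 𝕜 V} (hxi : x.1 = i) :
    IsVtx (shrink F i H hv hH) x ↔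
      IsVtx F x ∧ x.2 ≤ H ∧ finrank 𝕜 x.2 + F.b < F.a i * F.b := by
  obtain ⟨k, W⟩ := x
  dsimp only at hxi
  subst hxi
  have hle : H ≤ F.E k (F.a k) := hv.choose_spec.2.2.2.1
  unfold IsVtx
  dsimp only
  rw [shrink_top F hv hH]
  simp only [shrink, Function.update_self]
  constructor
  · rintro ⟨j, h0, h1, h2, h3, h4⟩
    refine ⟨⟨j, h0, by omega, h2, h3.trans hle, ?_⟩, h3, ?_⟩
    · rw [show F.a k - 1 - j + 1 = F.a k - j from by omega] at h4
      rw [← h4, ← inf_assoc, inf_eq_left.2 (le_trans inf_le_left h3)]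
    · calc finrank 𝕜 W + F.b = (j + 1) * F.b := by rw [h2, Nat.add_mul, one_mul]
        _ < F.a k * F.b := Nat.mul_lt_mul_of_pos_right (by omega) F.b_pos
  · rintro ⟨⟨j, h0, h1, h2, h3, h4⟩, h5, h6⟩
    have : j + 1 < F.a k := by
      refine Nat.lt_of_mul_lt_mul_right (a := F.b) ?_
      rw [Nat.add_mul, one_mul, ← h2]
      exact h6
    refine ⟨j, h0, by omega, h2, h5, ?_⟩
    rw [show F.a k - 1 - j + 1 = F.a k - j from by omega, ← inf_assoc, h4]
    simp

omit [DecidableEq (ι × Submodule 𝕜 V)] in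
theorem isVtx_shrink_of_ne {x : ι × Submodule 𝕜 V} (hxi : x.1 ≠ i) :
    IsVtx (shrink F i H hv hH) x ↔ IsVtx F x := by
  unfold IsVtx
  simp only [shrink, Function.update_of_ne hxi]

theorem shrink_le_opp {s : Finset (ι × Submodule 𝕜 V)} (hs : s ∈ Opp (shrink F i H hv hH)) :
    insert (i, H) s ∈ Opp F := by
  refine opp_insert ⟨fun x hx => ?_, hs.2⟩ hv fun x hx e => ?_
  · by_cases hxi : x.1 = i
    · exact ((isVtx_shrink F hv hH hxi).1 (hs.1 x hx)).1
    · exact (isVtx_shrink_of_ne F hv hH hxi).1 (hs.1 x hx)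
  · exact Or.inl ((isVtx_shrink F hv hH e).1 (hs.1 x hx)).2.1

theorem erase_mem_shrink {s : Finset (ι × Submodule 𝕜 V)} (hs : s ∈ Opp F) (hx : (i, H) ∈ s) :
    s.erase (i, H) ∈ Opp (shrink F i H hv hH) := by
  refine ⟨fun x hxs => ?_, fun x hxs y hys => hs.2 x (Finset.mem_of_mem_erase hxs) y
    (Finset.mem_of_mem_erase hys)⟩
  obtain ⟨hne, hmem⟩ := Finset.mem_erase.1 hxs
  by_cases hxi : x.1 = i
  · have hx' := hs.1 x hmem
    obtain ⟨j, -, h1, h2, -, -⟩ := hx'
    rw [hxi] at h1
    have hlt : finrank 𝕜 x.2 + F.b ≤ F.a i * F.b := by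
      rw [h2]
      calc j * F.b + F.b = (j + 1) * F.b := by rw [Nat.add_mul, one_mul]
        _ ≤ F.a i * F.b := Nat.mul_le_mul_right _ h1
    have hle : x.2 ≤ H := by
      rcases hs.2 x hmem (i, H) hx hxi with h | h
      · exact h
      · exact (Submodule.eq_of_le_of_finrank_le (S₁ := H) h (by omega)).ge
    refine (isVtx_shrink F hv hH hxi).2 ⟨hs.1 x hmem, hle, ?_⟩
    by_contra hc
    exact hne (Prod.ext hxi (Submodule.eq_of_le_of_finrank_le (S₂ := H) hle (by omega)))
  · exact (isVtx_shrink_of_ne F hv hH hxi).2 (hs.1 x hmem)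

omit [DecidableEq (ι × Submodule 𝕜 V)] in
theorem sum_shrink [Fintype ι] :
    ∑ k, (F.a k - 1) ≤ ∑ k, ((shrink F i H hv hH).a k - 1) + 1 := by
  simp only [shrink]
  rw [← Finset.add_sum_erase _ _ (Finset.mem_univ i),
    ← Finset.add_sum_erase _ (fun k => Function.update F.a i (F.a i - 1) k - 1)
      (Finset.mem_univ i), Function.update_self,
    Finset.sum_congr rfl (fun k hk => by rw [Function.update_of_ne (Finset.ne_of_mem_erase hk)]
      : ∀ k ∈ (Finset.univ : Finset ι).erase i,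
        Function.update F.a i (F.a i - 1) k - 1 = F.a k - 1)]
  omega

end shrink

/-- Cycles without subspaces of corank `b` in the block `i` are filled after adding one
subspace. -/
theorem finish (F : Flags 𝕜 V ι) {i : ι} (hi : 2 ≤ F.a i) {c : ℕ}
    {U : Finset (ι × Submodule 𝕜 V)}
    (hU : ∀ x ∈ U, x.1 = i → IsVtx F x ∧ finrank 𝕜 x.2 + F.b < F.a i * F.b)
    (hK : (U.card : ℕ∞) + 2 ≤ ENat.card 𝕜) {z : Ch (ι × Submodule 𝕜 V)}
    (hz : Sup (On (Opp F) U) c z) (hcyc : bd z = 0) :
    ∃ U', U'.card ≤ 2 * U.card + 1 ∧ U ⊆ U' ∧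
      ∃ w, Sup (On (Opp F) U') (c + 1) w ∧ bd w = z := by
  classical
  have hdiv : ∀ x ∈ U, x.1 = i → ∃ j, 0 < j ∧ j + 1 < F.a i ∧ finrank 𝕜 x.2 = j * F.b ∧
      x.2 ≤ F.E i (F.a i) ∧ x.2 ⊓ F.E i (F.a i - j) = ⊥ := by
    intro x hx hxi
    obtain ⟨⟨j, h0, h1, h2, h3, h4⟩, h5⟩ := hU x hx hxi
    rw [hxi] at h1 h3 h4
    refine ⟨j, h0, ?_, h2, h3, h4⟩
    refine Nat.lt_of_mul_lt_mul_right (a := F.b) ?_
    rw [Nat.add_mul, one_mul, ← h2]
    exact h5
  choose! jf hj0 hj1 hj2 hj3 hj4 using hdiv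
  obtain ⟨L, hLT, hLr, hL⟩ := exists_complement (F.E i (F.a i))
    (insert none ((U.filter fun x => x.1 = i).image some))
    (fun o => match o with
      | none => F.E i (F.a i - 1)
      | some x => x.2 ⊔ F.E i (F.a i - jf x - 1))
    (Finset.insert_nonempty _ _) F.b
    (by
      intro o ho
      rw [F.rank i _ le_rfl]
      rcases Finset.mem_insert.1 ho with rfl | ho
      · show finrank 𝕜 (F.E i (F.a i - 1)) + F.b ≤ _
        rw [F.rank i _ (by omega)]
        calc (F.a i - 1) * F.b + F.b = (F.a i - 1 + 1) * F.b := by rw [Nat.add_mul, one_mul]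
          _ ≤ F.a i * F.b := Nat.mul_le_mul_right _ (by omega)
      · obtain ⟨x, hx, rfl⟩ := Finset.mem_image.1 ho
        rw [Finset.mem_filter] at hx
        have h1 := hj1 x hx.1 hx.2
        show finrank 𝕜 ↥(x.2 ⊔ F.E i (F.a i - jf x - 1)) + F.b ≤ _
        have h2 := Submodule.finrank_add_le_finrank_add_finrank x.2
          (F.E i (F.a i - jf x - 1))
        rw [F.rank i _ (by omega), hj2 x hx.1 hx.2] at h2
        calc finrank 𝕜 ↥(x.2 ⊔ F.E i (F.a i - jf x - 1)) + F.b
            ≤ jf x * F.b + (F.a i - jf x - 1) * F.b + F.b := Nat.add_le_add_right h2 _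
          _ = (jf x + (F.a i - jf x - 1) + 1) * F.b := by ring
          _ ≤ F.a i * F.b := Nat.mul_le_mul_right _ (by omega))
    (by
      have hc : (insert none ((U.filter fun x => x.1 = i).image some)).card ≤ U.card + 1 :=
        (Finset.card_insert_le _ _).trans (Nat.add_le_add_right
          (Finset.card_image_le.trans (Finset.card_filter_le _ _)) 1)
      refine lt_of_lt_of_le ?_ hK
      exact_mod_cast Nat.lt_of_le_of_lt hc (Nat.lt_succ_self _))
  have hL0 : L ⊓ F.E i (F.a i - 1) = ⊥ := hL none (Finset.mem_insert_self _ _)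
  have hLU : ∀ x ∈ U, x.1 = i → L ⊓ (x.2 ⊔ F.E i (F.a i - jf x - 1)) = ⊥ := fun x hx hxi =>
    hL (some x) (Finset.mem_insert_of_mem (Finset.mem_image.2
      ⟨x, Finset.mem_filter.2 ⟨hx, hxi⟩, rfl⟩))
  have hlv : IsVtx F (i, L) :=
    ⟨1, one_pos, hi, by rw [one_mul]; exact hLr, hLT, hL0⟩
  have hsupv : ∀ x ∈ U, x.1 = i → IsVtx F (i, x.2 ⊔ L) := by
    intro x hx hxi
    have h1 := hj1 x hx hxi
    have h3 := hj3 x hx hxi
    have h4 := hj4 x hx hxi
    have hd : x.2 ⊓ L = ⊥ := by
      rw [eq_bot_iff, ← hLU x hx hxi]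
      exact le_inf inf_le_right (inf_le_left.trans le_sup_left)
    refine ⟨jf x + 1, Nat.succ_pos _, h1, ?_, sup_le h3 hLT, ?_⟩
    · show finrank 𝕜 ↥(x.2 ⊔ L) = _
      have := Submodule.finrank_sup_add_finrank_inf_eq x.2 L
      rw [hd, finrank_bot, add_zero, hj2 x hx hxi, hLr] at this
      rw [this, Nat.add_mul, one_mul]
    · show (x.2 ⊔ L) ⊓ F.E i (F.a i - (jf x + 1)) = ⊥
      rw [show F.a i - (jf x + 1) = F.a i - jf x - 1 from by omega, Submodule.eq_bot_iff]
      rintro u ⟨hu1, hu2⟩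
      obtain ⟨a', ha, l, hl, rfl⟩ := Submodule.mem_sup.1 hu1
      have hl' : l ∈ x.2 ⊔ F.E i (F.a i - jf x - 1) := by
        have hsub : l = (a' + l) - a' := by abel
        rw [hsub]
        exact Submodule.sub_mem _ (Submodule.mem_sup_right hu2) (Submodule.mem_sup_left ha)
      have hl0 : l ∈ L ⊓ (x.2 ⊔ F.E i (F.a i - jf x - 1)) := ⟨hl, hl'⟩
      rw [hLU x hx hxi, Submodule.mem_bot] at hl0
      subst hl0
      rw [add_zero] at hu2 ⊢
      have hmem : a' ∈ x.2 ⊓ F.E i (F.a i - jf x) :=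
        ⟨ha, F.mono i _ _ (by omega) (by omega) hu2⟩
      rwa [h4, Submodule.mem_bot] at hmem
  set U₂ : Finset (ι × Submodule 𝕜 V) :=
    insert (i, L) (U ∪ U.image fun x => (i, x.2 ⊔ L)) with hU₂
  have hU₂card : U₂.card ≤ 2 * U.card + 1 := by
    refine (Finset.card_insert_le _ _).trans (Nat.add_le_add_right ?_ 1)
    refine (Finset.card_union_le _ _).trans ?_
    have := Finset.card_image_le (s := U) (f := fun x => (i, x.2 ⊔ L))
    omega
  refine ⟨U₂, hU₂card,
    fun x hx => Finset.mem_insert_of_mem (Finset.mem_union_left _ hx), ?_⟩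
  -- replace the largest subspaces not containing `L`, one after another
  suffices key : ∀ (k : ℕ) (U' : Finset (ι × Submodule 𝕜 V)), U' ⊆ U₂ →
      (∀ x ∈ U', x.1 = i → ¬ L ≤ x.2 → x ∈ U) →
      (U'.filter fun x => x.1 = i ∧ ¬ L ≤ x.2).card ≤ k →
      ∀ z', Sup (On (Opp F) U') c z' → bd z' = 0 →
        ∃ w, Sup (On (Opp F) U₂) (c + 1) w ∧ bd w = z' from
    key U.card U (fun x hx => Finset.mem_insert_of_mem (Finset.mem_union_left _ hx))
      (fun x hx _ _ => hx) (Finset.card_filter_le _ _) z hz hcyc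
  intro k
  induction k with
  | zero =>
    intro U' hU' _ hcard z' hz' hc'
    refine ⟨cone (i, L) z', hz'.cone (i, L) fun s hs _ hls => ⟨opp_insert hs.1 hlv
      fun x hx e => Or.inr ?_, ?_⟩, bd_cone_of_bd_eq_zero _ hc'⟩
    · by_contra hc
      have : x ∈ U'.filter fun x => x.1 = i ∧ ¬ L ≤ x.2 :=
        Finset.mem_filter.2 ⟨hs.2 hx, e, hc⟩
      rw [Finset.card_eq_zero.1 (Nat.le_zero.1 hcard)] at this
      simp at this
    · exact Finset.insert_subset (Finset.mem_insert_self _ _) (hs.2.trans hU')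
  | succ k ih =>
    intro U' hU' hinv hcard z' hz' hc'
    rcases (U'.filter fun x => x.1 = i ∧ ¬ L ≤ x.2).eq_empty_or_nonempty with he | hne
    · exact ih U' hU' hinv (by simp [he]) z' hz' hc'
    obtain ⟨x, hx, hmax⟩ :=
      Finset.exists_max_image _ (fun v : ι × Submodule 𝕜 V => finrank 𝕜 v.2) hne
    obtain ⟨hxU', hxi, hxl⟩ := Finset.mem_filter.1 hx
    have hxU := hinv x hxU' hxi hxl
    have hly : L ≤ x.2 ⊔ L := le_sup_right
    have hxy : x ≠ (i, x.2 ⊔ L) := fun h => hxl (by rw [h]; exact hly)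
    obtain ⟨w, hw1, hw2⟩ := replace (fun s hs t ht => opp_mono hs ht) hz' hc' hxy (by
      intro s hs hxs
      refine opp_insert hs.1 (hsupv x hxU hxi) fun u hu e => ?_
      dsimp only at e ⊢
      rcases hs.1.2 u hu x hxs (e.trans hxi.symm) with h | h
      · exact Or.inl (h.trans le_sup_left)
      · by_cases hlu : L ≤ u.2
        · exact Or.inr (sup_le h hlu)
        · have := hmax u (Finset.mem_filter.2 ⟨hs.2 hu, e, hlu⟩)
          exact Or.inl ((Submodule.eq_of_le_of_finrank_le h this).ge.trans le_sup_left))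
    have hy2 : (i, x.2 ⊔ L) ∈ U₂ := Finset.mem_insert_of_mem
      (Finset.mem_union_right _ (Finset.mem_image.2 ⟨x, hxU, rfl⟩))
    obtain ⟨w', hw'1, hw'2⟩ := ih ((insert (i, x.2 ⊔ L) U').erase x)
      ((Finset.erase_subset _ _).trans (Finset.insert_subset hy2 hU'))
      (by
        intro u hu hui hul
        rcases Finset.mem_insert.1 (Finset.mem_of_mem_erase hu) with rfl | hu
        · exact absurd hly hul
        · exact hinv u hu hui hul)
      (by
        have hsub : ((insert (i, x.2 ⊔ L) U').erase x).filter (fun x => x.1 = i ∧ ¬ L ≤ x.2) ⊆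
            (U'.filter fun x => x.1 = i ∧ ¬ L ≤ x.2).erase x := by
          intro u hu
          obtain ⟨hu1, hu2, hu3⟩ := Finset.mem_filter.1 hu
          obtain ⟨hne', hu4⟩ := Finset.mem_erase.1 hu1
          rcases Finset.mem_insert.1 hu4 with rfl | hu4
          · exact absurd hly hu3
          · exact Finset.mem_erase.2 ⟨hne', Finset.mem_filter.2 ⟨hu4, hu2, hu3⟩⟩
        have := Finset.card_le_card hsub
        rw [Finset.card_erase_of_mem hx] at this
        omega)
      (z' + bd w) hw2 (by rw [map_add, hc', bd_bd, add_zero])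
    refine ⟨w + w', (hw1.mono (K' := On (Opp F) U₂) fun s hs _ =>
      ⟨hs.1, hs.2.trans (Finset.insert_subset (hU' hxU')
        (Finset.insert_subset hy2 hU'))⟩).add hw'1, ?_⟩
    rw [map_add, hw'2, add_comm z' (bd w), ← add_assoc, ch_add_self, zero_add]

omit [DecidableEq (ι × Submodule 𝕜 V)] [FiniteDimensional 𝕜 V] in
theorem exists_block [Fintype ι] (F : Flags 𝕜 V ι) {c : ℕ} (h : c + 1 ≤ ∑ i, (F.a i - 1)) :
    ∃ i, 2 ≤ F.a i := by
  by_contra hc
  push Not at hc
  rw [Finset.sum_eq_zero fun i _ => by have := hc i; omega] at h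
  omega

/-- Cycles on few vertices are filled on few vertices, the field being large. -/
theorem opp_fill : ∀ c M : ℕ, ∃ B P : ℕ, ∀ (𝕜 V ι : Type) [Field 𝕜] [AddCommGroup V]
    [Module 𝕜 V] [FiniteDimensional 𝕜 V] [Fintype ι] [DecidableEq (ι × Submodule 𝕜 V)]
    (F : Flags 𝕜 V ι), (P : ℕ∞) ≤ ENat.card 𝕜 → c + 1 ≤ ∑ i, (F.a i - 1) →
    ∀ (U : Finset (ι × Submodule 𝕜 V)) (z : Ch (ι × Submodule 𝕜 V)), U.card ≤ M →
      Sup (On (Opp F) U) c z → bd z = 0 →
      ∃ U', U'.card ≤ B ∧ ∃ w, Sup (On (Opp F) U') (c + 1) w ∧ bd w = z := by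
  intro c
  induction c with
  | zero =>
    intro M
    refine ⟨1, 2, fun 𝕜 V ι _ _ _ _ _ _ F hP hN U z _ hz hcyc => ?_⟩
    obtain ⟨i, hi⟩ := exists_block F hN
    obtain ⟨U', h1, -, w, hw, hb⟩ := finish F hi (c := 0) (U := ∅) (by simp) (by simpa using hP)
      (fun s hs => by
        obtain ⟨⟨h1, -⟩, h2⟩ := hz s hs
        exact ⟨⟨h1, by rw [Finset.card_eq_zero.1 h2]⟩, h2⟩) hcyc
    exact ⟨U', by simpa using h1, w, hw, hb⟩
  | succ c ih =>
    intro M
    obtain ⟨B, P, hBP⟩ := ih M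
    refine ⟨M + (2 * (M + M * B) + 1), max P (M + M * B + 2),
      fun 𝕜 V ι _ _ _ _ _ _ F hP hN U z hUM hz hcyc => ?_⟩
    classical
    obtain ⟨i, hi⟩ := exists_block F hN
    set hyp := U.filter fun x =>
      x.1 = i ∧ IsVtx F x ∧ finrank 𝕜 x.2 + F.b = F.a i * F.b with hhyp
    have hfill : ∀ x ∈ hyp, ∃ (U' : Finset (ι × Submodule 𝕜 V)) (w : Ch (ι × Submodule 𝕜 V)),
        U'.card ≤ B ∧
        (∀ y ∈ U', y.1 = i → IsVtx F y ∧ finrank 𝕜 y.2 + F.b < F.a i * F.b) ∧
        Sup (On (Opp F) U') (c + 1) w ∧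
        Sup (On (Opp F) (insert x U')) (c + 2) (cone x w) ∧
        bd (cone x w) = w + cone x (lk x z) := by
      rintro ⟨j, H⟩ hx
      obtain ⟨-, hxi, hv, hH⟩ := Finset.mem_filter.1 hx
      dsimp only at hxi hH
      subst hxi
      obtain ⟨U', hU', w, hw, hb⟩ := hBP 𝕜 V ι (shrink F j H hv hH)
        (le_trans (Nat.cast_le.2 (le_max_left _ _)) hP)
        (by have := sum_shrink F hv hH; omega) U (lk (j, H) z) hUM
        (hz.map (lk (j, H)) fun s hs hsc => by
          rw [lk_single]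
          by_cases h : (j, H) ∈ s
          · rw [if_pos h]
            exact Sup.single 1 ⟨erase_mem_shrink F hv hH hs.1 h,
              (Finset.erase_subset _ _).trans hs.2⟩
              (by rw [Finset.card_erase_of_mem h, hsc]; rfl)
          · rw [if_neg h]; exact Sup.zero)
        (by rw [bd_lk, hcyc, map_zero])
      refine ⟨U'.filter (IsVtx (shrink F j H hv hH)), w,
        (Finset.card_filter_le _ _).trans hU', fun y hy hyj => ?_, fun s hs => ?_, ?_, ?_⟩
      · obtain ⟨h1, -, h3⟩ := (isVtx_shrink F hv hH hyj).1 (Finset.mem_filter.1 hy).2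
        exact ⟨h1, h3⟩
      · obtain ⟨⟨h1, h2⟩, h3⟩ := hw s hs
        exact ⟨⟨opp_mono (shrink_le_opp F hv hH h1) (Finset.subset_insert _ _),
          fun u hu => Finset.mem_filter.2 ⟨h2 hu, h1.1 u hu⟩⟩, h3⟩
      · exact hw.cone (j, H) fun s hs _ _ => ⟨shrink_le_opp F hv hH hs.1,
          Finset.insert_subset_insert _ fun u hu => Finset.mem_filter.2 ⟨hs.2 hu, hs.1.1 u hu⟩⟩
      · rw [bd_cone, hb]
    choose! Uf wf hc1 hc2 hc3 hc4 hc5 using hfill
    set U₁ := (U \ hyp).filter (IsVtx F) ∪ hyp.biUnion Uf with hU₁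
    have hcardH : hyp.card ≤ M := (Finset.card_filter_le _ _).trans hUM
    have hU₁card : U₁.card ≤ M + M * B :=
      (Finset.card_union_le _ _).trans (Nat.add_le_add
        ((Finset.card_filter_le _ _).trans ((Finset.card_le_card Finset.sdiff_subset).trans hUM))
        ((Finset.card_biUnion_le_card_mul _ _ _ hc1).trans (Nat.mul_le_mul_right _ hcardH)))
    set z₁ := z + bd (∑ x ∈ hyp, cone x (wf x)) with hz₁
    have hz₁' : Sup (On (Opp F) U₁) (c + 1) z₁ := by
      have e : z₁ = ((LinearMap.id : Ch (ι × Submodule 𝕜 V) →ₗ[ZMod 2] _) +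
          ∑ x ∈ hyp, cone x ∘ₗ lk x) z + ∑ x ∈ hyp, wf x := by
        rw [hz₁, map_sum, Finset.sum_congr rfl fun x hx => hc5 x hx, Finset.sum_add_distrib]
        simp only [LinearMap.add_apply, LinearMap.id_apply, LinearMap.sum_apply,
          LinearMap.comp_apply]
        abel
      rw [e]
      refine Sup.add (hz.map _ fun s hs hsc => ?_) (Sup.sum _ _ fun x hx => ?_)
      · simp only [LinearMap.add_apply, LinearMap.id_apply, LinearMap.sum_apply,
          LinearMap.comp_apply]
        by_cases h : ∃ x ∈ hyp, x ∈ s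
        · obtain ⟨x, hx, hxs⟩ := h
          rw [Finset.sum_eq_single x (fun y hy hyx => by
              rw [lk_single, if_neg, map_zero]
              intro hys
              obtain ⟨-, hyi, -, hyd⟩ := Finset.mem_filter.1 hy
              obtain ⟨-, hxi, -, hxd⟩ := Finset.mem_filter.1 hx
              refine hyx (Prod.ext (hyi.trans hxi.symm) ?_)
              rcases hs.1.2 y hys x hxs (hyi.trans hxi.symm) with h | h
              · exact Submodule.eq_of_le_of_finrank_le h (by omega)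
              · exact (Submodule.eq_of_le_of_finrank_le h (by omega)).symm)
            (fun h => absurd hx h), lk_single, if_pos hxs, cone_single,
            if_neg (Finset.notMem_erase x s), Finset.insert_erase hxs, ch_add_self]
          exact Sup.zero
        · rw [Finset.sum_eq_zero (fun y hy => by
            rw [lk_single, if_neg (fun hys => h ⟨y, hy, hys⟩), map_zero]), add_zero]
          refine Sup.single 1 ⟨hs.1, fun u hu => Finset.mem_union_left _ (Finset.mem_filter.2
            ⟨Finset.mem_sdiff.2 ⟨hs.2 hu, fun hu' => h ⟨u, hu', hu⟩⟩, hs.1.1 u hu⟩)⟩ hsc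
      · exact (hc3 x hx).mono (K' := On (Opp F) U₁) fun s hs _ => ⟨hs.1, hs.2.trans
          ((Finset.subset_biUnion_of_mem Uf hx).trans Finset.subset_union_right)⟩
    have hU₁i : ∀ x ∈ U₁, x.1 = i → IsVtx F x ∧ finrank 𝕜 x.2 + F.b < F.a i * F.b := by
      intro x hx hxi
      rcases Finset.mem_union.1 hx with h | h
      · obtain ⟨h1, h2⟩ := Finset.mem_filter.1 h
        obtain ⟨h3, h4⟩ := Finset.mem_sdiff.1 h1
        refine ⟨h2, lt_of_le_of_ne ?_ fun he => h4 (Finset.mem_filter.2 ⟨h3, hxi, h2, he⟩)⟩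
        obtain ⟨j, -, h5, h6, -, -⟩ := h2
        rw [hxi] at h5
        calc finrank 𝕜 x.2 + F.b = (j + 1) * F.b := by rw [h6, Nat.add_mul, one_mul]
          _ ≤ F.a i * F.b := Nat.mul_le_mul_right _ h5
      · obtain ⟨y, hy, hxy⟩ := Finset.mem_biUnion.1 h
        exact hc2 y hy x hxy hxi
    obtain ⟨U₂, hU₂, hsub, w₂, hw₂, hb₂⟩ := finish F hi hU₁i (by
        refine le_trans ?_ hP
        have : U₁.card + 2 ≤ max P (M + M * B + 2) := by
          have := le_max_right P (M + M * B + 2); omega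
        exact_mod_cast this) hz₁' (by rw [hz₁, map_add, hcyc, bd_bd, add_zero])
    refine ⟨U ∪ U₂, (Finset.card_union_le _ _).trans (by omega),
      ∑ x ∈ hyp, cone x (wf x) + w₂, Sup.add (Sup.sum _ _ fun x hx => ?_) ?_, ?_⟩
    · exact (hc4 x hx).mono (K' := On (Opp F) (U ∪ U₂)) fun s hs _ => ⟨hs.1, hs.2.trans (Finset.insert_subset
        (Finset.mem_union_left _ (Finset.mem_filter.1 hx).1)
        (((Finset.subset_biUnion_of_mem Uf hx).trans Finset.subset_union_right).trans
          (hsub.trans Finset.subset_union_right)))⟩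
    · exact hw₂.mono (K' := On (Opp F) (U ∪ U₂)) fun s hs _ => ⟨hs.1, hs.2.trans Finset.subset_union_right⟩
    · rw [map_add, hb₂, hz₁, add_left_comm, ch_add_self, add_zero]

/-- Bounded cones exist when the field is large: a linear map `C` with
`bd (C s) = s + C (bd s)` on the faces of size at most `e`, each `C s` on at most `L` vertices. -/
theorem opp_cones : ∀ c : ℕ, ∃ L P : ℕ, ∀ (𝕜 V ι : Type) [Field 𝕜] [AddCommGroup V]
    [Module 𝕜 V] [FiniteDimensional 𝕜 V] [Fintype ι] [DecidableEq (ι × Submodule 𝕜 V)]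
    (F : Flags 𝕜 V ι), (P : ℕ∞) ≤ ENat.card 𝕜 → ∀ e ≤ c, e + 1 ≤ ∑ i, (F.a i - 1) →
    ∃ C : Ch (ι × Submodule 𝕜 V) →ₗ[ZMod 2] Ch (ι × Submodule 𝕜 V),
      ∀ s ∈ Opp F, s.card ≤ e →
        (∃ U, U.card ≤ L ∧ Sup (On (Opp F) U) (s.card + 1) (C (Finsupp.single s 1))) ∧
        bd (C (Finsupp.single s 1)) =
          Finsupp.single s 1 + C (bd (Finsupp.single s 1)) := by
  intro c
  choose B P hBP using opp_fill
  let L : ℕ → ℕ := fun j => Nat.rec (B 0 0) (fun j l => B (j + 1) ((j + 1) + (j + 1) * l)) j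
  refine ⟨(Finset.range (c + 1)).sup L,
    (Finset.range (c + 1)).sup fun j => P j (j + j * L (j - 1)),
    fun 𝕜 V ι _ _ _ _ _ _ F hP e he hN => ?_⟩
  have hL : ∀ j ≤ c, B j (j + j * L (j - 1)) ≤ L j := by
    intro j _
    cases j with
    | zero => simp [L]
    | succ j => exact le_rfl
  obtain ⟨C, hC⟩ := exists_extension (Opp F) (fun s hs t ht => opp_mono hs ht) e LinearMap.id
    (fun s _ _ => rfl)
    (fun j _ w => ∃ U, U.card ≤ L j ∧ Sup (On (Opp F) U) (j + 1) w) (by
      intro s hs hse d hd hb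
      choose! Ud hUd1 hUd2 using hd
      set U := s ∪ s.biUnion Ud with hU
      have hUc : U.card ≤ s.card + s.card * L (s.card - 1) :=
        (Finset.card_union_le _ _).trans
          (Nat.add_le_add_left (Finset.card_biUnion_le_card_mul _ _ _ hUd1) _)
      have hP' : (P s.card (s.card + s.card * L (s.card - 1)) : ℕ∞) ≤ ENat.card 𝕜 :=
        le_trans (Nat.cast_le.2 (Finset.le_sup (f := fun j => P j (j + j * L (j - 1)))
          (Finset.mem_range.2 (by omega : s.card < c + 1)))) hP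
      obtain ⟨U', hU', w, hw, hbw⟩ := hBP s.card (s.card + s.card * L (s.card - 1)) 𝕜 V ι F hP'
        (by omega) U (LinearMap.id (Finsupp.single s 1) + ∑ x ∈ s, d x) hUc
        (Sup.add (Sup.single 1 ⟨hs, Finset.subset_union_left⟩ rfl)
          (Sup.sum _ _ fun x hx => by
            have h1 : s.card - 1 + 1 = s.card := by
              have := Finset.card_pos.2 ⟨x, hx⟩; omega
            have h2 := (hUd2 x hx).mono (K' := On (Opp F) U) fun t ht _ =>
              ⟨ht.1, ht.2.trans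
                ((Finset.subset_biUnion_of_mem Ud hx).trans Finset.subset_union_right)⟩
            rwa [h1] at h2)) hb
      exact ⟨w, ⟨U', hU'.trans (hL _ (by omega)), hw⟩, hbw⟩)
  refine ⟨C, fun s hs hse => ?_⟩
  obtain ⟨⟨U, hU, hw⟩, hb⟩ := hC s hs hse
  exact ⟨⟨U, hU.trans (Finset.le_sup (Finset.mem_range.2 (by omega : s.card < c + 1))), hw⟩,
    by rw [hb, LinearMap.id_apply]⟩

/-- Cycles of size `c` bound when the field is large in terms of `c`. -/
theorem opp_fills : ∀ c : ℕ, ∃ P : ℕ, ∀ (𝕜 V ι : Type) [Field 𝕜] [AddCommGroup V]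
    [Module 𝕜 V] [FiniteDimensional 𝕜 V] [Fintype ι] [DecidableEq (ι × Submodule 𝕜 V)]
    (F : Flags 𝕜 V ι), (P : ℕ∞) ≤ ENat.card 𝕜 → c + 1 ≤ ∑ i, (F.a i - 1) →
    Fills (Opp F) (Opp F) c := by
  intro c
  obtain ⟨L, P, hLP⟩ := opp_cones c
  refine ⟨P, fun 𝕜 V ι _ _ _ _ _ _ F hP hN z hz hcyc => ?_⟩
  obtain ⟨C, hC⟩ := hLP 𝕜 V ι F hP c le_rfl hN
  refine ⟨C z, hz.map C fun s hs hsc => ?_, ?_⟩
  · obtain ⟨⟨U, -, hU⟩, -⟩ := hC s hs hsc.le
    rw [← hsc]
    exact hU.mono fun t ht _ => ht.1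
  · rw [extension_apply (E := LinearMap.id) (fun s hs hsc => (hC s hs hsc).2) le_rfl hz, hcyc,
      map_zero, add_zero, LinearMap.id_apply]

end Vale.Agent.P067.Full.OppFlag

end
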