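import Vale.Agent.P067.Full.Chains
import Vale.Agent.P067.Full.Spec

/-!
# P067 full answer: classes fixed by the group of an odd order vanish

The sum of the translates of a cycle of `XS S` is the image of a cycle of the simplex on the types
under the equivariant chain map `J ↦ Σ_g g J`, so it bounds.
-/

open Finset

noncomputable section

namespace Vale.Agent.P067.Full.Orbit

open scoped Classical

variable {n M p m : ℕ}

theorem vert_injective (g : Ga n M p m) : Function.Injective (vert g) :=
  fun _ _ h => congrArg Sigma.fst h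

/-- A face is the set of vertices of its types in a chamber containing it. -/
theorem eq_image_types {s : Finset (Vx n M p m)} {g : Ga n M p m} (h : s ⊆ chamber g) :
    s = (s.image Sigma.fst).image (vert g) := by
  have hv : ∀ x ∈ s, vert g x.1 = x := by
    intro x hx
    obtain ⟨v, -, rfl⟩ := mem_map.1 (h hx)
    rfl
  rw [image_image]
  conv_lhs => rw [← image_id (s := s)]
  exact image_congr fun x hx => (hv x hx).symm

/-- The sum of the translates of the faces of given types. -/
def orb (S : Finset (Fin M)) [Fintype (GS n M p m S)] :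
    Ch (Fin n) →ₗ[ZMod 2] Ch (Vx n M p m) :=
  ∑ g : GS n M p m S, chMap (vert (g : Ga n M p m))

theorem bd_orb (S : Finset (Fin M)) [Fintype (GS n M p m S)] (z : Ch (Fin n)) :
    bd (orb (n := n) (p := p) (m := m) S z) = orb S (bd z) := by
  simp only [orb, LinearMap.sum_apply, map_sum, chMap_bd]

/-- A cycle whose class is fixed by the group bounds. -/
theorem orbit_fills (hG : GroupSpec) (hn : 3 ≤ n) (hp : p.Prime) (hp2 : p ≠ 2) (hm : 2 ≤ m)
    (S : Finset (Fin M)) {c : ℕ} {z : Ch (Vx n M p m)} (hz : Sup (XS n M p m S) c z)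
    (hcyc : bd z = 0)
    (hfix : ∀ g ∈ GS n M p m S, Bnd (XS n M p m S) c (xmul g z + z)) :
    Bnd (XS n M p m S) c z := by
  obtain ⟨hfin, -, -, -, -, hcard⟩ := hG n M p m hn hp hm
  obtain ⟨k, hk⟩ := hcard S
  have := hfin
  have : Fintype (GS n M p m S) := Fintype.ofFinite _
  rw [Nat.card_eq_fintype_card] at hk
  have hodd : ∑ _g : GS n M p m S, z = z := by
    have h1 : Odd (p ^ k) := (hp.odd_of_ne_two hp2).pow
    have h2 : ((p ^ k : ℕ) : ZMod 2) = 1 := (ZMod.natCast_eq_one_iff_odd).2 h1
    rw [sum_const, card_univ, hk, ← Nat.cast_smul_eq_nsmul (ZMod 2), h2, one_smul]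
  -- the sum of the translates
  have hO : ∑ g : GS n M p m S, xmul (g : Ga n M p m) z = orb S (chMap Sigma.fst z) := by
    simp only [orb, LinearMap.sum_apply]
    conv_lhs => rw [← Finsupp.sum_single z]
    conv_rhs => rw [← Finsupp.sum_single z]
    simp only [Finsupp.sum, map_sum]
    rw [sum_comm]
    conv_rhs => rw [sum_comm]
    refine sum_congr rfl fun s hs => ?_
    obtain ⟨g₀, hg₀, hsg⟩ := (hz s hs).1
    have hinj : (s.image Sigma.fst).card = s.card := by
      conv_rhs => rw [eq_image_types hsg, card_image_of_injective _ (vert_injective g₀)]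
    refine Fintype.sum_equiv (Equiv.mulRight (⟨g₀, hg₀⟩ : GS n M p m S)) _ _ fun g => ?_
    have himg : s.image (vmul (g : Ga n M p m)) =
        (s.image Sigma.fst).image (vert ((g : Ga n M p m) * g₀)) := by
      conv_lhs => rw [eq_image_types hsg, image_image]
      rfl
    simp only [xmul, chMap_single, himg, hinj, Equiv.coe_mulRight, Subgroup.coe_mul,
      card_image_of_injective _ (vert_injective ((g : Ga n M p m) * g₀)), if_true]
  have hsum : Bnd (XS n M p m S) c (∑ g : GS n M p m S, (xmul (g : Ga n M p m) z + z)) :=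
    Bnd.sum _ _ fun g _ => hfix g g.2
  rw [sum_add_distrib, hodd, hO] at hsum
  have h0 : bd (chMap Sigma.fst z) = 0 := by rw [chMap_bd, hcyc, map_zero]
  have hT : Bnd (XS n M p m S) c (orb S (chMap Sigma.fst z)) := by
    refine ⟨orb S (cone (⟨0, by omega⟩ : Fin n) (chMap Sigma.fst z)), ?_,
      by rw [bd_orb, bd_cone_of_bd_eq_zero _ h0]⟩
    have hc : Sup (Set.univ : Set (Finset (Fin n))) (c + 1)
        (cone (⟨0, by omega⟩ : Fin n) (chMap Sigma.fst z)) :=
      (hz.chMap (K' := Set.univ) _ fun _ _ _ _ => Set.mem_univ _).cone _ fun _ _ _ _ => Set.mem_univ _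
    rw [orb, LinearMap.sum_apply]
    exact Sup.sum _ _ fun g _ => hc.chMap _ fun J _ _ _ => ⟨g, g.2, fun x hx => by
      obtain ⟨v, -, rfl⟩ := mem_image.1 hx
      exact mem_map.2 ⟨v, mem_univ v, rfl⟩⟩
  have h := hT.add hsum
  rwa [← add_assoc, ch_add_self, zero_add] at h

end Vale.Agent.P067.Full.Orbit
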