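import Vale.Agent.P067.Full.Defs

/-!
# P067 full answer: the skeleton

Expansion of a family of top faces of bounded degree passes to its `d`-skeleton, weighted as a pure
`d`-complex, with a worse constant.
-/

open Finset

noncomputable section

namespace Vale.Agent.P067.Full

namespace Skeleton

variable {V P : Type} [DecidableEq V] [Fintype P] {n : ℕ} (X : Cham V P n)

theorem mem_faces {c : ℕ} {s : Finset V} :
    s ∈ X.faces c ↔ ∃ q, s ⊆ X.ch q ∧ s.card = c := by
  simp [Cham.faces, mem_powersetCard]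

/-- The vertices of the family. -/
def verts : Finset V := univ.biUnion X.ch

theorem mem_verts {v : V} : v ∈ verts X ↔ ∃ q, v ∈ X.ch q := by simp [verts]

/-- The vertex type of the skeleton. -/
abbrev U : Type := {v // v ∈ verts X}

/-- The inclusion of the vertices. -/
abbrev emb : U X ↪ V := Function.Embedding.subtype _

theorem subset_verts {c : ℕ} {s : Finset V} (hs : s ∈ X.faces c) : s ⊆ verts X := by
  obtain ⟨q, hq, -⟩ := (mem_faces X).1 hs
  exact fun x hx => (mem_verts X).2 ⟨q, hq hx⟩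

theorem map_pull {c : ℕ} {s : Finset V} (hs : s ∈ X.faces c) :
    (s.subtype (· ∈ verts X)).map (emb X) = s := by
  rw [Finset.subtype_map]
  exact filter_true_of_mem (subset_verts X hs)

theorem pull_map (σ : Finset (U X)) : (σ.map (emb X)).subtype (· ∈ verts X) = σ := by
  ext ⟨x, hx⟩
  simp [hx]

/-- The `d`-skeleton as a pure complex. -/
def skel (d : ℕ) (hdn : d + 1 ≤ n) : PureComplex (U X) d where
  facets := (X.faces (d + 1)).image fun t => t.subtype (· ∈ verts X)
  card_facet := by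
    intro t ht
    obtain ⟨s, hs, rfl⟩ := mem_image.1 ht
    rw [← card_map (emb X), map_pull X hs]
    exact ((mem_faces X).1 hs).choose_spec.2
  covered := by
    rintro ⟨v, hv⟩
    obtain ⟨q, hq⟩ := (mem_verts X).1 hv
    obtain ⟨t, h1, h2, h3⟩ :=
      exists_subsuperset_card_eq (singleton_subset_iff.2 hq) (by simp : #({v} : Finset V) ≤ d + 1)
        (by rw [X.card_ch]; exact hdn)
    refine ⟨_, mem_image.2 ⟨t, (mem_faces X).2 ⟨q, h2, h3⟩, rfl⟩, ?_⟩
    simpa using h1 (mem_singleton_self v)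

variable {d : ℕ} (hdn : d + 1 ≤ n)

theorem mem_skel_facets {t : Finset (U X)} :
    t ∈ (skel X d hdn).facets ↔ t.map (emb X) ∈ X.faces (d + 1) := by
  constructor
  · intro ht
    obtain ⟨s, hs, rfl⟩ := mem_image.1 ht
    rwa [map_pull X hs]
  · exact fun h => mem_image.2 ⟨_, h, pull_map X t⟩

theorem mem_skel_faces {i : ℕ} (hi : i ≤ d) {σ : Finset (U X)} :
    σ ∈ (skel X d hdn).faces i ↔ σ.map (emb X) ∈ X.faces (i + 1) := by
  simp only [PureComplex.faces, mem_biUnion, mem_powersetCard]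
  constructor
  · rintro ⟨t, ht, hσt, hc⟩
    obtain ⟨q, hq, -⟩ := (mem_faces X).1 ((mem_skel_facets X hdn).1 ht)
    exact (mem_faces X).2 ⟨q, (map_subset_map.2 hσt).trans hq, by rw [card_map, hc]⟩
  · intro h
    obtain ⟨q, hq, hc⟩ := (mem_faces X).1 h
    obtain ⟨t, h1, h2, h3⟩ :=
      exists_subsuperset_card_eq hq (show #(σ.map (emb X)) ≤ d + 1 by omega)
        (by rw [X.card_ch]; exact hdn)
    have ht : t ∈ X.faces (d + 1) := (mem_faces X).2 ⟨q, h2, h3⟩
    refine ⟨t.subtype (· ∈ verts X), mem_image.2 ⟨t, ht, rfl⟩, ?_, by rw [← hc, card_map]⟩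
    exact map_subset_map.1 (by rwa [map_pull X ht])

/-- The number of faces of the family with a given property is bounded by the degree. -/
theorem card_filter_faces_le {D₀ c : ℕ}
    (hdeg : ∀ x, (univ.filter fun q => x ∈ X.ch q).card ≤ D₀) {s : Finset V} (hs : s.Nonempty) :
    ((X.faces c).filter fun t => s ⊆ t).card ≤ n.choose c * D₀ := by
  obtain ⟨x, hx⟩ := hs
  have h : ((X.faces c).filter fun t => s ⊆ t) ⊆
      (univ.filter fun q => x ∈ X.ch q).biUnion fun q => (X.ch q).powersetCard c := by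
    intro t ht
    obtain ⟨ht, hst⟩ := mem_filter.1 ht
    obtain ⟨q, hq, hc⟩ := (mem_faces X).1 ht
    exact mem_biUnion.2
      ⟨q, mem_filter.2 ⟨mem_univ _, hq (hst hx)⟩, mem_powersetCard.2 ⟨hq, hc⟩⟩
  refine (card_le_card h).trans
    ((card_biUnion_le_card_mul _ _ (n.choose c) fun q _ => le_of_eq ?_).trans ?_)
  · rw [card_powersetCard, X.card_ch]
  · rw [mul_comm]
    exact Nat.mul_le_mul_left _ (hdeg x)

theorem w_le {D₀ : ℕ} (hdeg : ∀ x, (univ.filter fun q => x ∈ X.ch q).card ≤ D₀) {s : Finset V}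
    (hs : s.Nonempty) : X.w s ≤ D₀ := by
  obtain ⟨x, hx⟩ := hs
  refine le_trans (card_le_card fun q hq => ?_) (hdeg x)
  simp only [mem_filter, mem_univ, true_and] at hq ⊢
  exact hq hx

theorem one_le_w {c : ℕ} {s : Finset V} (hs : s ∈ X.faces c) : 1 ≤ X.w s := by
  obtain ⟨q, hq, -⟩ := (mem_faces X).1 hs
  exact card_pos.2 ⟨q, by simp [hq]⟩

theorem card_facets : (skel X d hdn).facets.card = (X.faces (d + 1)).card :=
  card_image_of_injOn fun s hs t ht h => by
    rw [← map_pull X hs, ← map_pull X ht]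
    exact congrArg (·.map (emb X)) h

theorem card_faces_le (c : ℕ) : (X.faces c).card ≤ n.choose c * Fintype.card P := by
  refine (card_biUnion_le_card_mul univ (fun q => (X.ch q).powersetCard c) (n.choose c)
    fun q _ => le_of_eq ?_).trans ?_
  · rw [card_powersetCard, X.card_ch]
  · rw [card_univ, mul_comm]

theorem card_P_le_faces {D₀ : ℕ} (hdeg : ∀ x, (univ.filter fun q => x ∈ X.ch q).card ≤ D₀)
    {c : ℕ} (hc : 1 ≤ c) (hcn : c ≤ n) : Fintype.card P ≤ D₀ * (X.faces c).card := by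
  classical
  have h : (univ : Finset P) ⊆ (X.faces c).biUnion fun t => univ.filter fun q => t ⊆ X.ch q := by
    intro q _
    obtain ⟨t, ht, htc⟩ := exists_subset_card_eq (s := X.ch q) (n := c) (by rwa [X.card_ch])
    exact mem_biUnion.2
      ⟨t, (mem_faces X).2 ⟨q, ht, htc⟩, mem_filter.2 ⟨mem_univ _, ht⟩⟩
  rw [← card_univ, mul_comm]
  refine (card_le_card h).trans (card_biUnion_le_card_mul _ _ _ fun t ht => w_le X hdeg ?_)
  obtain ⟨q, -, htc⟩ := (mem_faces X).1 ht
  exact card_pos.1 (htc ▸ hc)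

theorem card_P_le_verts {D₀ : ℕ} (hdeg : ∀ x, (univ.filter fun q => x ∈ X.ch q).card ≤ D₀)
    (hn : 1 ≤ n) : Fintype.card P ≤ D₀ * Fintype.card (U X) := by
  classical
  have h : (univ : Finset P) ⊆ (verts X).biUnion fun x => univ.filter fun q => x ∈ X.ch q := by
    intro q _
    obtain ⟨x, hx⟩ := card_pos.1 (by rw [X.card_ch]; exact hn : 0 < (X.ch q).card)
    exact mem_biUnion.2 ⟨x, (mem_verts X).2 ⟨q, hx⟩, mem_filter.2 ⟨mem_univ _, hx⟩⟩
  rw [← card_univ, Fintype.card_coe, mul_comm]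
  exact (card_le_card h).trans (card_biUnion_le_card_mul _ _ _ fun x _ => hdeg x)

theorem filter_facets_le {D₀ : ℕ} (hdeg : ∀ x, (univ.filter fun q => x ∈ X.ch q).card ≤ D₀)
    {σ : Finset (U X)} (hσ : σ.Nonempty) :
    ((skel X d hdn).facets.filter fun t => σ ⊆ t).card ≤ n.choose (d + 1) * D₀ := by
  refine le_trans ?_
    (card_filter_faces_le X (c := d + 1) hdeg (s := σ.map (emb X)) (map_nonempty.2 hσ))
  refine card_le_card_of_injOn (fun t => t.map (emb X)) ?_ fun s _ t _ h => map_injective _ h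
  intro t ht
  simp only [coe_filter, Set.mem_ofPred_eq] at ht ⊢
  exact ⟨(mem_skel_facets X hdn).1 ht.1, map_subset_map.2 ht.2⟩

theorem degreeLE {D₀ : ℕ} (hdeg : ∀ x, (univ.filter fun q => x ∈ X.ch q).card ≤ D₀) :
    (skel X d hdn).DegreeLE (n.choose (d + 1) * D₀) := fun v => by
  simpa [singleton_subset_iff] using
    filter_facets_le X hdn hdeg (σ := {v}) (singleton_nonempty v)

/-- A cochain of the skeleton extended by zero. -/
def ext (i : ℕ) (f : (skel X d hdn).Cochain i) (s : Finset V) : ZMod 2 :=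
  if h : s.subtype (· ∈ verts X) ∈ (skel X d hdn).faces i then f ⟨_, h⟩ else 0

theorem ext_map {i : ℕ} (f : (skel X d hdn).Cochain i) (σ : {σ // σ ∈ (skel X d hdn).faces i}) :
    ext X hdn i f (σ.1.map (emb X)) = f σ := by
  simp [ext, pull_map X, σ.2]

/-- The coboundary of the skeleton is that of the family. -/
theorem delta_eq {i : ℕ} (hi : i < d) (f : (skel X d hdn).Cochain i) (F : Finset V → ZMod 2)
    (hF : ∀ σ : {σ // σ ∈ (skel X d hdn).faces i}, f σ = F (σ.1.map (emb X)))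
    (τ : {τ // τ ∈ (skel X d hdn).faces (i + 1)}) :
    (skel X d hdn).delta i f τ = Cham.cobd F (τ.1.map (emb X)) := by
  obtain ⟨q, hq, hc⟩ := (mem_faces X).1 ((mem_skel_faces X hdn (by omega)).1 τ.2)
  rw [card_map] at hc
  have hsub : ∀ x ∈ τ.1, τ.1.erase x ∈ (skel X d hdn).faces i := fun x hx =>
    (mem_skel_faces X hdn (by omega)).2 <| (mem_faces X).2
      ⟨q, (map_subset_map.2 (erase_subset _ _)).trans hq,
        by rw [card_map, card_erase_of_mem hx, hc]; rfl⟩
  rw [PureComplex.delta, ← sum_filter, Cham.cobd, sum_map]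
  symm
  refine sum_bij (fun x hx => ⟨τ.1.erase x, hsub x hx⟩) ?_ ?_ ?_ ?_
  · intro x hx
    simp [erase_subset]
  · intro x hx y hy h
    exact erase_injOn _ hx hy (congrArg Subtype.val h)
  · intro σ hσ
    simp only [mem_filter, mem_univ, true_and] at hσ
    have hσc : σ.1.card = i + 1 := by
      obtain ⟨_, -, h⟩ := (mem_faces X).1 ((mem_skel_faces X hdn hi.le).1 σ.2)
      rwa [card_map] at h
    obtain ⟨x, hx, hxσ⟩ := exists_mem_notMem_of_card_lt_card (s := σ.1) (t := τ.1) (by omega)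
    refine ⟨x, hx, Subtype.ext ?_⟩
    symm
    refine eq_of_subset_of_card_le (fun y hy => mem_erase.2 ⟨fun h => hxσ (h ▸ hy), hσ hy⟩) ?_
    rw [card_erase_of_mem hx, hc, hσc]
    omega
  · intro x hx
    rw [hF]
    simp [map_erase]

theorem mass_eq {i : ℕ} (hi : i ≤ d) (h : (skel X d hdn).Cochain i) (H : Finset V → ZMod 2)
    (hH : ∀ σ : {σ // σ ∈ (skel X d hdn).faces i}, h σ = H (σ.1.map (emb X))) :
    X.mass (i + 1) H =
      ∑ σ : {σ // σ ∈ (skel X d hdn).faces i},
        if h σ = 0 then 0 else X.w (σ.1.map (emb X)) := by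
  rw [Cham.mass]
  symm
  refine sum_bij (fun σ _ => σ.1.map (emb X)) ?_ ?_ ?_ ?_
  · exact fun σ _ => (mem_skel_faces X hdn hi).1 σ.2
  · exact fun σ _ τ _ hst => Subtype.ext (map_injective _ hst)
  · exact fun s hs =>
      ⟨⟨s.subtype (· ∈ verts X), (mem_skel_faces X hdn hi).2 (by rwa [map_pull X hs])⟩,
        mem_univ _, map_pull X hs⟩
  · intro σ _
    rw [hH σ]

theorem weight_bounds {D₀ : ℕ} (hP : 0 < Fintype.card P)
    (hdeg : ∀ x, (univ.filter fun q => x ∈ X.ch q).card ≤ D₀) {i : ℕ} (hi : i ≤ d)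
    (σ : {σ // σ ∈ (skel X d hdn).faces i}) :
    (skel X d hdn).weight i σ ≤
        (n.choose (d + 1) * D₀ * D₀ : ℕ) / (Fintype.card P : ℝ) * X.w (σ.1.map (emb X)) ∧
      (X.w (σ.1.map (emb X)) : ℝ) ≤
        (D₀ * 2 ^ (d + 1) * n.choose (d + 1) : ℕ) * (Fintype.card P : ℝ) *
          (skel X d hdn).weight i σ := by
  have hσ := (mem_skel_faces X hdn hi).1 σ.2
  obtain ⟨q, hq, hc⟩ := (mem_faces X).1 hσ
  have hne : σ.1.Nonempty := map_nonempty.1 (card_pos.1 (show 0 < #(σ.1.map (emb X)) by omega))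
  set cnt := ((skel X d hdn).facets.filter fun t => σ.1 ⊆ t).card
  set F := (skel X d hdn).facets.card
  have hcnt1 : 1 ≤ cnt := by
    obtain ⟨t, ht, hts⟩ := mem_biUnion.1 σ.2
    exact card_pos.2 ⟨t, mem_filter.2 ⟨ht, (mem_powersetCard.1 hts).1⟩⟩
  have hcnt : cnt ≤ n.choose (d + 1) * D₀ := filter_facets_le X hdn hdeg hne
  have hw1 := one_le_w X hσ
  have hw : X.w (σ.1.map (emb X)) ≤ D₀ := w_le X hdeg (map_nonempty.2 hne)
  have hF1 : Fintype.card P ≤ D₀ * F := by
    rw [show F = _ from card_facets X hdn]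
    exact card_P_le_faces X hdeg (by omega) hdn
  have hF2 : F ≤ n.choose (d + 1) * Fintype.card P := by
    rw [show F = _ from card_facets X hdn]
    exact card_faces_le X _
  have hK1 : 1 ≤ (d + 1).choose (i + 1) := Nat.choose_pos (by omega)
  have hK2 : (d + 1).choose (i + 1) ≤ 2 ^ (d + 1) := Nat.choose_le_two_pow _ _
  have hFpos : 0 < F := Nat.pos_of_ne_zero fun h => by simp [h] at hF1; omega
  set K := (d + 1).choose (i + 1)
  set W := X.w (σ.1.map (emb X))
  have e1 : cnt * Fintype.card P ≤ n.choose (d + 1) * D₀ * D₀ * W * (K * F) := by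
    calc cnt * Fintype.card P ≤ n.choose (d + 1) * D₀ * (D₀ * F) := Nat.mul_le_mul hcnt hF1
      _ = n.choose (d + 1) * D₀ * D₀ * 1 * (1 * F) := by ring
      _ ≤ n.choose (d + 1) * D₀ * D₀ * W * (K * F) := by gcongr
  have e2 : W * (K * F) ≤ D₀ * 2 ^ (d + 1) * n.choose (d + 1) * Fintype.card P * cnt := by
    calc W * (K * F) ≤ D₀ * (2 ^ (d + 1) * (n.choose (d + 1) * Fintype.card P)) := by gcongr
      _ = D₀ * 2 ^ (d + 1) * n.choose (d + 1) * Fintype.card P * 1 := by ring
      _ ≤ D₀ * 2 ^ (d + 1) * n.choose (d + 1) * Fintype.card P * cnt := by gcongr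
  have hP' : (0 : ℝ) < Fintype.card P := by exact_mod_cast hP
  have hKF : (0 : ℝ) < (K : ℝ) * F := by
    have : 0 < K * F := Nat.mul_pos hK1 hFpos
    exact_mod_cast this
  have hwt : (skel X d hdn).weight i σ = (cnt : ℝ) / ((K : ℝ) * F) := rfl
  rw [hwt]
  constructor
  · rw [div_mul_eq_mul_div, div_le_div_iff₀ hKF hP']
    exact_mod_cast e1
  · rw [← mul_div_assoc, le_div_iff₀ hKF]
    exact_mod_cast e2

theorem norm_bounds {D₀ : ℕ} (hP : 0 < Fintype.card P)
    (hdeg : ∀ x, (univ.filter fun q => x ∈ X.ch q).card ≤ D₀) {i : ℕ} (hi : i ≤ d)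
    (h : (skel X d hdn).Cochain i) (H : Finset V → ZMod 2)
    (hH : ∀ σ : {σ // σ ∈ (skel X d hdn).faces i}, h σ = H (σ.1.map (emb X))) :
    (skel X d hdn).norm i h ≤
        (n.choose (d + 1) * D₀ * D₀ : ℕ) / (Fintype.card P : ℝ) * X.mass (i + 1) H ∧
      (X.mass (i + 1) H : ℝ) ≤
        (D₀ * 2 ^ (d + 1) * n.choose (d + 1) : ℕ) * (Fintype.card P : ℝ) *
          (skel X d hdn).norm i h := by
  rw [mass_eq X hdn hi h H hH, PureComplex.norm, Nat.cast_sum, mul_sum, mul_sum]
  constructor <;>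
  · refine sum_le_sum fun σ _ => ?_
    split_ifs with hz
    · simp
    · first
        | exact (weight_bounds X hdn hP hdeg hi σ).1
        | exact (weight_bounds X hdn hP hdeg hi σ).2

end Skeleton

open Skeleton in
/-- Expansion of a bounded family of top faces passes to its `d`-skeleton. -/
theorem skeleton (n d D₀ : ℕ) (β : ℝ) (hd : 1 ≤ d) (hdn : d + 1 ≤ n) (hβ : 0 < β) :
    ∃ (D : ℕ) (ε : ℝ), 0 < ε ∧ ∀ (V P : Type) [DecidableEq V] [Fintype P] (X : Cham V P n),
      0 < Fintype.card P → (∀ x, (univ.filter fun q => x ∈ X.ch q).card ≤ D₀) →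
      (∀ c, 1 ≤ c → c ≤ d → ∀ f : Finset V → ZMod 2, ∃ g : Finset V → ZMod 2,
        β * X.mass c (f + Cham.cobd g) ≤ X.mass (c + 1) (Cham.cobd f)) →
      ∃ (U : Type) (_ : Fintype U) (_ : DecidableEq U) (Y : PureComplex U d),
        Fintype.card P ≤ D₀ * Fintype.card U ∧ Y.DegreeLE D ∧ Y.IsCoboundaryExpander ε ∧
          ∀ f : Y.Cochain 0, Y.delta 0 f = 0 → Y.IsBoundary 0 f := by
  set K₁ : ℝ := ((n.choose (d + 1) * D₀ * D₀ : ℕ) : ℝ) with hK₁def
  set K₂ : ℝ := ((D₀ * 2 ^ (d + 1) * n.choose (d + 1) : ℕ) : ℝ) with hK₂def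
  have hK₁ : 0 ≤ K₁ := Nat.cast_nonneg _
  have hK₂ : 0 ≤ K₂ := Nat.cast_nonneg _
  have hε : 0 < β / (K₁ * K₂ + 1) := by positivity
  refine ⟨n.choose (d + 1) * D₀, β / (K₁ * K₂ + 1), hε, ?_⟩
  intro V P _ _ X hP hdeg hexp
  have hP' : (0 : ℝ) < Fintype.card P := by exact_mod_cast hP
  have hexpand : (skel X d hdn).IsCoboundaryExpander (β / (K₁ * K₂ + 1)) := by
    intro i hi f
    obtain ⟨g, hg⟩ := hexp (i + 1) (by omega) (by omega) (ext X hdn i f)
    have hb : ∃ b, (skel X d hdn).IsBoundary i b ∧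
        ∀ σ : {σ // σ ∈ (skel X d hdn).faces i}, b σ = Cham.cobd g (σ.1.map (emb X)) := by
      cases i with
      | zero =>
        refine ⟨fun _ => g ∅, ⟨g ∅, fun _ => rfl⟩, fun σ => ?_⟩
        obtain ⟨q, -, hc⟩ := (mem_faces X).1 ((mem_skel_faces X hdn (Nat.zero_le _)).1 σ.2)
        obtain ⟨x, hx⟩ := card_eq_one.1 hc
        simp [hx, Cham.cobd]
      | succ j =>
        exact ⟨(skel X d hdn).delta j fun σ => g (σ.1.map (emb X)), ⟨_, rfl⟩,
          fun σ => delta_eq X hdn (by omega) _ g (fun _ => rfl) σ⟩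
    obtain ⟨b, hbb, hbg⟩ := hb
    refine ⟨b, hbb, ?_⟩
    have h1 := (norm_bounds X hdn hP hdeg hi.le (f - b) (ext X hdn i f + Cham.cobd g)
      fun σ => by simp [ext_map, hbg, CharTwo.sub_eq_add]).1
    have h2 := (norm_bounds X hdn hP hdeg (i := i + 1) (by omega) ((skel X d hdn).delta i f)
      (Cham.cobd (ext X hdn i f))
      fun τ => delta_eq X hdn hi f _ (fun σ => (ext_map X hdn f σ).symm) τ).2
    set A := (skel X d hdn).norm i (f - b)
    set B := (skel X d hdn).norm (i + 1) ((skel X d hdn).delta i f)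
    set M := (X.mass (i + 1) (ext X hdn i f + Cham.cobd g) : ℝ)
    have hB : 0 ≤ B := sum_nonneg fun σ _ => by
      split_ifs
      · rfl
      · unfold PureComplex.weight; positivity
    have h3 : β * A ≤ K₁ * K₂ * B := by
      have h4 : β * A ≤ K₁ / Fintype.card P * (β * M) := by
        calc β * A ≤ β * (K₁ / Fintype.card P * M) := mul_le_mul_of_nonneg_left h1 hβ.le
          _ = _ := by ring
      refine h4.trans ?_
      calc K₁ / Fintype.card P * (β * M)
          ≤ K₁ / Fintype.card P * (K₂ * Fintype.card P * B) :=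
            mul_le_mul_of_nonneg_left (hg.trans h2) (by positivity)
        _ = K₁ * K₂ * B := by field_simp
    rw [div_mul_eq_mul_div, div_le_iff₀ (by positivity)]
    linarith [mul_comm B (K₁ * K₂ + 1)]
  refine ⟨U X, inferInstance, inferInstance, skel X d hdn, card_P_le_verts X hdeg (by omega),
    degreeLE X hdn hdeg, hexpand, fun f hf => ?_⟩
  obtain ⟨b, ⟨c, hc⟩, hle⟩ := hexpand 0 (by omega) f
  refine ⟨c, fun σ => ?_⟩
  have hnn : ∀ τ : {τ // τ ∈ (skel X d hdn).faces 0},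
      0 ≤ if (f - b) τ = 0 then 0 else (skel X d hdn).weight 0 τ := fun τ => by
    split_ifs
    · rfl
    · unfold PureComplex.weight; positivity
  have h0 : (skel X d hdn).norm 0 (f - b) = 0 := by
    rw [hf] at hle
    refine le_antisymm ?_ (sum_nonneg fun τ _ => hnn τ)
    have : (skel X d hdn).norm (0 + 1) 0 = 0 := by simp [PureComplex.norm]
    rw [this] at hle
    exact nonpos_of_mul_nonpos_right hle hε
  have hz := (sum_eq_zero_iff_of_nonneg fun τ _ => hnn τ).1 h0 σ (mem_univ _)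
  have hpos : 0 < (skel X d hdn).weight 0 σ := by
    have h1 := (weight_bounds X hdn hP hdeg (Nat.zero_le d) σ).2
    have h2 : (1 : ℝ) ≤ X.w (σ.1.map (emb X)) := by
      exact_mod_cast one_le_w X ((mem_skel_faces X hdn (Nat.zero_le d)).1 σ.2)
    by_contra hneg
    have : ((D₀ * 2 ^ (d + 1) * n.choose (d + 1) : ℕ) : ℝ) * (Fintype.card P : ℝ) *
        (skel X d hdn).weight 0 σ ≤ 0 :=
      mul_nonpos_of_nonneg_of_nonpos (by positivity) (not_lt.1 hneg)
    linarith
  split_ifs at hz with h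
  · rw [← hc σ]
    exact sub_eq_zero.1 h
  · linarith

end Vale.Agent.P067.Full

end
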