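import Vale.Agent.P067.Full.Assembly
import Vale.Agent.P067.Full.Skeleton

/-!
# P067 full answer: reduction to the module statements
-/

namespace Vale.Agent.P067.Full

/-- The full answer follows from the module statements. -/
theorem reduction (hEK : EKSpec) (hMix : MixSpec) (hExp : ExpandSpec) (hG : GroupSpec)
    (hS : SizeSpec) (hV : VanishSpec) : FullSpec :=
  fullSpec_of hEK hMix hExp hG hS hV skeleton

end Vale.Agent.P067.Full
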