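import Vale.Agent.P067.Full.Bi

/-!
# P067 full answer: the staircase

Cycles in the columns of a relation are filled upwards, in the rows downwards, so that a cycle of
points becomes a sum of cycles lying in the rows of single frames.
-/

open Finset

noncomputable section

namespace Vale.Agent.P067.Full.Cech

variable {F V : Type} [DecidableEq F] [DecidableEq V]

/-- Pairs related by `Rel` of given sizes. -/
def PR (Rel : Finset F → Finset V → Prop) (i j : ℕ) (q : Finset F × Finset V) : Prop :=
  Rel q.1 q.2 ∧ q.1.card = i ∧ q.2.card = j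

variable {Rel : Finset F → Finset V → Prop}

theorem pr_mk {i j : ℕ} {U : Finset F} {s : Finset V} (h : Rel U s) (hU : U.card = i)
    (hs : s.card = j) : PR Rel i j (U, s) :=
  ⟨h, hU, hs⟩

theorem pr_bdU (hdU : ∀ U s, Rel U s → ∀ U' ⊆ U, Rel U' s) {i j : ℕ} {b : Bi F V}
    (hb : Mem (PR Rel (i + 1) j) b) : Mem (PR Rel i j) (bdU b) :=
  mem_bdU hb fun U s h a ha => pr_mk (hdU U s h.1 _ (erase_subset a U))
    (by rw [card_erase_of_mem ha, show U.card = i + 1 from h.2.1]; omega) h.2.2

theorem pr_bdS (hdS : ∀ U s, Rel U s → ∀ s' ⊆ s, Rel U s') {i j : ℕ} {b : Bi F V}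
    (hb : Mem (PR Rel i (j + 1)) b) : Mem (PR Rel i j) (bdS b) :=
  mem_bdS hb fun U s h a ha => pr_mk (hdS U s h.1 _ (erase_subset a s)) h.2.1
    (by rw [card_erase_of_mem ha, show s.card = j + 1 from h.2.2]; omega)

/-- A cycle of card `c` is a sum of cycles lying in the rows of single frames, when

* every column fills: cycles of `i` frames related to a set of `j` points bound, `i + j ≤ c`;
* every family of `c + 1` frames related to the empty set is related to a point;
* every row of at least two frames fills. -/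
theorem staircase (hdU : ∀ U s, Rel U s → ∀ U' ⊆ U, Rel U' s)
    (hdS : ∀ U s, Rel U s → ∀ s' ⊆ s, Rel U s') (c : ℕ) (hc : 1 ≤ c)
    (hcol : ∀ s : Finset V, ∀ i, Rel ∅ s → i + s.card ≤ c → Fills {U | Rel U s} {U | Rel U s} i)
    (hpt : ∀ U : Finset F, U.card = c + 1 → Rel U ∅ → ∃ v, Rel U {v})
    (hrow : ∀ U : Finset F, 2 ≤ U.card → U.card ≤ c →
      Fills {s | Rel U s} {s | Rel U s} (c + 1 - U.card))
    (z : Ch V) (hz : Sup {s | Rel ∅ s} c z) (hcyc : bd z = 0) :
    ∃ (T : Finset (Finset F)) (y : Finset F → Ch V), (∀ U ∈ T, U.card = 1 ∧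
      Sup {s | Rel U s} c (y U) ∧ bd (y U) = 0) ∧ ∑ U ∈ T, y U = z := by
  classical
  -- corrections making the rows cycles, from the top
  have solve : ∀ j, 1 ≤ j → j ≤ c → ∀ b : Bi F V, Mem (PR Rel (c + 1 - j) j) b →
      bdU (bdS b) = 0 → ∃ e, Mem (PR Rel (c + 1 - j + 1) j) e ∧ bdS (b + bdU e) = 0 := by
    intro j hj
    induction j, hj using Nat.le_induction with
    | base =>
      intro _ b hb hbd
      rw [Nat.add_sub_cancel] at hb ⊢
      have hb0 : Mem (PR Rel c 0) (bdS b) := pr_bdS hdS (j := 0) hb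
      have hcols : cols (bdS b) ⊆ {∅} := by
        intro r hr
        obtain ⟨q, hq, rfl⟩ := mem_image.1 hr
        exact mem_singleton.2 (card_eq_zero.1 (hb0 q hq).2.2)
      by_cases h0 : bdS b = 0
      · exact ⟨0, mem_zero _, by simp [h0]⟩
      obtain ⟨q, hq⟩ := Finsupp.support_nonempty_iff.2 h0
      have hR0 : Rel ∅ ∅ := hdU _ _ (hdS _ _ (hb0 q hq).1 _ (empty_subset _)) _ (empty_subset _)
      obtain ⟨W, hW, hWb⟩ := hcol ∅ c hR0 (by simp) (col ∅ (bdS b))
        (fun U hU => ⟨(mem_col hb0 ∅ U hU).1, (mem_col hb0 ∅ U hU).2.1⟩)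
        (by rw [← col_bdU, hbd, map_zero])
      haveI : Nonempty V := by
        by_contra hV
        obtain ⟨q', hq'⟩ := Finsupp.support_nonempty_iff.2 (fun h : b = 0 => h0 (by simp [h]))
        obtain ⟨v, -⟩ := card_pos.1 (show 0 < q'.2.card by rw [(hb q' hq').2.2]; exact Nat.one_pos)
        exact hV ⟨v⟩
      have hex : ∀ U : Finset F, ∃ v, U ∈ W.support → Rel U {v} := fun U => by
        by_cases h : U ∈ W.support
        · obtain ⟨v, hv⟩ := hpt U (hW U h).2 (hW U h).1
          exact ⟨v, fun _ => hv⟩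
        · exact ⟨Classical.arbitrary V, fun h' => absurd h' h⟩
      choose v hv using hex
      let e : Bi F V :=
        Finsupp.linearCombination (ZMod 2) (fun U => Finsupp.single (U, {v U}) 1) W
      refine ⟨e, mem_lc (A := PR Rel (c + 1) 1) _ _ fun U hU =>
        mem_single _ (pr_mk (hv U hU) (hW U hU).2 (card_singleton _)), ?_⟩
      have he : bdS e = tS ∅ W := by
        simp only [e]
        clear hW hWb hv e
        induction W using Finsupp.induction_linear with
        | zero => simp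
        | add a b ha hb => simp [ha, hb]
        | single U w => simp [bdS, tS, Finsupp.linearCombination_single, erase_singleton]
      have hsum := sum_cols (bdS b) {∅} hcols
      rw [sum_singleton] at hsum
      rw [map_add, ← bdU_bdS, he, bdU_tS, hWb, hsum]
      exact bi_add_self _
    | succ j hj ih =>
      intro hjc b hb hbd
      obtain ⟨i, hi⟩ : ∃ i, c + 1 - (j + 1) = i := ⟨_, rfl⟩
      rw [hi] at hb ⊢
      have hb0 : Mem (PR Rel i j) (bdS b) := pr_bdS hdS hb
      have hfill : ∀ r ∈ cols (bdS b), ∃ W, Sup {U | Rel U r} (i + 1) W ∧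
          bd W = col r (bdS b) ∧ r.card = j := by
        intro r hr
        obtain ⟨q, hq, rfl⟩ := mem_image.1 hr
        obtain ⟨W, hW, hWb⟩ := hcol q.2 i (hdU _ _ (hb0 q hq).1 _ (empty_subset _))
          (by rw [(hb0 q hq).2.2]; omega) (col q.2 (bdS b))
          (fun U hU => ⟨(mem_col hb0 q.2 U hU).1, (mem_col hb0 q.2 U hU).2.1⟩)
          (by rw [← col_bdU, hbd, map_zero])
        exact ⟨W, hW, hWb, (hb0 q hq).2.2⟩
      choose! W hW hWb hcard using hfill
      let b' := ∑ r ∈ cols (bdS b), tS r (W r)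
      have hb' : Mem (PR Rel (i + 1) j) b' := mem_sum _ _ fun r hr =>
        mem_tS (A := PR Rel (i + 1) j) fun U hU => pr_mk ((hW r hr) U hU).1 ((hW r hr) U hU).2
          (hcard r hr)
      have hb'b : bdU b' = bdS b := by
        rw [map_sum]
        refine (Finset.sum_congr rfl fun r hr => ?_).trans (sum_cols (bdS b) _ subset_rfl)
        rw [bdU_tS, hWb r hr]
      have hij : c + 1 - j = i + 1 := by omega
      rw [hij] at ih
      obtain ⟨e', he', he'q⟩ := ih (by omega) b' hb' (by rw [bdU_bdS, hb'b, bdS_bdS])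
      let q := b' + bdU e'
      have hq : Mem (PR Rel (i + 1) j) q := hb'.add (pr_bdU hdU he')
      have hfill' : ∀ U ∈ rows q, ∃ w, Sup {s | Rel U s} (j + 1) w ∧ bd w = row U q ∧
          U.card = i + 1 := by
        intro U hU
        obtain ⟨t, ht, rfl⟩ := mem_image.1 hU
        have hcU := (hq t ht).2.1
        rcases Nat.eq_zero_or_pos i with h0 | hpos
        · omega
        obtain ⟨w, hw, hwb⟩ := hrow t.1 (by omega) (by omega) (row t.1 q)
          (fun s hs => ⟨(mem_row hq t.1 s hs).1, by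
            rw [show s.card = j from (mem_row hq t.1 s hs).2.2]; omega⟩)
          (by rw [← row_bdS, he'q, map_zero])
        rw [show c + 1 - t.1.card + 1 = j + 1 by omega] at hw
        exact ⟨w, hw, hwb, hcU⟩
      choose! w hw hwb hUc using hfill'
      refine ⟨∑ U ∈ rows q, tU U (w U), mem_sum _ _ fun U hU =>
        mem_tU (A := PR Rel (i + 1) (j + 1)) fun s hs =>
          pr_mk ((hw U hU) s hs).1 (hUc U hU) ((hw U hU) s hs).2, ?_⟩
      have hbdS : bdS (∑ U ∈ rows q, tU U (w U)) = q := by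
        rw [map_sum]
        refine (Finset.sum_congr rfl fun U hU => ?_).trans (sum_rows q _ subset_rfl)
        rw [bdS_tU, hwb U hU]
      rw [map_add, ← bdU_bdS, hbdS, map_add bdU, bdU_bdU, add_zero, hb'b]
      exact bi_add_self _
  -- one frame for each face of the cycle
  have hfr : ∀ s ∈ z.support, ∃ W, Sup {U | Rel U s} 1 W ∧ bd W = Finsupp.single ∅ 1 :=
    fun s hs => hcol s 0 (hz s hs).1 (by rw [(hz s hs).2]; omega) _
      (Sup.single 1 (hz s hs).1 rfl) (by simp [bd_single])
  choose! W hW hWb using hfr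
  let b := ∑ s ∈ z.support, tS s (z s • W s)
  have hb : Mem (PR Rel 1 c) b := mem_sum _ _ fun s hs => mem_tS (A := PR Rel 1 c) fun U hU =>
    pr_mk ((hW s hs) U (Finsupp.support_smul hU)).1 ((hW s hs) U (Finsupp.support_smul hU)).2
      (hz s hs).2
  have hbz : bdU b = tU ∅ z := by
    conv_rhs => rw [← Finsupp.sum_single z, Finsupp.sum, map_sum]
    rw [map_sum]
    refine Finset.sum_congr rfl fun s hs => ?_
    rw [bdU_tS, map_smul, hWb s hs, Finsupp.smul_single_one]
    simp [tS, tU]
  have hsolve := solve c hc le_rfl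
  rw [Nat.add_sub_cancel_left] at hsolve
  obtain ⟨e, he, heq⟩ := hsolve b hb (by rw [bdU_bdS, hbz, bdS_tU, hcyc, map_zero])
  let q := b + bdU e
  have hq : Mem (PR Rel 1 c) q := hb.add (pr_bdU hdU he)
  refine ⟨rows q, fun U => row U q, fun U hU => ?_, ?_⟩
  · obtain ⟨t, ht, rfl⟩ := mem_image.1 hU
    exact ⟨(hq t ht).2.1, fun s hs => ⟨(mem_row hq t.1 s hs).1, (mem_row hq t.1 s hs).2.2⟩,
      by rw [← row_bdS, heq, map_zero]⟩
  · rw [← row_bdU q (hq.mono fun _ h => h.2.1)]
    show row ∅ (bdU (b + bdU e)) = z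
    rw [map_add bdU, bdU_bdU, add_zero, hbz]
    ext s
    rw [row_apply, tU_apply, if_pos rfl]

end Vale.Agent.P067.Full.Cech

end
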