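import Vale.Agent.P067.Full.Spec

/-!
# P067 full answer: coefficients, changes of colours, and their effect on groups and layers
-/

open Finset

noncomputable section

namespace Vale.Agent.P067.Full.ThetaAux

variable {n M p m : ℕ}

/-! Coefficients -/

theorem cf_mk {k : ℕ} (hk : k < m) (P : Polynomial (ZMod p)) :
    cf p m k (Ideal.Quotient.mk _ P) = P.coeff k := by
  rw [cf, if_pos hk]
  generalize hQ : Function.surjInv Ideal.Quotient.mk_surjective
    (Ideal.Quotient.mk (Ideal.span {(Polynomial.X : Polynomial (ZMod p)) ^ m}) P) = Q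
  have h : Ideal.Quotient.mk (Ideal.span {(Polynomial.X : Polynomial (ZMod p)) ^ m}) Q =
      Ideal.Quotient.mk _ P := by
    rw [← hQ]; exact Function.surjInv_eq Ideal.Quotient.mk_surjective _
  rw [Ideal.Quotient.mk_eq_mk_iff_sub_mem, Ideal.mem_span_singleton,
    Polynomial.X_pow_dvd_iff] at h
  simpa [sub_eq_zero] using h k hk

theorem cf_of_le {k : ℕ} (hk : m ≤ k) (r : Rm p m) : cf p m k r = 0 := by
  rw [cf, if_neg (by omega)]

theorem cf_add (k : ℕ) (r s : Rm p m) : cf p m k (r + s) = cf p m k r + cf p m k s := by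
  rcases lt_or_ge k m with hk | hk
  · obtain ⟨P, rfl⟩ := Ideal.Quotient.mk_surjective r
    obtain ⟨Q, rfl⟩ := Ideal.Quotient.mk_surjective s
    rw [← map_add, cf_mk hk, cf_mk hk, cf_mk hk, Polynomial.coeff_add]
  · simp [cf_of_le hk]

/-- The coefficient as an additive map. -/
noncomputable def cfHom (p m k : ℕ) : Rm p m →+ ZMod p := AddMonoidHom.mk' (cf p m k) (cf_add k)

theorem cf_zero (k : ℕ) : cf p m k 0 = 0 := (cfHom p m k).map_zero

theorem cf_neg (k : ℕ) (r : Rm p m) : cf p m k (-r) = -cf p m k r := (cfHom p m k).map_neg r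

theorem cf_sum {ι : Type} (k : ℕ) (I : Finset ι) (f : ι → Rm p m) :
    cf p m k (∑ i ∈ I, f i) = ∑ i ∈ I, cf p m k (f i) := map_sum (cfHom p m k) f I

theorem cf_sc_mul (k : ℕ) (c : ZMod p) (r : Rm p m) :
    cf p m k (sc p m c * r) = c * cf p m k r := by
  rcases lt_or_ge k m with hk | hk
  · obtain ⟨P, rfl⟩ := Ideal.Quotient.mk_surjective r
    rw [sc, ← map_mul, cf_mk hk, cf_mk hk, Polynomial.coeff_C_mul]
  · simp [cf_of_le hk]

theorem tt_pow (k : ℕ) : tt p m ^ k = Ideal.Quotient.mk _ ((Polynomial.X : Polynomial (ZMod p)) ^ k) :=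
  (map_pow _ _ _).symm

theorem cf_tt_pow {k : ℕ} (hk : k < m) : cf p m k (tt p m ^ k) = 1 := by
  rw [tt_pow, cf_mk hk, Polynomial.coeff_X_pow_self]

theorem cf_of_mem {k : ℕ} {r : Rm p m} (h : r ∈ Ideal.span {tt p m ^ (k + 1)}) :
    cf p m k r = 0 := by
  rcases lt_or_ge k m with hk | hk
  · obtain ⟨s, rfl⟩ := Ideal.mem_span_singleton.1 h
    obtain ⟨Q, rfl⟩ := Ideal.Quotient.mk_surjective s
    rw [tt_pow, ← map_mul, cf_mk hk, Polynomial.coeff_X_pow_mul', if_neg (by omega)]
  · exact cf_of_le hk r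

theorem sc_add (c d : ZMod p) : sc p m (c + d) = sc p m c + sc p m d := by simp [sc]

theorem sc_mul (c d : ZMod p) : sc p m (c * d) = sc p m c * sc p m d := by simp [sc]

theorem sc_zero : sc p m 0 = 0 := by simp [sc]

theorem sc_one : sc p m 1 = 1 := by simp [sc]

theorem sc_sum {ι : Type} (I : Finset ι) (f : ι → ZMod p) :
    sc p m (∑ i ∈ I, f i) = ∑ i ∈ I, sc p m (f i) := by simp [sc, map_sum]

/-! Changes of colours -/

/-- Coordinates of a change of colours. -/
abbrev Tup (n M p : ℕ) : Type := Fin n → Matrix (Fin M) (Fin M) (ZMod p)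

/-- The matrix of a change of colours. -/
noncomputable def blk (n M p m : ℕ) (T : Tup n M p) : BM n M p m :=
  Matrix.of fun i j => Matrix.diagonal fun a => sc p m (T a i j)

theorem blk_mul (T U : Tup n M p) : blk n M p m (T * U) = blk n M p m T * blk n M p m U := by
  refine Matrix.ext fun i l => Matrix.ext fun a b => ?_
  simp only [blk, Matrix.mul_apply, Matrix.of_apply, Matrix.sum_apply, Pi.mul_apply,
    Matrix.diagonal_apply]
  by_cases hab : a = b
  · subst hab
    simp [sc_sum, sc_mul]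
  · simp [hab]

theorem blk_one : blk n M p m 1 = 1 := by
  refine Matrix.ext fun i l => Matrix.ext fun a b => ?_
  simp only [blk, Matrix.of_apply, Matrix.diagonal_apply, Pi.one_apply]
  by_cases hil : i = l
  · subst hil
    simp [sc_one, Matrix.one_apply]
  · simp [hil, sc_zero]

/-- Entries of a conjugate. -/
theorem blk_conj_apply (T U : Tup n M p) (X : BM n M p m) (i l : Fin M) (a b : Fin n) :
    (blk n M p m T * X * blk n M p m U) i l a b =
      ∑ k, ∑ j, sc p m (T a i j) * X j k a b * sc p m (U b k l) := by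
  simp only [blk, Matrix.mul_apply, Matrix.of_apply, Matrix.sum_apply, Finset.sum_mul,
    Matrix.diagonal_apply, ite_mul, mul_ite, zero_mul, mul_zero, Finset.sum_ite_eq,
    Finset.sum_ite_eq', Finset.mem_univ, if_true]

/-- The identity outside the colours of `S`. -/
def Supp (S : Finset (Fin M)) (T : Tup n M p) : Prop :=
  ∀ a i j, (i ∉ S ∨ j ∉ S) → T a i j = (1 : Matrix (Fin M) (Fin M) (ZMod p)) i j

theorem supp_inv {S : Finset (Fin M)} {T U : Tup n M p} (hT : Supp S T) (h1 : T * U = 1)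
    (h2 : U * T = 1) : Supp S U := by
  intro a i l h
  rcases h with hi | hl
  · have h3 := congrArg (fun A : Tup n M p => A a i l) h1
    simp only [Pi.mul_apply, Matrix.mul_apply, Pi.one_apply] at h3
    rw [Finset.sum_eq_single i] at h3
    · rwa [hT a i i (Or.inl hi), Matrix.one_apply_eq, one_mul] at h3
    · intro j _ hj
      rw [hT a i j (Or.inl hi), Matrix.one_apply_ne hj.symm, zero_mul]
    · simp
  · have h3 := congrArg (fun A : Tup n M p => A a i l) h2
    simp only [Pi.mul_apply, Matrix.mul_apply, Pi.one_apply] at h3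
    rw [Finset.sum_eq_single l] at h3
    · rwa [hT a l l (Or.inl hl), Matrix.one_apply_eq, mul_one] at h3
    · intro j _ hj
      rw [hT a j l (Or.inr hl), Matrix.one_apply_ne hj, mul_zero]
    · simp

/-- The unit given by mutually inverse coordinates. -/
noncomputable def thetaUnit (n M p m : ℕ) (T U : Tup n M p) (h1 : T * U = 1) (h2 : U * T = 1) :
    Ga n M p m :=
  ⟨blk n M p m T, blk n M p m U, by rw [← blk_mul, h1, blk_one], by rw [← blk_mul, h2, blk_one]⟩

theorem thetaUnit_mem {S : Finset (Fin M)} {T U : Tup n M p} (hT : Supp S T) (h1 : T * U = 1)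
    (h2 : U * T = 1) : thetaUnit n M p m T U h1 h2 ∈ ThetaSet n M p m S :=
  ⟨T, hT, fun _ _ => rfl⟩

/-- An element of `ThetaSet` has invertible coordinates. -/
theorem theta_data (hm : 1 ≤ m) {S : Finset (Fin M)} {θ : Ga n M p m}
    (hθ : θ ∈ ThetaSet n M p m S) :
    ∃ T U : Tup n M p, ∃ h1 : T * U = 1, ∃ h2 : U * T = 1,
      Supp S T ∧ Supp S U ∧ θ = thetaUnit n M p m T U h1 h2 := by
  obtain ⟨T, hT, hθT⟩ := hθ
  let ev : Rm p m →+* ZMod p := Ideal.Quotient.lift _ (Polynomial.evalRingHom 0) (by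
    intro x hx
    obtain ⟨y, rfl⟩ := Ideal.mem_span_singleton.1 hx
    simp [show m ≠ 0 by omega])
  have evsc : ∀ c, ev (sc p m c) = c := fun c => by simp [ev, sc]
  let U : Tup n M p := fun a => Matrix.of fun i j => ev (((θ⁻¹ : Ga n M p m) : BM n M p m) i j a a)
  have h1 : T * U = 1 := by
    funext a
    refine Matrix.ext fun i l => ?_
    have h := congrArg (fun A : BM n M p m => ev (A i l a a)) θ.mul_inv
    simp only [Matrix.mul_apply, Matrix.sum_apply, hθT, map_sum, Matrix.diagonal_apply, ite_mul,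
      zero_mul, Finset.sum_ite_eq, Finset.mem_univ, if_true, map_mul, evsc] at h
    simp only [Pi.mul_apply, Matrix.mul_apply, U, Matrix.of_apply, Pi.one_apply]
    refine h.trans ?_
    by_cases hil : i = l
    · subst hil; simp [Matrix.one_apply]
    · simp [Matrix.one_apply, hil]
  have h2 : U * T = 1 := by
    funext a
    exact mul_eq_one_comm.1 (congrFun h1 a)
  refine ⟨T, U, h1, h2, hT, supp_inv hT h1 h2, Units.ext (Matrix.ext fun i j => ?_)⟩
  exact hθT i j

theorem conj_sub_one {T U : Tup n M p} (h1 : T * U = 1) (h2 : U * T = 1) (g : Ga n M p m) :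
    ((thetaUnit n M p m T U h1 h2 * g * (thetaUnit n M p m T U h1 h2)⁻¹ : Ga n M p m) :
        BM n M p m) - 1 =
      blk n M p m T * ((g : BM n M p m) - 1) * blk n M p m U := by
  show blk n M p m T * (g : BM n M p m) * blk n M p m U - 1 = _
  rw [mul_sub, sub_mul, mul_one, ← blk_mul, h1, blk_one]

theorem conj_entry_mem {T U : Tup n M p} (h1 : T * U = 1) (h2 : U * T = 1) {g : Ga n M p m}
    {a b : Fin n} {I : Ideal (Rm p m)} (h : ∀ i j, ((g : BM n M p m) - 1) i j a b ∈ I)
    (i l : Fin M) :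
    (((thetaUnit n M p m T U h1 h2 * g * (thetaUnit n M p m T U h1 h2)⁻¹ : Ga n M p m) :
        BM n M p m) - 1) i l a b ∈ I := by
  rw [conj_sub_one, blk_conj_apply]
  exact I.sum_mem fun k _ => I.sum_mem fun j _ => I.mul_mem_right _ (I.mul_mem_left _ (h j k))

theorem conj_gset {S : Finset (Fin M)} {T U : Tup n M p} (h1 : T * U = 1) (h2 : U * T = 1)
    (hT : Supp S T) (hU : Supp S U) {g : Ga n M p m} (hg : g ∈ GSet n M p m S) :
    thetaUnit n M p m T U h1 h2 * g * (thetaUnit n M p m T U h1 h2)⁻¹ ∈ GSet n M p m S := by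
  obtain ⟨hnf, hsupp, hdet⟩ := hg
  refine ⟨fun i l a b hba => conj_entry_mem h1 h2 (fun j k => hnf j k a b hba) i l,
    fun i l hil => Matrix.ext fun a b => ?_, ?_⟩
  · rw [conj_sub_one, blk_conj_apply, Matrix.zero_apply]
    refine Finset.sum_eq_zero fun k _ => Finset.sum_eq_zero fun j _ => ?_
    rcases hil with hi | hl
    · by_cases hij : i = j
      · subst hij; rw [hsupp i k (Or.inl hi)]; simp
      · rw [hT a i j (Or.inl hi), Matrix.one_apply_ne hij, sc_zero]; simp
    · by_cases hkl : k = l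
      · subst hkl; rw [hsupp j k (Or.inr hl)]; simp
      · rw [hU b k l (Or.inr hl), Matrix.one_apply_ne hkl, sc_zero]; simp
  · let e := Matrix.compRingEquiv (Fin M) (Fin n) (Rm p m)
    show (e (blk n M p m T * (g : BM n M p m) * blk n M p m U)).det = 1
    rw [map_mul, map_mul, Matrix.det_mul, Matrix.det_mul]
    have : (e (g : BM n M p m)).det = 1 := hdet
    rw [this, mul_one, ← Matrix.det_mul, ← map_mul, ← blk_mul, h1, blk_one, map_one,
      Matrix.det_one]

theorem conj_kset {v : Fin n} {T U : Tup n M p} (h1 : T * U = 1) (h2 : U * T = 1)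
    {g : Ga n M p m} (hg : g ∈ KSet n M p m {v}) :
    thetaUnit n M p m T U h1 h2 * g * (thetaUnit n M p m T U h1 h2)⁻¹ ∈ KSet n M p m {v} := by
  choose c hc hcg using hg
  intro i l
  refine ⟨fun a b => ∑ k, ∑ j, T a i j * c j k a b * U b k l, fun u hu a b h => ?_, fun a b => ?_⟩
  · exact Finset.sum_eq_zero fun k _ => Finset.sum_eq_zero fun j _ => by simp [hc j k u hu a b h]
  · rw [conj_sub_one, blk_conj_apply]
    simp only [hcg]
    by_cases hab : a = b
    · simp [hab]
    · simp only [if_neg hab, sc_sum, sc_mul, Finset.sum_mul]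
      exact Finset.sum_congr rfl fun k _ => Finset.sum_congr rfl fun j _ => by ring

theorem conj_closure {G : Type} [Group G] {s : Set G} {θ : G}
    (h : ∀ g ∈ s, θ * g * θ⁻¹ ∈ s) {g : G} (hg : g ∈ Subgroup.closure s) :
    θ * g * θ⁻¹ ∈ Subgroup.closure s := by
  have : Subgroup.closure s ≤ (Subgroup.closure s).comap (MulAut.conj θ).toMonoidHom :=
    (Subgroup.closure_le _).2 fun x hx => Subgroup.subset_closure (h x hx)
  exact this hg

/-- The closure properties of `ThetaSet`. -/
theorem theta_closure (hm : 1 ≤ m) (S : Finset (Fin M)) :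
    ∀ θ ∈ ThetaSet n M p m S, θ⁻¹ ∈ ThetaSet n M p m S ∧
      (∀ g ∈ GS n M p m S, θ * g * θ⁻¹ ∈ GS n M p m S) ∧
      ∀ v, ∀ g ∈ Kv n M p m v, θ * g * θ⁻¹ ∈ Kv n M p m v := by
  intro θ hθ
  obtain ⟨T, U, h1, h2, hT, hU, rfl⟩ := theta_data hm hθ
  exact ⟨thetaUnit_mem hU h2 h1, fun g hg => conj_closure (fun x hx => conj_gset h1 h2 hT hU hx) hg,
    fun v g hg => conj_closure (fun x hx => conj_kset h1 h2 hx) hg⟩

theorem conj_gx {S : Finset (Fin M)} {x : ℕ} {T U : Tup n M p} (h1 : T * U = 1) (h2 : U * T = 1)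
    (hT : Supp S T) (hU : Supp S U) {g : Ga n M p m} (hg : g ∈ Gx n M p m x) :
    thetaUnit n M p m T U h1 h2 * g * (thetaUnit n M p m T U h1 h2)⁻¹ ∈ Gx n M p m x := by
  refine ⟨conj_gset h1 h2 (fun a i j h => ?_) (fun a i j h => ?_) hg.1,
    fun i l a b k hk => conj_entry_mem h1 h2 (fun j j' => hg.2 j j' a b k hk) i l⟩
  · simp at h
  · simp at h

/-- The type reached from `a` by weight `x`. -/
def tgt {n : ℕ} (x : ℕ) (a : Fin n) : Fin n := ⟨(a.1 + x) % n, Nat.mod_lt _ a.pos⟩

theorem lam_conj {x : ℕ} {T U : Tup n M p} (h1 : T * U = 1) (h2 : U * T = 1) (g : Ga n M p m)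
    (a : Fin n) (i l : Fin M) :
    lam n M p m x (thetaUnit n M p m T U h1 h2 * g * (thetaUnit n M p m T U h1 h2)⁻¹) a i l =
      ∑ k, ∑ j, T a i j * lam n M p m x g a j k * U (tgt x a) k l := by
  simp only [lam]
  rw [conj_sub_one, blk_conj_apply, cf_sum]
  refine Finset.sum_congr rfl fun k _ => ?_
  rw [cf_sum]
  refine Finset.sum_congr rfl fun j _ => ?_
  rw [mul_comm (sc p m (T a i j) * _) (sc p m _), cf_sc_mul, cf_sc_mul]
  show U (tgt x a) k l * (T a i j * _) = T a i j * _ * U (tgt x a) k l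
  ring

end Vale.Agent.P067.Full.ThetaAux

end
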